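import Vale.Agent.P214.REF.Sol

/-!
# P214, block REF: exact minimal graphs near approximate ones

`gm u x` is the metric of the graph of `u : E m → ℝⁿ` at `x`, and
`Mop u a x = ∑ adj(g)_ij ∂_i ∂_j u_a` is the operator of the minimal surface system in
non-divergence form, multiplied by the determinant of the metric.
-/

open MvPolynomial
open scoped ContDiff

namespace Vale.Agent.P214.REF

noncomputable section

variable {m n : ℕ}

/-- the metric of the graph -/
def gm (u : Fin n → E m → ℝ) (x : E m) : Matrix (Fin m) (Fin m) ℝ :=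
  1 + Matrix.of fun i j => ∑ b, pd i (u b) x * pd j (u b) x

/-- the minimal surface operator -/
def Mop (u : Fin n → E m → ℝ) (a : Fin n) (x : E m) : ℝ :=
  ∑ i, ∑ j, (gm u x).adjugate i j * pd i (pd j (u a)) x

/-- the metric as a matrix of polynomials in the first derivatives -/
def gp (m n : ℕ) : Matrix (Fin m) (Fin m) (MvPolynomial (Fin m × Fin n) ℝ) :=
  1 + Matrix.of fun i j => ∑ b, X (i, b) * X (j, b)

/-- the coefficients of the quasilinear system -/
def cp (m n : ℕ) (i j : Fin m) : MvPolynomial (Fin m × Fin n) ℝ :=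
  (1 : Matrix (Fin m) (Fin m) (MvPolynomial (Fin m × Fin n) ℝ)) i j - (gp m n).adjugate i j

lemma map_gp_const : (gp m n).map constantCoeff = 1 := by
  ext i j
  unfold gp
  simp only [Matrix.map_apply, Matrix.add_apply, Matrix.of_apply, map_add, map_sum, map_mul,
    constantCoeff_X, mul_zero, Finset.sum_const_zero, add_zero]
  by_cases h : i = j
  · subst h
    simp
  · simp [Matrix.one_apply_ne h]

lemma constantCoeff_cp (i j : Fin m) : constantCoeff (cp m n i j) = 0 := by
  unfold cp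
  have h1 : constantCoeff ((gp m n).adjugate i j) = (1 : Matrix (Fin m) (Fin m) ℝ) i j := by
    have h2 := RingHom.map_adjugate (constantCoeff (σ := Fin m × Fin n) (R := ℝ)) (gp m n)
    have h3 : (constantCoeff (σ := Fin m × Fin n) (R := ℝ)).mapMatrix (gp m n) = 1 := map_gp_const
    rw [h3, Matrix.adjugate_one] at h2
    have h4 := congrFun (congrFun h2 i) j
    exact h4
  rw [map_sub, h1]
  by_cases h : i = j
  · subst h
    simp
  · simp [Matrix.one_apply_ne h]

lemma eval_gp (u : Fin n → E m → ℝ) (x : E m) :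
    (gp m n).map (eval fun s : Fin m × Fin n => pd s.1 (u s.2) x) = gm u x := by
  ext i j
  unfold gp gm
  simp only [Matrix.map_apply, Matrix.add_apply, Matrix.of_apply, map_add, map_sum, map_mul,
    eval_X]
  congr 1
  by_cases h : i = j
  · subst h
    simp
  · simp [Matrix.one_apply_ne h]

lemma eval_cp (u : Fin n → E m → ℝ) (x : E m) (i j : Fin m) :
    eval (fun s : Fin m × Fin n => pd s.1 (u s.2) x) (cp m n i j) =
      (1 : Matrix (Fin m) (Fin m) ℝ) i j - (gm u x).adjugate i j := by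
  unfold cp
  have h1 : eval (fun s : Fin m × Fin n => pd s.1 (u s.2) x) ((gp m n).adjugate i j) =
      (gm u x).adjugate i j := by
    have h2 := RingHom.map_adjugate (eval fun s : Fin m × Fin n => pd s.1 (u s.2) x) (gp m n)
    have h3 : (eval fun s : Fin m × Fin n => pd s.1 (u s.2) x).mapMatrix (gp m n) = gm u x :=
      eval_gp u x
    rw [h3] at h2
    exact congrFun (congrFun h2 i) j
  rw [map_sub, h1]
  congr 1
  by_cases h : i = j
  · subst h
    simp
  · simp [Matrix.one_apply_ne h]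

lemma Qop_cp (u : Fin n → E m → ℝ) (a : Fin n) (x : E m) : Qop (cp m n) u a x = Mop u a x := by
  unfold Qop Mop
  have h1 : ∑ i, pd i (pd i (u a)) x =
      ∑ i, ∑ j, (1 : Matrix (Fin m) (Fin m) ℝ) i j * pd i (pd j (u a)) x := by
    refine Finset.sum_congr rfl fun i _ => ?_
    rw [Finset.sum_eq_single i]
    · simp
    · intro j _ hj
      rw [Matrix.one_apply_ne hj.symm, zero_mul]
    · intro h
      exact absurd (Finset.mem_univ i) h
  rw [h1, ← Finset.sum_sub_distrib]
  refine Finset.sum_congr rfl fun i _ => ?_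
  rw [← Finset.sum_sub_distrib]
  refine Finset.sum_congr rfl fun j _ => ?_
  rw [eval_cp]
  ring

/-- **exact minimal graphs near approximate ones** -/
theorem exists_minimal (m n J : ℕ) : ∃ ε₀ : ℝ, 0 < ε₀ ∧ ∃ C : ℝ, 0 ≤ C ∧
    ∀ u : Fin n → E m → ℝ, (∀ a, ContDiff ℝ ∞ (u a)) →
      (∀ a, ∀ k, 1 ≤ k → k ≤ J + 2 * m + 2 → ∀ x, ‖x‖ < 1 / 2 →
        ‖iteratedFDeriv ℝ k (u a) x‖ ≤ ε₀) →
      ∀ δ : ℝ, δ ≤ ε₀ →
      (∀ a, ∀ k ≤ J + 2 * m, ∀ x, ‖x‖ < 1 / 2 → ‖iteratedFDeriv ℝ k (Mop u a) x‖ ≤ δ) →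
      ∃ v : Fin n → E m → ℝ, (∀ a, ContDiff ℝ ∞ (v a)) ∧
        (∀ a x, ‖x‖ < 1 / 8 → Mop (fun b y => u b y + v b y) a x = 0) ∧
        ∀ a, ∀ j ≤ J + 2, ∀ x, ‖iteratedFDeriv ℝ j (v a) x‖ ≤ C * δ := by
  obtain ⟨ε₀, h0, C, hC, h⟩ := exists_exact (cp m n) constantCoeff_cp J
  refine ⟨ε₀, h0, C, hC, fun u hu hs δ hδ hd => ?_⟩
  obtain ⟨v, hv1, hv2, hv3⟩ := h u hu hs δ hδ (by
    intro a k hk x hx
    have e : Qop (cp m n) u a = Mop u a := funext fun x => Qop_cp u a x
    rw [e]
    exact hd a k hk x hx)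
  refine ⟨v, hv1, fun a x hx => ?_, hv3⟩
  rw [← Qop_cp]
  exact hv2 a x hx

/-- the metric is positive definite -/
lemma gm_posDef (u : Fin n → E m → ℝ) (x : E m) : (gm u x).PosDef := by
  unfold gm
  refine Matrix.PosDef.add_posSemidef Matrix.PosDef.one ?_
  have h1 : (Matrix.of fun i j => ∑ b, pd i (u b) x * pd j (u b) x : Matrix (Fin m) (Fin m) ℝ) =
      (Matrix.of fun i b => pd i (u b) x) * (Matrix.of fun i b => pd i (u b) x).conjTranspose := by
    ext i j
    simp [Matrix.mul_apply]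
  rw [h1]
  exact Matrix.posSemidef_self_mul_conjTranspose _

/-- the minimal surface system with the inverse metric -/
lemma Mop_eq (u : Fin n → E m → ℝ) (a : Fin n) (x : E m) :
    Mop u a x = (gm u x).det * ∑ i, ∑ j, (gm u x)⁻¹ i j * pd i (pd j (u a)) x := by
  have hd : (gm u x).det ≠ 0 := (gm_posDef u x).det_pos.ne'
  have h1 : ∀ i j, (gm u x).adjugate i j = (gm u x).det * (gm u x)⁻¹ i j := by
    intro i j
    rw [Matrix.inv_def, Matrix.smul_apply, smul_eq_mul, Ring.inverse_eq_inv', ← mul_assoc,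
      mul_inv_cancel₀ hd, one_mul]
  unfold Mop
  simp only [h1, Finset.mul_sum, mul_assoc]

lemma Mop_eq_zero_iff (u : Fin n → E m → ℝ) (a : Fin n) (x : E m) :
    Mop u a x = 0 ↔ ∑ i, ∑ j, (gm u x)⁻¹ i j * pd i (pd j (u a)) x = 0 := by
  rw [Mop_eq, mul_eq_zero]
  have hd : (gm u x).det ≠ 0 := (gm_posDef u x).det_pos.ne'
  simp [hd]

end

end Vale.Agent.P214.REF
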