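import Vale.Agent.P214.REF.Per

/-!
# P214, block REF: cut-off functions with controlled derivatives
-/

open scoped ContDiff Topology

namespace Vale.Agent.P214.REF

noncomputable section

variable {m : ℕ}

/-- the smooth transition has bounded derivatives -/
lemma smoothTransition_bound (k : ℕ) : ∃ B : ℝ, 0 ≤ B ∧
    ∀ x, ‖iteratedFDeriv ℝ k Real.smoothTransition x‖ ≤ B := by
  have hc : ContDiff ℝ ∞ Real.smoothTransition := Real.smoothTransition.contDiff
  have hcont : Continuous (iteratedFDeriv ℝ k Real.smoothTransition) :=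
    hc.continuous_iteratedFDeriv (by exact_mod_cast le_top)
  obtain ⟨B, hB⟩ := (isCompact_Icc (a := (-1 : ℝ)) (b := 2)).exists_bound_of_continuousOn
    hcont.continuousOn
  have hB0 : 0 ≤ B := (norm_nonneg _).trans (hB 0 (by constructor <;> norm_num))
  refine ⟨B + 1, by positivity, fun x => ?_⟩
  by_cases hx : x ∈ Set.Icc (-1 : ℝ) 2
  · exact (hB x hx).trans (by linarith)
  · -- locally constant
    rcases Nat.eq_zero_or_pos k with hk | hk
    · subst hk
      rw [norm_iteratedFDeriv_zero, Real.norm_eq_abs, abs_of_nonneg (Real.smoothTransition.nonneg x)]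
      linarith [Real.smoothTransition.le_one x]
    · have h1 : ∃ c : ℝ, Real.smoothTransition =ᶠ[𝓝 x] fun _ => c := by
        rcases lt_or_ge x 0 with h | h
        · refine ⟨0, ?_⟩
          filter_upwards [Iio_mem_nhds h] with y hy
          exact Real.smoothTransition.zero_of_nonpos (le_of_lt hy)
        · have h2 : 1 < x := by
            by_contra hc
            push Not at hc
            exact hx ⟨by linarith, by linarith⟩
          refine ⟨1, ?_⟩
          filter_upwards [Ioi_mem_nhds h2] with y hy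
          exact Real.smoothTransition.one_of_one_le (le_of_lt hy)
      obtain ⟨c, hc⟩ := h1
      rw [(hc.iteratedFDeriv ℝ k).eq_of_nhds]
      have h3 : iteratedFDeriv ℝ k (fun _ : ℝ => c) = 0 := iteratedFDeriv_const_of_ne hk.ne' c
      rw [h3]
      simp
      positivity

/-- the cut-off function: one for `‖x‖ ≤ a`, zero for `b ≤ ‖x‖` -/
def ctf (a b : ℝ) (x : E m) : ℝ := Real.smoothTransition ((b ^ 2 - ‖x‖ ^ 2) / (b ^ 2 - a ^ 2))

lemma contDiff_ctf (a b : ℝ) : ContDiff ℝ ∞ (ctf (m := m) a b) := by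
  unfold ctf
  refine Real.smoothTransition.contDiff.comp ?_
  exact (contDiff_const.sub (contDiff_norm_sq ℝ)).div_const _

lemma ctf_one {a b : ℝ} (ha : 0 < a) (hab : a < b) {x : E m} (hx : ‖x‖ ≤ a) : ctf a b x = 1 := by
  unfold ctf
  refine Real.smoothTransition.one_of_one_le ?_
  rw [le_div_iff₀ (by nlinarith)]
  nlinarith [norm_nonneg x]

lemma ctf_zero {a b : ℝ} (ha : 0 < a) (hab : a < b) {x : E m} (hx : b ≤ ‖x‖) : ctf a b x = 0 := by
  unfold ctf
  refine Real.smoothTransition.zero_of_nonpos ?_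
  refine div_nonpos_of_nonpos_of_nonneg ?_ ?_
  · nlinarith [norm_nonneg x]
  · nlinarith

lemma ctf_nonneg (a b : ℝ) (x : E m) : 0 ≤ ctf a b x := Real.smoothTransition.nonneg _

lemma ctf_le_one (a b : ℝ) (x : E m) : ctf a b x ≤ 1 := Real.smoothTransition.le_one _

/-- derivatives of the squared norm -/
lemma iteratedFDeriv_normsq_bound (x : E m) (i : ℕ) (hi : 1 ≤ i) :
    ‖iteratedFDeriv ℝ i (fun x : E m => ‖x‖ ^ 2) x‖ ≤ if i = 1 then 2 * ‖x‖ else 2 := by
  have h1 : ∀ x : E m, fderiv ℝ (fun x : E m => ‖x‖ ^ 2) x = (2 : ℝ) • innerSL ℝ x := by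
    intro x
    have := (hasStrictFDerivAt_norm_sq x).hasFDerivAt.fderiv
    rw [this]
    ext y
    simp [two_smul]
  have h2 : fderiv ℝ (fun x : E m => ‖x‖ ^ 2) = fun x => ((2 : ℝ) • innerSL ℝ : E m →L[ℝ] _) x := by
    funext x
    rw [h1]
    rfl
  obtain ⟨j, rfl⟩ : ∃ j, i = j + 1 := ⟨i - 1, by omega⟩
  rw [← norm_iteratedFDeriv_fderiv, h2]
  rcases Nat.eq_zero_or_pos j with hj | hj
  · subst hj
    rw [norm_iteratedFDeriv_zero, zero_add, if_pos rfl]
    change ‖(2 : ℝ) • innerSL ℝ x‖ ≤ _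
    rw [norm_smul, innerSL_apply_norm, Real.norm_eq_abs, abs_of_pos two_pos]
  · rw [if_neg (by omega)]
    obtain ⟨l, rfl⟩ : ∃ l, j = l + 1 := ⟨j - 1, by omega⟩
    rw [← norm_iteratedFDeriv_fderiv]
    have h3 : fderiv ℝ (fun x => ((2 : ℝ) • innerSL ℝ : E m →L[ℝ] (E m →L[ℝ] ℝ)) x) =
        fun _ => ((2 : ℝ) • innerSL ℝ : E m →L[ℝ] (E m →L[ℝ] ℝ)) := by
      funext x
      exact ((2 : ℝ) • innerSL ℝ : E m →L[ℝ] (E m →L[ℝ] ℝ)).fderiv
    rw [h3]
    rcases Nat.eq_zero_or_pos l with hl | hl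
    · subst hl
      rw [norm_iteratedFDeriv_zero, norm_smul, Real.norm_eq_abs, abs_of_pos two_pos]
      have := norm_innerSL_le ℝ (E := E m)
      linarith
    · have h4 : iteratedFDeriv ℝ l (fun _ : E m =>
          ((2 : ℝ) • innerSL ℝ : E m →L[ℝ] (E m →L[ℝ] ℝ))) = 0 :=
        iteratedFDeriv_const_of_ne hl.ne' _
      rw [h4]
      simp

/-- **cut-off functions with controlled derivatives** -/
theorem ctf_bound (k : ℕ) : ∃ C : ℝ, 0 ≤ C ∧ ∀ a b : ℝ, 0 < a → a < b → b ≤ 1 → ∀ x : E m,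
    ‖iteratedFDeriv ℝ k (ctf a b) x‖ ≤ C * (b - a)⁻¹ ^ k := by
  choose B hB0 hB using smoothTransition_bound
  set M : ℝ := ∑ i ∈ Finset.range (k + 1), B i with hM
  have hM0 : 0 ≤ M := Finset.sum_nonneg fun i _ => hB0 i
  refine ⟨k.factorial * M * 2 ^ k, by positivity, fun a b ha hab hb1 x => ?_⟩
  have hba : 0 < b - a := by linarith
  have hb : 0 < b := ha.trans hab
  have hq : 0 < b ^ 2 - a ^ 2 := by nlinarith
  have hD : 0 < 2 * (b - a)⁻¹ := by positivity
  by_cases hx : ‖x‖ ≤ b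
  · have h1 : ctf a b = Real.smoothTransition ∘
        (fun x : E m => (b ^ 2 - ‖x‖ ^ 2) / (b ^ 2 - a ^ 2)) := rfl
    have hf : ContDiff ℝ ∞ (fun x : E m => (b ^ 2 - ‖x‖ ^ 2) / (b ^ 2 - a ^ 2)) :=
      (contDiff_const.sub (contDiff_norm_sq ℝ)).div_const _
    rw [h1]
    have h2 := norm_iteratedFDeriv_comp_le (n := k) (N := ∞) (C := M) (D := 2 * (b - a)⁻¹)
      Real.smoothTransition.contDiff hf (by exact_mod_cast le_top) x (fun i hi =>
        (hB i _).trans (Finset.single_le_sum (f := B) (fun i _ => hB0 i)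
          (Finset.mem_range.2 (by omega)))) (fun i hi1 hi => by
        have h3 : (fun x : E m => (b ^ 2 - ‖x‖ ^ 2) / (b ^ 2 - a ^ 2)) =
            fun x : E m => b ^ 2 / (b ^ 2 - a ^ 2) - (b ^ 2 - a ^ 2)⁻¹ • (fun x : E m => ‖x‖ ^ 2) x := by
          funext x
          simp only [smul_eq_mul]
          field_simp
        have h4 : iteratedFDeriv ℝ i (fun x : E m => (b ^ 2 - ‖x‖ ^ 2) / (b ^ 2 - a ^ 2)) x =
            -((b ^ 2 - a ^ 2)⁻¹ • iteratedFDeriv ℝ i (fun x : E m => ‖x‖ ^ 2) x) := by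
          rw [h3]
          have h5 : iteratedFDeriv ℝ i (fun x : E m => b ^ 2 / (b ^ 2 - a ^ 2) -
              (b ^ 2 - a ^ 2)⁻¹ • (fun x : E m => ‖x‖ ^ 2) x) x =
              iteratedFDeriv ℝ i (fun _ : E m => b ^ 2 / (b ^ 2 - a ^ 2)) x -
              iteratedFDeriv ℝ i (fun x : E m => (b ^ 2 - a ^ 2)⁻¹ • (fun x : E m => ‖x‖ ^ 2) x) x :=
            iteratedFDeriv_sub_apply contDiff_const.contDiffAt
              ((contDiff_norm_sq ℝ).const_smul _).contDiffAt
          rw [h5]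
          have h6 : iteratedFDeriv ℝ i (fun _ : E m => b ^ 2 / (b ^ 2 - a ^ 2)) = 0 :=
            iteratedFDeriv_const_of_ne (by omega) _
          have h7 : iteratedFDeriv ℝ i
              (fun x : E m => (b ^ 2 - a ^ 2)⁻¹ • (fun x : E m => ‖x‖ ^ 2) x) x =
              (b ^ 2 - a ^ 2)⁻¹ • iteratedFDeriv ℝ i (fun x : E m => ‖x‖ ^ 2) x :=
            iteratedFDeriv_const_smul_apply' (contDiff_norm_sq ℝ).contDiffAt
          rw [h6, h7]
          simp
        rw [h4, norm_neg, norm_smul, norm_inv, Real.norm_eq_abs, abs_of_pos hq]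
        have h8 := iteratedFDeriv_normsq_bound x i hi1
        have h9 : (b ^ 2 - a ^ 2)⁻¹ ≤ (b - a)⁻¹ * b⁻¹ := by
          rw [← mul_inv]
          refine inv_anti₀ (by positivity) ?_
          nlinarith
        by_cases hi' : i = 1
        · subst hi'
          rw [if_pos rfl] at h8
          rw [pow_one]
          calc (b ^ 2 - a ^ 2)⁻¹ * ‖iteratedFDeriv ℝ 1 (fun x : E m => ‖x‖ ^ 2) x‖
              ≤ ((b - a)⁻¹ * b⁻¹) * (2 * b) := by
                gcongr
                exact h8.trans (by gcongr)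
            _ = 2 * (b - a)⁻¹ := by
                field_simp
        · rw [if_neg hi'] at h8
          have h10 : b⁻¹ ≤ (b - a)⁻¹ := inv_anti₀ hba (by linarith)
          have h12 : 1 ≤ (b - a)⁻¹ := by
            rw [one_le_inv₀ hba]
            linarith
          have h11 : (2 * (b - a)⁻¹) ^ 2 ≤ (2 * (b - a)⁻¹) ^ i :=
            pow_le_pow_right₀ (by linarith) (by omega)
          calc (b ^ 2 - a ^ 2)⁻¹ * ‖iteratedFDeriv ℝ i (fun x : E m => ‖x‖ ^ 2) x‖
              ≤ ((b - a)⁻¹ * (b - a)⁻¹) * 2 := by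
                gcongr
                exact h9.trans (by gcongr)
            _ ≤ (2 * (b - a)⁻¹) ^ 2 := by
                rw [mul_pow]
                have : 0 ≤ (b - a)⁻¹ ^ 2 := by positivity
                nlinarith
            _ ≤ _ := h11)
    refine h2.trans (le_of_eq ?_)
    rw [mul_pow]
    ring
  · have h1 : ctf a b =ᶠ[𝓝 x] fun _ => 0 := by
      have h2 : {y : E m | b < ‖y‖} ∈ 𝓝 x :=
        (isOpen_lt continuous_const continuous_norm).mem_nhds (not_le.1 hx)
      filter_upwards [h2] with y hy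
      exact ctf_zero ha hab (le_of_lt hy)
    rw [(h1.iteratedFDeriv ℝ k).eq_of_nhds]
    have h3 : iteratedFDeriv ℝ k (fun _ : E m => (0 : ℝ)) x = 0 := by
      rw [iteratedFDeriv_fun_zero]
      rfl
    rw [h3, norm_zero]
    positivity

end

end Vale.Agent.P214.REF
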