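import Vale.Agent.P214.REF.Step

/-!
# P214, block REF2: global small functions, prescribed defect

`u` small, smooth, supported in the ball of radius `3/8`; `d` small, smooth, supported in the ball
of radius `7/16`.  There is a small smooth `v`, supported in the ball of radius `3/8`, with
`M (u + v) = M u - d` on the ball of radius `9/32`.
-/

open MvPolynomial MeasureTheory
open scoped ENNReal ContDiff FourierTransform Topology

namespace Vale.Agent.P214.REF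

noncomputable section

variable {m n : ℕ}

/-! ### locality -/

lemma pd_congr {u u' : E m → ℝ} {x : E m} (h : u =ᶠ[𝓝 x] u') (i : Fin m) :
    pd i u =ᶠ[𝓝 x] pd i u' := by
  filter_upwards [Filter.EventuallyEq.fderiv (𝕜 := ℝ) h] with y hy
  unfold pd
  rw [hy]

lemma Qop_congr (c : Fin m → Fin m → MvPolynomial (Fin m × Fin n) ℝ) {u u' : Fin n → E m → ℝ}
    {x : E m} (h : ∀ b, u b =ᶠ[𝓝 x] u' b) (a : Fin n) : Qop c u a x = Qop c u' a x := by
  unfold Qop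
  have h1 : ∀ b i, pd i (u b) x = pd i (u' b) x := fun b i => (pd_congr (h b) i).eq_of_nhds
  have h2 : ∀ b i j, pd i (pd j (u b)) x = pd i (pd j (u' b)) x :=
    fun b i j => (pd_congr (pd_congr (h b) j) i).eq_of_nhds
  simp only [h1, h2]

lemma sup_pd {u : E m → ℝ} {r : ℝ} (hr : r < 7 / 16) (h : ∀ x, r ≤ ‖x‖ → u x = 0) (i : Fin m) :
    ∀ x, 7 / 16 ≤ ‖x‖ → pd i u x = 0 := by
  intro x hx
  have h1 : u =ᶠ[𝓝 x] fun _ => 0 := by
    have h2 : {y : E m | r < ‖y‖} ∈ 𝓝 x :=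
      (isOpen_lt continuous_const continuous_norm).mem_nhds (lt_of_lt_of_le hr hx)
    filter_upwards [h2] with y hy
    exact h y (le_of_lt hy)
  rw [(pd_congr h1 i).eq_of_nhds, pd_zero]

lemma zero_pd {u : E m → ℝ} {r r' : ℝ} (hr : r < r') (h : ∀ x, r ≤ ‖x‖ → u x = 0) (i : Fin m) :
    ∀ x, r' ≤ ‖x‖ → pd i u x = 0 := by
  intro x hx
  have h1 : u =ᶠ[𝓝 x] fun _ => 0 := by
    have h2 : {y : E m | r < ‖y‖} ∈ 𝓝 x :=
      (isOpen_lt continuous_const continuous_norm).mem_nhds (lt_of_lt_of_le hr hx)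
    filter_upwards [h2] with y hy
    exact h y (le_of_lt hy)
  rw [(pd_congr h1 i).eq_of_nhds, pd_zero]

/-! ### the correction of the mean value, outside of the ball of radius `9/32` -/

/-- the bump function -/
def b4 (i : Fin m) : ContDiffBump ((23 / 64 : ℝ) • (bs i : E m)) :=
  ⟨1 / 16, 5 / 64, by norm_num, by norm_num⟩

/-- the normalised function -/
def om4 (i : Fin m) : E m → ℝ := (b4 i).normed volume

lemma norm_center4 (i : Fin m) : ‖(23 / 64 : ℝ) • (bs i : E m)‖ = 23 / 64 := by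
  rw [norm_smul, norm_bs]
  norm_num

lemma om4_zero1 (i : Fin m) {x : E m} (hx : 7 / 16 ≤ ‖x‖) : om4 i x = 0 := by
  unfold om4
  rw [ContDiffBump.normed_def, (b4 i).zero_of_le_dist, zero_div]
  have h1 := norm_sub_norm_le x ((23 / 64 : ℝ) • (bs i : E m))
  rw [norm_center4] at h1
  rw [dist_eq_norm]
  have h2 : (b4 i).rOut = 5 / 64 := rfl
  rw [h2]
  linarith

lemma om4_zero2 (i : Fin m) {x : E m} (hx : ‖x‖ ≤ 9 / 32) : om4 i x = 0 := by
  unfold om4
  rw [ContDiffBump.normed_def, (b4 i).zero_of_le_dist, zero_div]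
  have h1 := norm_sub_norm_le ((23 / 64 : ℝ) • (bs i : E m)) x
  rw [norm_center4] at h1
  rw [dist_comm, dist_eq_norm]
  have h2 : (b4 i).rOut = 5 / 64 := rfl
  rw [h2]
  linarith

lemma contDiff_om4 (i : Fin m) : ContDiff ℝ ∞ (om4 i) := (b4 i).contDiff_normed

lemma mn_om4 (i : Fin m) : mn (per (om4 i)) = 1 := by
  unfold mn
  rw [fc_per (contDiff_om4 i).continuous (fun x hx => om4_zero1 i hx), Real.fourier_eq']
  have h0 : vec (0 : Fin m → ℤ) = 0 := by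
    ext i
    simp [vec]
  rw [h0]
  simp only [inner_zero_right, mul_zero, Complex.ofReal_zero, zero_mul, Complex.exp_zero, one_smul]
  rw [integral_complex_ofReal, Complex.ofReal_re]
  exact (b4 i).integral_normed

/-- cut-off of the correction -/
def b5 (m : ℕ) : ContDiffBump (0 : E m) := ⟨9 / 32, 3 / 8, by norm_num, by norm_num⟩

lemma b5_zero {x : E m} (hx : 3 / 8 ≤ ‖x‖) : b5 m x = 0 := by
  refine (b5 m).zero_of_le_dist ?_
  rw [dist_zero_right]
  exact hx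

lemma b5_one {x : E m} (hx : ‖x‖ ≤ 9 / 32) : b5 m x = 1 := by
  refine (b5 m).one_of_mem_closedBall ?_
  rw [Metric.mem_closedBall, dist_zero_right]
  exact hx

/-- the data of the fixed point problem -/
def mkDat2 (c : Fin m → Fin m → MvPolynomial (Fin m × Fin n) ℝ) (i₀ : Fin m)
    (u d : Fin n → E m → ℝ) : Dat m n where
  c := c
  P s := per (pd s.1 (u s.2))
  Q i j a := per (pd i (pd j (u a)))
  D a := per (d a)
  χ := ContinuousMap.const _ 1
  wm := per (om4 i₀)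
  μS := muS
  μR := muR
  hS := norm_muS_le
  hR := norm_muR_le

/-- **the fixed point gives a solution** -/
lemma Qop_eq_sub (c : Fin m → Fin m → MvPolynomial (Fin m × Fin n) ℝ) (i₀ : Fin m)
    {u d : Fin n → E m → ℝ} (hu : ∀ a, ContDiff ℝ ∞ (u a)) (hd' : ∀ a, ContDiff ℝ ∞ (d a))
    (hu0 : ∀ a x, 3 / 8 ≤ ‖x‖ → u a x = 0) (hd0 : ∀ a x, 7 / 16 ≤ ‖x‖ → d a x = 0)
    {J : ℕ} {L : Fin n → C(Tor m, ℝ)}
    (hL : ∀ a, (mkDat2 c i₀ u d).Φ L a = L a) (hf : ∀ p a, N (wt J p 1) (L a) ≠ ⊤) (a : Fin n)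
    {x : E m} (hx : ‖x‖ < 9 / 32) :
    Qop c (fun b y => u b y + vv (L b) y) a x = Qop c u a x - d a x := by
  have hd : ∀ b, Dec (fc (L b)) := fun b => dec_fc (J := J) fun p => hf p b
  have hv : ∀ b, ContDiff ℝ ∞ (vv (L b)) := fun b => contDiff_vv (hd b)
  have hx2 : ‖x‖ < 1 / 2 := hx.trans (by norm_num)
  have hone : ∀ f : C(Tor m, ℝ), (mkDat2 c i₀ u d).χ * f = f := by
    intro f
    ext t
    change (1 : ℝ) * f t = f t
    rw [one_mul]
  -- mean value zero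
  have hm : fc (L a) 0 = 0 := by
    rw [fc_zero_eq, ← hL a]
    unfold Dat.Φ
    rw [mn_sub, hone]
    have h1 : mn (mn ((mkDat2 c i₀ u d).F L a) • (mkDat2 c i₀ u d).wm) =
        mn ((mkDat2 c i₀ u d).F L a) := by
      have h2 : mn (mkDat2 c i₀ u d).wm = 1 := mn_om4 i₀
      conv_lhs => unfold mn
      rw [fc_smul, Complex.re_ofReal_mul]
      have h3 : (fc (mkDat2 c i₀ u d).wm 0).re = 1 := h2
      rw [h3, mul_one]
      rfl
    rw [h1, sub_self, Complex.ofReal_zero]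
  -- the fixed point equation at the point
  have e1 : L a (qt x) = (mkDat2 c i₀ u d).F L a (qt x) := by
    conv_lhs => rw [← hL a]
    unfold Dat.Φ
    rw [hone, ContinuousMap.sub_apply, ContinuousMap.smul_apply]
    have h2 : (mkDat2 c i₀ u d).wm (qt x) = 0 := by
      change per (om4 i₀) (qt x) = 0
      rw [per_qt (contDiff_om4 i₀).continuous (fun y hy => om4_zero1 i₀ hy) hx2, om4_zero2 i₀ hx.le]
    rw [h2, smul_zero, sub_zero]
  have s1 : ∀ b i, Sup (pd i (u b)) := fun b i => sup_pd (by norm_num) (hu0 b) i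
  have s2 : ∀ b i j, Sup (pd i (pd j (u b))) := fun b i j =>
    sup_pd (r := 13 / 32) (by norm_num) (zero_pd (by norm_num) (hu0 b) j) i
  have hP : ∀ s, (mkDat2 c i₀ u d).P s (qt x) = pd s.1 (u s.2) x := by
    intro s
    change per (pd s.1 (u s.2)) (qt x) = _
    rw [per_qt (contDiff_pd (hu s.2) s.1).continuous (s1 s.2 s.1) hx2]
  have hQ : ∀ i j, (mkDat2 c i₀ u d).Q i j a (qt x) = pd i (pd j (u a)) x := by
    intro i j
    change per (pd i (pd j (u a))) (qt x) = _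
    rw [per_qt (contDiff_pd (contDiff_pd (hu a) j) i).continuous (s2 a i j) hx2]
  have hD : (mkDat2 c i₀ u d).D a (qt x) = d a x := by
    change per (d a) (qt x) = _
    rw [per_qt (hd' a).continuous (hd0 a) hx2]
  have hjet : ∀ s, (mkDat2 c i₀ u d).jet L s (qt x) =
      pd s.1 (u s.2) x + pd s.1 (vv (L s.2)) x := by
    intro s
    unfold Dat.jet
    rw [ContinuousMap.add_apply, hP, pd_vv (hd s.2)]
    rfl
  have e2 : (mkDat2 c i₀ u d).F L a (qt x) =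
      ∑ i, ∑ j, (eval (fun s : Fin m × Fin n => pd s.1 (u s.2) x + pd s.1 (vv (L s.2)) x) (c i j) *
        (pd i (pd j (u a)) x + pd i (pd j (vv (L a))) x) -
        eval (fun s : Fin m × Fin n => pd s.1 (u s.2) x) (c i j) * pd i (pd j (u a)) x) -
        d a x := by
    unfold Dat.F
    rw [ContinuousMap.sub_apply, hD, sum_torus_apply]
    congr 1
    refine Finset.sum_congr rfl fun i _ => ?_
    rw [sum_torus_apply]
    refine Finset.sum_congr rfl fun j _ => ?_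
    rw [ContinuousMap.sub_apply, ContinuousMap.mul_apply, ContinuousMap.mul_apply,
      ContinuousMap.add_apply, hQ, aeval_tor, aeval_tor, pd_pd_vv (hd a)]
    simp only [hjet, hP]
    rfl
  have e3 := lap_vv (hd a) hm x
  rw [e1, e2] at e3
  -- the operator at the corrected function
  have hpd : ∀ b i, pd i (fun y => u b y + vv (L b) y) = fun y => pd i (u b) y + pd i (vv (L b)) y :=
    fun b i => pd_add (hu b) (hv b) i
  have hpd2 : ∀ b i j, pd i (fun y => pd j (u b) y + pd j (vv (L b)) y) =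
      fun y => pd i (pd j (u b)) y + pd i (pd j (vv (L b))) y :=
    fun b i j => pd_add (contDiff_pd (hu b) j) (contDiff_pd (hv b) j) i
  have e4 : Qop c (fun b y => u b y + vv (L b) y) a x =
      ∑ i, (pd i (pd i (u a)) x + pd i (pd i (vv (L a))) x) -
      ∑ i, ∑ j, eval (fun s : Fin m × Fin n => pd s.1 (u s.2) x + pd s.1 (vv (L s.2)) x) (c i j) *
        (pd i (pd j (u a)) x + pd i (pd j (vv (L a))) x) := by
    unfold Qop
    simp only [hpd, hpd2]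
  have e5 : Qop c u a x = ∑ i, pd i (pd i (u a)) x -
    ∑ i, ∑ j, eval (fun s : Fin m × Fin n => pd s.1 (u s.2) x) (c i j) * pd i (pd j (u a)) x := rfl
  rw [e4, Finset.sum_add_distrib, e3]
  simp only [Finset.sum_sub_distrib]
  rw [e5]
  ring

/-- the fixed point, with real constants -/
theorem fixed_real (c : Fin m → Fin m → MvPolynomial (Fin m × Fin n) ℝ)
    (hc : ∀ i j, constantCoeff (c i j) = 0) (J : ℕ) (χ₀ ω₀ : C(Tor m, ℝ))
    (fχ : ∀ q, N (wt q 0 0) χ₀ ≠ ⊤) (fω : ∀ q, N (wt q 0 0) ω₀ ≠ ⊤) :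
    ∃ r : ℝ, 0 < r ∧ ∃ G : ℝ, 0 ≤ G ∧ ∀ d : Dat m n, d.c = c → d.χ = χ₀ → d.wm = ω₀ →
      ∀ p e : ℝ, 0 ≤ e → p < r → G * e < r →
      (∀ s, N (wt J 0 0) (d.P s) ≤ ENNReal.ofReal p) →
      (∀ i j a, N (wt J 0 0) (d.Q i j a) ≤ ENNReal.ofReal p) →
      (∀ a, N (wt J 0 0) (d.D a) ≤ ENNReal.ofReal e) →
      (∀ q s, N (wt q 0 0) (d.P s) ≠ ⊤) → (∀ q i j a, N (wt q 0 0) (d.Q i j a) ≠ ⊤) →
      (∀ q a, N (wt q 0 0) (d.D a) ≠ ⊤) →
      ∃ L : Fin n → C(Tor m, ℝ), (∀ a, d.Φ L a = L a) ∧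
        (∀ a, N (wt J 0 0) (L a) ≤ ENNReal.ofReal (G * e)) ∧ ∀ p a, N (wt J p 1) (L a) ≠ ⊤ := by
  obtain ⟨C0, hC0t, hC0⟩ := poly_lip' (m := m) c hc
  -- the constants
  set X : ℝ≥0∞ := N (wt J 0 0) χ₀ + N (wt J 0 0) ω₀ + 1 with hX
  have hXt : X ≠ ⊤ := ENNReal.add_ne_top.2 ⟨ENNReal.add_ne_top.2 ⟨fχ J, fω J⟩, by simp⟩
  have hX1 : N (wt J 0 0) χ₀ < X := by
    refine lt_of_le_of_lt (le_self_add (b := N (wt J 0 0) ω₀)) ?_
    exact ENNReal.lt_add_right (ENNReal.add_ne_top.2 ⟨fχ J, fω J⟩) one_ne_zero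
  have hX2 : N (wt J 0 0) ω₀ < X := by
    refine lt_of_le_of_lt (le_add_self (b := N (wt J 0 0) χ₀)) ?_
    exact ENNReal.lt_add_right (ENNReal.add_ne_top.2 ⟨fχ J, fω J⟩) one_ne_zero
  set x : ℝ := X.toReal with hx
  have hx0 : 0 ≤ x := ENNReal.toReal_nonneg
  have hXx : X = ENNReal.ofReal x := (ENNReal.ofReal_toReal hXt).symm
  set c0 : ℝ := C0.toReal with hc0
  have hc00 : 0 ≤ c0 := ENNReal.toReal_nonneg
  have hCc : C0 = ENNReal.ofReal c0 := (ENNReal.ofReal_toReal hC0t).symm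
  -- radius of the ball of the contraction
  set B : ℝ := 2 + 2 * (x * (1 + x)) * (4 * m ^ 2 * c0) with hB
  have hB0 : 0 < B := by positivity
  set r : ℝ := 1 / B with hr
  have hr0 : 0 < r := by positivity
  have hr2 : 2 * r ≤ 1 := by
    rw [hr, mul_one_div, div_le_one hB0, hB]
    have : 0 ≤ 2 * (x * (1 + x)) * (4 * m ^ 2 * c0) := by positivity
    linarith
  have hr3 : (x * (1 + x)) * (4 * m ^ 2 * c0 * r) ≤ 1 / 2 := by
    have h1 : (x * (1 + x)) * (4 * m ^ 2 * c0 * r) = (x * (1 + x)) * (4 * m ^ 2 * c0) / B := by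
      rw [hr]
      ring
    rw [h1, div_le_iff₀ hB0, hB]
    linarith
  refine ⟨r, hr0, 2 * (x * (1 + x)), by positivity, ?_⟩
  intro d hdc hdχ hdω p e he hp hGe bP bQ bD gP gQ gD
  have hPoly : PolyBd d C0 := by
    intro w hw
    rw [hdc]
    exact hC0 w hw
  have hlt : ENNReal.ofReal p < ENNReal.ofReal r := (ENNReal.ofReal_lt_ofReal_iff hr0).2 hp
  obtain ⟨L, hL1, hL2, hL3⟩ := exists_fixed_smooth d hPoly J (X := X) (δ := ENNReal.ofReal r)
    (e₀ := ENNReal.ofReal e) hXt (by rw [hdχ]; exact hX1) (by rw [hdω]; exact hX2)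
    (by
      rw [← ENNReal.ofReal_ofNat, ← ENNReal.ofReal_mul (by norm_num), ← ENNReal.ofReal_one]
      exact ENNReal.ofReal_le_ofReal hr2)
    (by
      have h2 : X * (1 + X) * (4 * m ^ 2 * C0 * ENNReal.ofReal r) =
          ENNReal.ofReal ((x * (1 + x)) * (4 * m ^ 2 * c0 * r)) := by
        rw [hXx, hCc, ENNReal.ofReal_mul (by positivity), ENNReal.ofReal_mul hx0,
          ENNReal.ofReal_add zero_le_one hx0, ENNReal.ofReal_mul (by positivity),
          ENNReal.ofReal_mul (by positivity), ENNReal.ofReal_mul (by positivity),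
          ENNReal.ofReal_pow (by positivity), ENNReal.ofReal_one, ENNReal.ofReal_natCast,
          ENNReal.ofReal_ofNat]
      rw [h2]
      have h3 : (2⁻¹ : ℝ≥0∞) = ENNReal.ofReal (1 / 2) := by
        rw [one_div, ENNReal.ofReal_inv_of_pos two_pos, ENNReal.ofReal_ofNat]
      rw [h3]
      exact ENNReal.ofReal_le_ofReal hr3)
    (by
      have h2 : 2 * (X * (1 + X)) * ENNReal.ofReal e =
          ENNReal.ofReal (2 * (x * (1 + x)) * e) := by
        rw [hXx, ENNReal.ofReal_mul (p := 2 * (x * (1 + x))) (by positivity),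
          ENNReal.ofReal_mul (p := 2) (by norm_num),
          ENNReal.ofReal_mul (p := x) hx0, ENNReal.ofReal_add zero_le_one hx0, ENNReal.ofReal_one,
          ENNReal.ofReal_ofNat]
      rw [h2]
      exact (ENNReal.ofReal_lt_ofReal_iff hr0).2 hGe)
    (fun s => (bP s).trans_lt hlt)
    (fun i j a => (bQ i j a).trans_lt hlt)
    bD
    (fun p => by rw [hdχ, funext fun k => wt_eq J p k]; exact fχ _)
    (fun p => by rw [hdω, funext fun k => wt_eq J p k]; exact fω _)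
    (fun p s => by rw [funext fun k => wt_eq J p k]; exact gP _ _)
    (fun p i j a => by rw [funext fun k => wt_eq J p k]; exact gQ _ _ _ _)
    (fun p a => by rw [funext fun k => wt_eq J p k]; exact gD _ _)
  refine ⟨L, hL1, fun a => (hL2 a).trans (le_of_eq ?_), hL3⟩
  rw [hXx]
  have e' : 2 * (x * (1 + x)) * e = 2 * (x * (1 + x) * e) := by ring
  rw [e', ENNReal.ofReal_mul (p := 2) (by norm_num),
    ENNReal.ofReal_mul (p := x * (1 + x)) (by positivity),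
    ENNReal.ofReal_mul (p := x) hx0, ENNReal.ofReal_add zero_le_one hx0, ENNReal.ofReal_one,
    ENNReal.ofReal_ofNat]

/-- **global version, general quasilinear system** -/
theorem exists_exact2 (hm : 0 < m) (c : Fin m → Fin m → MvPolynomial (Fin m × Fin n) ℝ)
    (hc : ∀ i j, constantCoeff (c i j) = 0) (J : ℕ) : ∃ ε₀ : ℝ, 0 < ε₀ ∧ ∃ C : ℝ, 0 ≤ C ∧
    ∀ u d : Fin n → E m → ℝ, (∀ a, ContDiff ℝ ∞ (u a)) → (∀ a, ContDiff ℝ ∞ (d a)) →
      (∀ a x, 3 / 8 ≤ ‖x‖ → u a x = 0) → (∀ a x, 7 / 16 ≤ ‖x‖ → d a x = 0) →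
      (∀ a, ∀ k, 1 ≤ k → k ≤ J + 2 * m + 2 → ∀ x, ‖iteratedFDeriv ℝ k (u a) x‖ ≤ ε₀) →
      ∀ δ : ℝ, δ ≤ ε₀ → (∀ a, ∀ k ≤ J + 2 * m, ∀ x, ‖iteratedFDeriv ℝ k (d a) x‖ ≤ δ) →
      ∃ v : Fin n → E m → ℝ, (∀ a, ContDiff ℝ ∞ (v a)) ∧ (∀ a x, 3 / 8 ≤ ‖x‖ → v a x = 0) ∧
        (∀ a x, ‖x‖ < 9 / 32 → Qop c (fun b y => u b y + v b y) a x = Qop c u a x - d a x) ∧
        ∀ a, ∀ j ≤ J + 2, ∀ x, ‖iteratedFDeriv ℝ j (v a) x‖ ≤ C * δ := by
  rcases Nat.eq_zero_or_pos n with hn | hn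
  · subst hn
    exact ⟨1, one_pos, 0, le_rfl, fun u d _ _ _ _ _ δ _ _ =>
      ⟨fun _ _ => 0, fun a => contDiff_const, fun a => a.elim0, fun a => a.elim0,
        fun a => a.elim0⟩⟩
  set i₀ : Fin m := ⟨0, hm⟩
  obtain ⟨C1, hC1, hN⟩ := N_per_le m J
  obtain ⟨C2, hC2, hM⟩ := mul_bound (m := m) (J + 2) ((b5 m).contDiff) (fun x hx => b5_zero hx)
  obtain ⟨r, hr0, G, hG, hfix⟩ := fixed_real (m := m) c hc J (ContinuousMap.const _ 1)
    (per (om4 i₀))
    (fun q => by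
      rw [(Wt_wt q 0 le_rfl).N_const]
      simp)
    (fun q => N_per_ne_top (contDiff_om4 i₀) (fun y hy => om4_zero1 i₀ hy) q)
  set ε : ℝ := r / (2 * (C1 + 1) * (1 + G)) with hε
  have hε0 : 0 < ε := by positivity
  have hC1ε : C1 * ε < r := by
    have h1 : C1 * ε = r * (C1 / (2 * (C1 + 1) * (1 + G))) := by
      rw [hε]
      ring
    have h2 : C1 / (2 * (C1 + 1) * (1 + G)) < 1 := by
      rw [div_lt_one (by positivity)]
      nlinarith [mul_nonneg hC1 hG]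
    rw [h1]
    nlinarith
  have hGC : G * (C1 * ε) < r := by
    have h1 : G * (C1 * ε) = r * (G * C1 / (2 * (C1 + 1) * (1 + G))) := by
      rw [hε]
      ring
    have h2 : G * C1 / (2 * (C1 + 1) * (1 + G)) < 1 := by
      rw [div_lt_one (by positivity)]
      nlinarith [mul_nonneg hC1 hG]
    rw [h1]
    nlinarith
  refine ⟨ε, hε0, C2 * (m * (2 * Real.pi) ^ J * (G * C1)), by positivity, ?_⟩
  intro u d hu hd hu0 hd0 hsm δ hδ hdef
  have hδ0 : 0 ≤ δ := (norm_nonneg _).trans (hdef ⟨0, hn⟩ 0 (Nat.zero_le _) 0)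
  have s1 : ∀ b i, Sup (pd i (u b)) := fun b i => sup_pd (by norm_num) (hu0 b) i
  have s2 : ∀ b i j, Sup (pd i (pd j (u b))) := fun b i j =>
    sup_pd (r := 13 / 32) (by norm_num) (zero_pd (by norm_num) (hu0 b) j) i
  have hGδ : G * (C1 * δ) < r := lt_of_le_of_lt (by gcongr) hGC
  obtain ⟨L, hL1, hL2, hL3⟩ := hfix (mkDat2 c i₀ u d) rfl rfl rfl (C1 * ε) (C1 * δ)
    (by positivity) hC1ε hGδ
    (fun s => hN (pd s.1 (u s.2)) (contDiff_pd (hu s.2) s.1) (s1 s.2 s.1) ε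
      fun j hj x => (norm_iteratedFDeriv_pd (hu s.2) s.1 j x).trans
        (hsm s.2 (j + 1) (by omega) (by omega) x))
    (fun i j a => hN (pd i (pd j (u a))) (contDiff_pd (contDiff_pd (hu a) j) i) (s2 a i j) ε
      fun k hk x => (norm_iteratedFDeriv_pd (contDiff_pd (hu a) j) i k x).trans
        ((norm_iteratedFDeriv_pd (hu a) j (k + 1) x).trans
          (hsm a (k + 1 + 1) (by omega) (by omega) x)))
    (fun a => hN (d a) (hd a) (hd0 a) δ fun k hk x => hdef a k hk x)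
    (fun q s => N_per_ne_top (contDiff_pd (hu s.2) s.1) (s1 s.2 s.1) _)
    (fun q i j a => N_per_ne_top (contDiff_pd (contDiff_pd (hu a) j) i) (s2 a i j) _)
    (fun q a => N_per_ne_top (hd a) (hd0 a) _)
  have hvv : ∀ a, ContDiff ℝ ∞ (vv (L a)) := fun a => contDiff_vv (dec_fc fun p => hL3 p a)
  refine ⟨fun a x => b5 m x * vv (L a) x, fun a => (b5 m).contDiff.mul (hvv a), ?_, ?_, ?_⟩
  · intro a x hx
    simp only
    rw [b5_zero hx, zero_mul]
  · intro a x hx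
    rw [← Qop_eq_sub c i₀ hu hd hu0 hd0 hL1 hL3 a hx]
    refine Qop_congr c (fun b => ?_) a
    have h2 : {y : E m | ‖y‖ < 9 / 32} ∈ 𝓝 x :=
      (isOpen_lt continuous_norm continuous_const).mem_nhds hx
    filter_upwards [h2] with y hy
    rw [b5_one (le_of_lt hy), one_mul]
  · intro a j hj x
    have h1 : (N (wt J 0 0) (L a)).toReal ≤ G * (C1 * δ) :=
      ENNReal.toReal_le_of_le_ofReal (by positivity) (hL2 a)
    have h2 := hM (vv (L a)) (hvv a) (m * (2 * Real.pi) ^ J * (G * (C1 * δ)))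
      (fun j hj y _ => (norm_vv_le (fun p => hL3 p a) hj y).trans (by gcongr)) j hj x
    refine h2.trans (le_of_eq ?_)
    ring

/-- **REF2: global small functions, prescribed defect** -/
theorem exists_minimal2 (hm : 0 < m) (n J : ℕ) : ∃ ε₀ : ℝ, 0 < ε₀ ∧ ∃ C : ℝ, 0 ≤ C ∧
    ∀ u d : Fin n → E m → ℝ, (∀ a, ContDiff ℝ ∞ (u a)) → (∀ a, ContDiff ℝ ∞ (d a)) →
      (∀ a x, 3 / 8 ≤ ‖x‖ → u a x = 0) → (∀ a x, 7 / 16 ≤ ‖x‖ → d a x = 0) →
      (∀ a, ∀ k, 1 ≤ k → k ≤ J + 2 * m + 2 → ∀ x, ‖iteratedFDeriv ℝ k (u a) x‖ ≤ ε₀) →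
      ∀ δ : ℝ, δ ≤ ε₀ → (∀ a, ∀ k ≤ J + 2 * m, ∀ x, ‖iteratedFDeriv ℝ k (d a) x‖ ≤ δ) →
      ∃ v : Fin n → E m → ℝ, (∀ a, ContDiff ℝ ∞ (v a)) ∧ (∀ a x, 3 / 8 ≤ ‖x‖ → v a x = 0) ∧
        (∀ a x, ‖x‖ < 9 / 32 → Mop (fun b y => u b y + v b y) a x = Mop u a x - d a x) ∧
        ∀ a, ∀ j ≤ J + 2, ∀ x, ‖iteratedFDeriv ℝ j (v a) x‖ ≤ C * δ := by
  obtain ⟨ε₀, h0, C, hC, h⟩ := exists_exact2 hm (cp m n) constantCoeff_cp J
  refine ⟨ε₀, h0, C, hC, fun u d hu hd hu0 hd0 hs δ hδ hdef => ?_⟩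
  obtain ⟨v, hv1, hv2, hv3, hv4⟩ := h u d hu hd hu0 hd0 hs δ hδ hdef
  refine ⟨v, hv1, hv2, fun a x hx => ?_, hv4⟩
  rw [← Qop_cp, ← Qop_cp]
  exact hv3 a x hx

end

end Vale.Agent.P214.REF
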