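import Vale.Agent.P214.REF.LWeak

/-!
# P214, block REF2W: prescribed defect, one Wiener norm without loss
-/

open MvPolynomial MeasureTheory Filter Topology
open scoped ENNReal ContDiff

namespace Vale.Agent.P214.REF

noncomputable section

variable {m n : ℕ}

/-! ### vanishing of derivatives, closed version -/

/-- the derivatives vanish where the function vanishes (also on the boundary sphere) -/
lemma zero_pd_le {u : E m → ℝ} (hu : ContDiff ℝ ∞ u) {r : ℝ} (hr : 0 < r)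
    (h : ∀ x, r ≤ ‖x‖ → u x = 0) (i : Fin m) : ∀ x, r ≤ ‖x‖ → pd i u x = 0 := by
  have h1 : ∀ x, r < ‖x‖ → pd i u x = 0 := by
    intro x hx
    have h1 : u =ᶠ[𝓝 x] fun _ => 0 := by
      have h2 : {y : E m | r < ‖y‖} ∈ 𝓝 x :=
        (isOpen_lt continuous_const continuous_norm).mem_nhds hx
      filter_upwards [h2] with y hy
      exact h y (le_of_lt hy)
    rw [(pd_congr h1 i).eq_of_nhds, pd_zero]
  intro x hx
  have h2 : Tendsto (fun k : ℕ => pd i u ((1 + 1 / ((k : ℝ) + 1)) • x)) atTop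
      (𝓝 (pd i u ((1 + 0 : ℝ) • x))) := by
    refine ((contDiff_pd hu i).continuous.tendsto _).comp ?_
    refine Tendsto.smul_const ?_ x
    exact tendsto_const_nhds.add tendsto_one_div_add_atTop_nhds_zero_nat
  have h3 : ∀ k : ℕ, pd i u ((1 + 1 / ((k : ℝ) + 1)) • x) = 0 := by
    intro k
    refine h1 _ ?_
    have h4 : 0 < 1 / ((k : ℝ) + 1) := by positivity
    rw [norm_smul, Real.norm_eq_abs, abs_of_pos (by positivity)]
    nlinarith
  simp only [h3, add_zero, one_smul] at h2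
  exact (tendsto_nhds_unique h2 tendsto_const_nhds)

/-! ### norms of derivatives -/

lemma N_wt_mono {q q' : ℕ} (h : q ≤ q') (f : C(Tor m, ℝ)) :
    N (wt q 0 0) f ≤ N (wt q' 0 0) f := by
  refine N_mono (fun k => ?_) f
  unfold wt
  refine ENNReal.ofReal_le_ofReal ?_
  unfold wr
  have h0 := sz_nonneg k
  have h1 : (1 + REF.sz k) ^ q ≤ (1 + REF.sz k) ^ q' := pow_le_pow_right₀ (by linarith) h
  simpa using h1

lemma sup_of {u : E m → ℝ} (h : ∀ x, 3 / 8 ≤ ‖x‖ → u x = 0) : Sup u := fun x hx =>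
  h x (by linarith)

lemma N_pd_le {u : E m → ℝ} (hu : ContDiff ℝ ∞ u) (h0 : ∀ x, 3 / 8 ≤ ‖x‖ → u x = 0) (i : Fin m)
    (q : ℕ) : N (wt q 0 0) (per (pd i u)) ≤
      ENNReal.ofReal (2 * Real.pi) * N (wt (q + 1) 0 0) (per u) :=
  N_per_pd hu (sup_of h0) (fun i => sup_of (zero_pd_le hu (by norm_num) h0 i)) i q

lemma N_pd_pd_le {u : E m → ℝ} (hu : ContDiff ℝ ∞ u) (h0 : ∀ x, 3 / 8 ≤ ‖x‖ → u x = 0)
    (i j : Fin m) (q : ℕ) : N (wt q 0 0) (per (pd i (pd j u))) ≤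
      ENNReal.ofReal ((2 * Real.pi) ^ 2) * N (wt (q + 2) 0 0) (per u) := by
  refine (N_pd_le (contDiff_pd hu j) (zero_pd_le hu (by norm_num) h0 j) i q).trans ?_
  have e : ENNReal.ofReal ((2 * Real.pi) ^ 2) =
      ENNReal.ofReal (2 * Real.pi) * ENNReal.ofReal (2 * Real.pi) := by
    rw [← ENNReal.ofReal_mul (by positivity), pow_two]
  rw [e, mul_assoc]
  exact mul_le_mul_right (N_pd_le hu h0 j (q + 1)) _

lemma two_pi_le_sq : 2 * Real.pi ≤ (2 * Real.pi) ^ 2 := by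
  have := Real.pi_gt_three
  nlinarith

/-- both derivatives, real constants -/
lemma N_pd_real {u : E m → ℝ} (hu : ContDiff ℝ ∞ u) (h0 : ∀ x, 3 / 8 ≤ ‖x‖ → u x = 0) {q : ℕ}
    {ε : ℝ} (hN : N (wt (q + 2) 0 0) (per u) ≤ ENNReal.ofReal ε) :
    (∀ i, N (wt q 0 0) (per (pd i u)) ≤ ENNReal.ofReal ((2 * Real.pi) ^ 2 * ε)) ∧
    ∀ i j, N (wt q 0 0) (per (pd i (pd j u))) ≤ ENNReal.ofReal ((2 * Real.pi) ^ 2 * ε) := by
  have h1 : 0 ≤ (2 * Real.pi) ^ 2 := by positivity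
  refine ⟨fun i => ?_, fun i j => ?_⟩
  · rw [ENNReal.ofReal_mul h1]
    refine (N_pd_le hu h0 i q).trans ?_
    gcongr
    · exact two_pi_le_sq
    · exact (N_wt_mono (by omega) _).trans hN
  · rw [ENNReal.ofReal_mul h1]
    refine (N_pd_pd_le hu h0 i j q).trans ?_
    gcongr

/-- **prescribed defect, one Wiener norm, general quasilinear system** -/
theorem exists_exactW (hm : 0 < m) (c : Fin m → Fin m → MvPolynomial (Fin m × Fin n) ℝ)
    (hc : ∀ i j, constantCoeff (c i j) = 0) (J : ℕ) : ∃ ε₀ : ℝ, 0 < ε₀ ∧ ∃ C : ℝ, 0 ≤ C ∧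
    ∀ u d : Fin n → E m → ℝ, (∀ a, ContDiff ℝ ∞ (u a)) → (∀ a, ContDiff ℝ ∞ (d a)) →
      (∀ a x, 3 / 8 ≤ ‖x‖ → u a x = 0) → (∀ a x, 7 / 16 ≤ ‖x‖ → d a x = 0) →
      (∀ a, N (wt (J + 2) 0 0) (per (u a)) ≤ ENNReal.ofReal ε₀) →
      ∀ δ : ℝ, 0 ≤ δ → δ ≤ ε₀ → (∀ a, N (wt J 0 0) (per (d a)) ≤ ENNReal.ofReal δ) →
      ∃ v : Fin n → E m → ℝ, (∀ a, ContDiff ℝ ∞ (v a)) ∧ (∀ a x, 3 / 8 ≤ ‖x‖ → v a x = 0) ∧
        (∀ a x, ‖x‖ < 9 / 32 → Qop c (fun b y => u b y + v b y) a x = Qop c u a x - d a x) ∧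
        ∀ a, N (wt (J + 2) 0 0) (per (v a)) ≤ ENNReal.ofReal (C * δ) := by
  set i₀ : Fin m := ⟨0, hm⟩
  have hb5 : Sup (b5 m : E m → ℝ) := fun x hx => b5_zero (by linarith)
  set K5 : ℝ := (N (wt (J + 2) 0 0) (per (b5 m))).toReal with hK5
  have hK50 : 0 ≤ K5 := ENNReal.toReal_nonneg
  have hK5e : N (wt (J + 2) 0 0) (per (b5 m)) = ENNReal.ofReal K5 :=
    (ENNReal.ofReal_toReal (N_per_ne_top (b5 m).contDiff hb5 (J + 2))).symm
  obtain ⟨r, hr0, G, hG, hfix⟩ := fixed_real (m := m) c hc J (ContinuousMap.const _ 1)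
    (per (om4 i₀))
    (fun q => by
      rw [(Wt_wt q 0 le_rfl).N_const]
      simp)
    (fun q => N_per_ne_top (contDiff_om4 i₀) (fun y hy => om4_zero1 i₀ hy) q)
  have hp0 : 0 < (2 * Real.pi) ^ 2 := by positivity
  set ε : ℝ := r / (2 * ((2 * Real.pi) ^ 2 + 1) * (1 + G)) with hε
  have hε0 : 0 < ε := by positivity
  have hC1ε : (2 * Real.pi) ^ 2 * ε < r := by
    have h1 : (2 * Real.pi) ^ 2 * ε =
        r * ((2 * Real.pi) ^ 2 / (2 * ((2 * Real.pi) ^ 2 + 1) * (1 + G))) := by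
      rw [hε]
      ring
    have h2 : (2 * Real.pi) ^ 2 / (2 * ((2 * Real.pi) ^ 2 + 1) * (1 + G)) < 1 := by
      rw [div_lt_one (by positivity)]
      nlinarith [mul_nonneg hp0.le hG]
    rw [h1]
    nlinarith
  have hGC : G * ε < r := by
    have h1 : G * ε = r * (G / (2 * ((2 * Real.pi) ^ 2 + 1) * (1 + G))) := by
      rw [hε]
      ring
    have h2 : G / (2 * ((2 * Real.pi) ^ 2 + 1) * (1 + G)) < 1 := by
      rw [div_lt_one (by positivity)]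
      nlinarith [mul_nonneg hp0.le hG]
    rw [h1]
    nlinarith
  refine ⟨ε, hε0, K5 * (m * G), by positivity, ?_⟩
  intro u d hu hd hu0 hd0 hsm δ hδ0 hδ hdef
  have s1 : ∀ b i, Sup (pd i (u b)) := fun b i => sup_of (zero_pd_le (hu b) (by norm_num) (hu0 b) i)
  have s2 : ∀ b i j, Sup (pd i (pd j (u b))) := fun b i j =>
    sup_of (zero_pd_le (contDiff_pd (hu b) j) (by norm_num)
      (zero_pd_le (hu b) (by norm_num) (hu0 b) j) i)
  obtain ⟨L, hL1, hL2, hL3⟩ := hfix (mkDat2 c i₀ u d) rfl rfl rfl ((2 * Real.pi) ^ 2 * ε) δ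
    hδ0 hC1ε (lt_of_le_of_lt (by gcongr) hGC)
    (fun s => (N_pd_real (hu s.2) (hu0 s.2) (hsm s.2)).1 s.1)
    (fun i j a => (N_pd_real (hu a) (hu0 a) (hsm a)).2 i j)
    (fun a => hdef a)
    (fun q s => N_per_ne_top (contDiff_pd (hu s.2) s.1) (s1 s.2 s.1) _)
    (fun q i j a => N_per_ne_top (contDiff_pd (contDiff_pd (hu a) j) i) (s2 a i j) _)
    (fun q a => N_per_ne_top (hd a) (hd0 a) _)
  have hdec : ∀ a, Dec (fc (L a)) := fun a => dec_fc (J := J) fun p => hL3 p a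
  have hvv : ∀ a, ContDiff ℝ ∞ (vv (L a)) := fun a => contDiff_vv (hdec a)
  have hLs : ∀ a, N (wt J 0 0) (L a) ≠ ⊤ := fun a =>
    ne_top_of_le_ne_top ENNReal.ofReal_ne_top (hL2 a)
  refine ⟨fun a x => b5 m x * vv (L a) x, fun a => (b5 m).contDiff.mul (hvv a), ?_, ?_, ?_⟩
  · intro a x hx
    simp only
    rw [b5_zero hx, zero_mul]
  · intro a x hx
    rw [← Qop_eq_sub c i₀ hu hd hu0 hd0 hL1 hL3 a hx]
    refine Qop_congr c (fun b => ?_) a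
    have h2 : {y : E m | ‖y‖ < 9 / 32} ∈ 𝓝 x :=
      (isOpen_lt continuous_norm continuous_const).mem_nhds hx
    filter_upwards [h2] with y hy
    rw [b5_one (le_of_lt hy), one_mul]
  · intro a
    have h1 : per (fun x => b5 m x * vv (L a) x) = per (b5 m) * Ml muZ (L a) :=
      per_mul_torus (b5 m).continuous hb5 _ (hvv a).continuous fun x => vv_eq (hdec a) x
    rw [h1]
    have hw : Wt (wt (m := m) (J + 2) 0 0) := Wt_wt (J + 2) 0 le_rfl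
    calc _ ≤ N (wt (J + 2) 0 0) (per (b5 m)) * N (wt (J + 2) 0 0) (Ml muZ (L a)) := hw.N_mul _ _
      _ ≤ ENNReal.ofReal K5 * (ENNReal.ofReal m * ENNReal.ofReal (G * δ)) := by
          rw [hK5e]
          gcongr
          refine (N_Z_le J (hLs a)).trans ?_
          gcongr
          exact hL2 a
      _ = ENNReal.ofReal (K5 * (m * G) * δ) := by
          rw [← ENNReal.ofReal_mul (by positivity), ← ENNReal.ofReal_mul (by positivity)]
          congr 1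
          ring

/-- **REF2W: prescribed defect, one Wiener norm** -/
theorem exists_minimalW (hm : 0 < m) (n J : ℕ) : ∃ ε₀ : ℝ, 0 < ε₀ ∧ ∃ C : ℝ, 0 ≤ C ∧
    ∀ u d : Fin n → E m → ℝ, (∀ a, ContDiff ℝ ∞ (u a)) → (∀ a, ContDiff ℝ ∞ (d a)) →
      (∀ a x, 3 / 8 ≤ ‖x‖ → u a x = 0) → (∀ a x, 7 / 16 ≤ ‖x‖ → d a x = 0) →
      (∀ a, N (wt (J + 2) 0 0) (per (u a)) ≤ ENNReal.ofReal ε₀) →
      ∀ δ : ℝ, 0 ≤ δ → δ ≤ ε₀ → (∀ a, N (wt J 0 0) (per (d a)) ≤ ENNReal.ofReal δ) →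
      ∃ v : Fin n → E m → ℝ, (∀ a, ContDiff ℝ ∞ (v a)) ∧ (∀ a x, 3 / 8 ≤ ‖x‖ → v a x = 0) ∧
        (∀ a x, ‖x‖ < 9 / 32 → Mop (fun b y => u b y + v b y) a x = Mop u a x - d a x) ∧
        ∀ a, N (wt (J + 2) 0 0) (per (v a)) ≤ ENNReal.ofReal (C * δ) := by
  obtain ⟨ε₀, h0, C, hC, h⟩ := exists_exactW hm (cp m n) constantCoeff_cp J
  refine ⟨ε₀, h0, C, hC, fun u d hu hd hu0 hd0 hs δ hδ0 hδ hdef => ?_⟩
  obtain ⟨v, hv1, hv2, hv3, hv4⟩ := h u d hu hd hu0 hd0 hs δ hδ0 hδ hdef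
  refine ⟨v, hv1, hv2, fun a x hx => ?_, hv4⟩
  rw [← Qop_cp, ← Qop_cp]
  exact hv3 a x hx

end

end Vale.Agent.P214.REF
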