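import Vale.Agent.P214.REF.Four

/-!
# P214, block REF: the fixed point
-/

open MvPolynomial
open scoped ENNReal

namespace Vale.Agent.P214.REF

noncomputable section

variable {m n : ℕ}

/-- Lipschitz bound for polynomials -/
theorem poly_lip {σ : Type} (P : MvPolynomial σ ℝ) : ∃ C : ℝ≥0∞, C ≠ ⊤ ∧
    ∀ (w : (Fin m → ℤ) → ℝ≥0∞), Wt w → ∀ (x y : σ → C(Tor m, ℝ)) (η : ℝ≥0∞),
      (∀ s, N w (x s) ≤ 1) → (∀ s, N w (y s) ≤ 1) → (∀ s, N w (x s - y s) ≤ η) →
        N w (aeval x P) ≤ C ∧ N w (aeval x P - aeval y P) ≤ C * η := by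
  induction P using MvPolynomial.induction_on with
  | C a =>
    refine ⟨‖a‖ₑ, enorm_ne_top, fun w hw x y η hx hy hxy => ?_⟩
    simp only [algHom_C]
    have h1 : (algebraMap ℝ C(Tor m, ℝ)) a = ContinuousMap.const (Tor m) a := by
      ext t
      simp
    rw [h1, hw.N_const, sub_self, N_zero]
    exact ⟨le_rfl, bot_le⟩
  | add p q hp hq =>
    obtain ⟨C1, h1, h1'⟩ := hp
    obtain ⟨C2, h2, h2'⟩ := hq
    refine ⟨C1 + C2, ENNReal.add_ne_top.2 ⟨h1, h2⟩, fun w hw x y η hx hy hxy => ?_⟩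
    obtain ⟨a1, a2⟩ := h1' w hw x y η hx hy hxy
    obtain ⟨b1, b2⟩ := h2' w hw x y η hx hy hxy
    simp only [map_add]
    refine ⟨(N_add _ _).trans (add_le_add a1 b1), ?_⟩
    rw [add_sub_add_comm, add_mul]
    exact (N_add _ _).trans (add_le_add a2 b2)
  | mul_X p s hp =>
    obtain ⟨C1, h1, h1'⟩ := hp
    refine ⟨2 * C1, ENNReal.mul_ne_top (by simp) h1, fun w hw x y η hx hy hxy => ?_⟩
    obtain ⟨a1, a2⟩ := h1' w hw x y η hx hy hxy
    have a3 := (h1' w hw y y 0 hy hy (fun s => by rw [sub_self, N_zero])).1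
    simp only [map_mul, aeval_X]
    constructor
    · calc N w (aeval x p * x s) ≤ N w (aeval x p) * N w (x s) := hw.N_mul _ _
        _ ≤ C1 * 1 := by gcongr; exact hx s
        _ ≤ 2 * C1 := by
          rw [mul_one, two_mul]
          exact le_self_add
    · have e : aeval x p * x s - aeval y p * y s =
          (aeval x p - aeval y p) * x s + aeval y p * (x s - y s) := by ring
      rw [e]
      calc N w ((aeval x p - aeval y p) * x s + aeval y p * (x s - y s))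
          ≤ N w (aeval x p - aeval y p) * N w (x s) + N w (aeval y p) * N w (x s - y s) :=
            (N_add _ _).trans (add_le_add (hw.N_mul _ _) (hw.N_mul _ _))
        _ ≤ C1 * η * 1 + C1 * η := by
            gcongr
            · exact hx s
            · exact hxy s
        _ = 2 * C1 * η := by ring

/-- Lipschitz bound for finitely many polynomials without constant term -/
theorem poly_lip' (c : Fin m → Fin m → MvPolynomial (Fin m × Fin n) ℝ)
    (hc : ∀ i j, constantCoeff (c i j) = 0) : ∃ C : ℝ≥0∞, C ≠ ⊤ ∧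
    ∀ (w : (Fin m → ℤ) → ℝ≥0∞), Wt w → ∀ (x y : Fin m × Fin n → C(Tor m, ℝ)) (η : ℝ≥0∞),
      (∀ s, N w (x s) ≤ 1) → (∀ s, N w (y s) ≤ 1) → (∀ s, N w (x s - y s) ≤ η) → ∀ i j,
        (∀ θ, (∀ s, N w (x s) ≤ θ) → N w (aeval x (c i j)) ≤ C * θ) ∧
        N w (aeval x (c i j) - aeval y (c i j)) ≤ C * η := by
  choose K hK1 hK2 using fun (ij : Fin m × Fin m) => poly_lip (m := m) (c ij.1 ij.2)
  refine ⟨∑ ij, K ij, ENNReal.sum_ne_top.2 fun ij _ => hK1 ij, ?_⟩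
  intro w hw x y η hx hy hxy i j
  have hle : K (i, j) ≤ ∑ ij, K ij := Finset.single_le_sum (fun _ _ => bot_le) (Finset.mem_univ _)
  constructor
  · intro θ hθ
    have h0 : ∀ s : Fin m × Fin n, N w ((0 : Fin m × Fin n → C(Tor m, ℝ)) s) ≤ 1 := fun s => by
      rw [Pi.zero_apply, N_zero]; exact bot_le
    have h1 := (hK2 (i, j) w hw x 0 θ hx h0 (fun s => by
      rw [Pi.zero_apply, sub_zero]; exact hθ s)).2
    have h2 : aeval (0 : Fin m × Fin n → C(Tor m, ℝ)) (c i j) = 0 := by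
      rw [aeval_zero, hc, map_zero]
    rw [h2, sub_zero] at h1
    exact h1.trans (by gcongr)
  · exact ((hK2 (i, j) w hw x y η hx hy hxy).2).trans (by gcongr)

lemma mn_sub (f g : C(Tor m, ℝ)) : mn (f - g) = mn f - mn g := by
  unfold mn
  rw [fc_sub, Complex.sub_re]

lemma Ml_zero (μ : (Fin m → ℤ) → ℂ) : Ml μ (0 : C(Tor m, ℝ)) = 0 := by
  unfold Ml fs
  have h4 : ∀ k : Fin m → ℤ, (μ k * fc (0 : C(Tor m, ℝ)) k) •
      (UnitAddTorus.mFourier k : C(Tor m, ℂ)) = 0 := by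
    intro k
    rw [fc_zero, mul_zero]
    ext t
    simp
  simp only [h4, tsum_zero]
  ext t
  simp

/-- the data of the fixed point problem -/
structure Dat (m n : ℕ) where
  /-- the coefficients of the nonlinearity -/
  c : Fin m → Fin m → MvPolynomial (Fin m × Fin n) ℝ
  /-- first derivatives -/
  P : Fin m × Fin n → C(Tor m, ℝ)
  /-- second derivatives -/
  Q : Fin m → Fin m → Fin n → C(Tor m, ℝ)
  /-- defect -/
  D : Fin n → C(Tor m, ℝ)
  /-- cut-off -/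
  χ : C(Tor m, ℝ)
  /-- correction of the mean value -/
  wm : C(Tor m, ℝ)
  /-- first order multipliers -/
  μS : Fin m → (Fin m → ℤ) → ℂ
  /-- second order multipliers -/
  μR : Fin m → Fin m → (Fin m → ℤ) → ℂ
  hS : ∀ i k, ‖μS i k‖ ≤ 1
  hR : ∀ i j k, ‖μR i j k‖ ≤ 1

variable (d : Dat m n)

/-- the first derivatives of the corrected function -/
def Dat.jet (f : Fin n → C(Tor m, ℝ)) (s : Fin m × Fin n) : C(Tor m, ℝ) :=
  d.P s + Ml (d.μS s.1) (f s.2)

/-- the right-hand side -/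
def Dat.F (f : Fin n → C(Tor m, ℝ)) (a : Fin n) : C(Tor m, ℝ) :=
  ∑ i, ∑ j, (aeval (d.jet f) (d.c i j) * (d.Q i j a + Ml (d.μR i j) (f a)) -
    aeval d.P (d.c i j) * d.Q i j a) - d.D a

/-- the map whose fixed point is wanted -/
def Dat.Φ (f : Fin n → C(Tor m, ℝ)) (a : Fin n) : C(Tor m, ℝ) :=
  d.χ * d.F f a - mn (d.χ * d.F f a) • d.wm

/-- the constant of the cut-offs -/
def Dat.K (w : (Fin m → ℤ) → ℝ≥0∞) : ℝ≥0∞ := N w d.χ * (1 + N w d.wm)

/-- smallness conditions -/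
structure Dat.Cond (C : ℝ≥0∞) (w : (Fin m → ℤ) → ℝ≥0∞) (δ e : ℝ≥0∞) : Prop where
  wt : Wt w
  two : 2 * δ ≤ 1
  small : d.K w * (4 * m ^ 2 * C * δ) ≤ 2⁻¹
  rad : 2 * (d.K w * e) ≤ δ
  P : ∀ s, N w (d.P s) ≤ δ
  Q : ∀ i j a, N w (d.Q i j a) ≤ δ
  D : ∀ a, N w (d.D a) ≤ e

variable {d}

lemma Dat.F_zero (a : Fin n) : d.F 0 a = -d.D a := by
  unfold Dat.F Dat.jet
  simp only [Pi.zero_apply, Ml_zero, add_zero, sub_self, Finset.sum_const_zero, zero_sub]

lemma Dat.Phi_sub (f f' : Fin n → C(Tor m, ℝ)) (a : Fin n) {w : (Fin m → ℤ) → ℝ≥0∞} (hw : Wt w) :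
    N w (d.Φ f a - d.Φ f' a) ≤ d.K w * N w (d.F f a - d.F f' a) := by
  have e : d.Φ f a - d.Φ f' a = d.χ * (d.F f a - d.F f' a) -
      mn (d.χ * (d.F f a - d.F f' a)) • d.wm := by
    unfold Dat.Φ
    rw [mul_sub, mn_sub, sub_smul]
    abel
  rw [e]
  calc N w (d.χ * (d.F f a - d.F f' a) - mn (d.χ * (d.F f a - d.F f' a)) • d.wm)
      ≤ N w (d.χ * (d.F f a - d.F f' a)) + N w (d.χ * (d.F f a - d.F f' a)) * N w d.wm := by
        refine (N_sub _ _).trans ?_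
        rw [N_smul]
        gcongr
        exact hw.mn_le _
    _ = N w (d.χ * (d.F f a - d.F f' a)) * (1 + N w d.wm) := by ring
    _ ≤ (N w d.χ * N w (d.F f a - d.F f' a)) * (1 + N w d.wm) := by
        gcongr
        exact hw.N_mul _ _
    _ = _ := by
        unfold Dat.K
        ring

lemma mn_neg (f : C(Tor m, ℝ)) : mn (-f) = -mn f := by
  unfold mn
  rw [fc_neg, Complex.neg_re]

lemma mn_zero : mn (0 : C(Tor m, ℝ)) = 0 := by
  unfold mn
  rw [fc_zero, Complex.zero_re]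

lemma Dat.Phi_zero (a : Fin n) {w : (Fin m → ℤ) → ℝ≥0∞} (hw : Wt w) :
    N w (d.Φ 0 a) ≤ d.K w * N w (d.D a) := by
  unfold Dat.Φ
  rw [Dat.F_zero]
  calc N w (d.χ * -d.D a - mn (d.χ * -d.D a) • d.wm)
      ≤ N w (d.χ * -d.D a) + N w (d.χ * -d.D a) * N w d.wm := by
        refine (N_sub _ _).trans ?_
        rw [N_smul]
        gcongr
        exact hw.mn_le _
    _ = N w (d.χ * -d.D a) * (1 + N w d.wm) := by ring
    _ ≤ (N w d.χ * N w (-d.D a)) * (1 + N w d.wm) := by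
        gcongr
        exact hw.N_mul _ _
    _ = _ := by
        unfold Dat.K
        rw [N_neg]
        ring

/-- the contraction estimate -/
lemma Dat.Cond.contr {C : ℝ≥0∞} {w : (Fin m → ℤ) → ℝ≥0∞} {δ e : ℝ≥0∞} (h : d.Cond C w δ e)
    (hC : ∀ (x y : Fin m × Fin n → C(Tor m, ℝ)) (η : ℝ≥0∞),
      (∀ s, N w (x s) ≤ 1) → (∀ s, N w (y s) ≤ 1) → (∀ s, N w (x s - y s) ≤ η) → ∀ i j,
        (∀ θ, (∀ s, N w (x s) ≤ θ) → N w (aeval x (d.c i j)) ≤ C * θ) ∧
        N w (aeval x (d.c i j) - aeval y (d.c i j)) ≤ C * η)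
    {f f' : Fin n → C(Tor m, ℝ)} (hf : ∀ a, N w (f a) ≤ δ) (hf' : ∀ a, N w (f' a) ≤ δ)
    {η : ℝ≥0∞} (hη : ∀ a, N w (f a - f' a) ≤ η) (a : Fin n) :
    N w (d.Φ f a - d.Φ f' a) ≤ 2⁻¹ * η := by
  have hw := h.wt
  have h1 : δ ≤ 1 := by
    calc δ ≤ 2 * δ := by rw [two_mul]; exact le_self_add
      _ ≤ 1 := h.two
  have hδt : δ ≠ ⊤ := ne_top_of_le_ne_top ENNReal.one_ne_top h1
  have hjet : ∀ g : Fin n → C(Tor m, ℝ), (∀ a, N w (g a) ≤ δ) → ∀ s, N w (d.jet g s) ≤ 2 * δ := by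
    intro g hg s
    calc N w (d.jet g s) ≤ N w (d.P s) + N w (Ml (d.μS s.1) (g s.2)) := N_add _ _
      _ ≤ δ + δ := add_le_add (h.P s) ((hw.N_Ml (d.hS s.1) _).trans (hg _))
      _ = 2 * δ := (two_mul δ).symm
  have hjet1 : ∀ g : Fin n → C(Tor m, ℝ), (∀ a, N w (g a) ≤ δ) → ∀ s, N w (d.jet g s) ≤ 1 :=
    fun g hg s => (hjet g hg s).trans h.two
  have hjets : ∀ s, N w (d.jet f s - d.jet f' s) ≤ η := by
    intro s
    have e1 : d.jet f s - d.jet f' s = Ml (d.μS s.1) (f s.2 - f' s.2) := by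
      unfold Dat.jet
      rw [hw.Ml_sub (d.hS s.1) (ne_top_of_le_ne_top hδt (hf _))
        (ne_top_of_le_ne_top hδt (hf' _))]
      abel
    rw [e1]
    exact (hw.N_Ml (d.hS s.1) _).trans (hη _)
  have hF : N w (d.F f a - d.F f' a) ≤ 4 * m ^ 2 * C * δ * η := by
    have e2 : d.F f a - d.F f' a = ∑ i, ∑ j,
        ((aeval (d.jet f) (d.c i j) - aeval (d.jet f') (d.c i j)) *
          (d.Q i j a + Ml (d.μR i j) (f a)) +
        aeval (d.jet f') (d.c i j) * Ml (d.μR i j) (f a - f' a)) := by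
      unfold Dat.F
      rw [sub_sub_sub_cancel_right, ← Finset.sum_sub_distrib]
      refine Finset.sum_congr rfl fun i _ => ?_
      rw [← Finset.sum_sub_distrib]
      refine Finset.sum_congr rfl fun j _ => ?_
      rw [hw.Ml_sub (d.hR i j) (ne_top_of_le_ne_top hδt (hf _))
        (ne_top_of_le_ne_top hδt (hf' _))]
      ring
    rw [e2]
    have e3 : ∀ i j, N w ((aeval (d.jet f) (d.c i j) - aeval (d.jet f') (d.c i j)) *
          (d.Q i j a + Ml (d.μR i j) (f a)) +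
        aeval (d.jet f') (d.c i j) * Ml (d.μR i j) (f a - f' a)) ≤ 4 * C * δ * η := by
      intro i j
      have k1 := (hC (d.jet f) (d.jet f') η (hjet1 f hf) (hjet1 f' hf') hjets i j).2
      have k2 := (hC (d.jet f') (d.jet f') 0 (hjet1 f' hf') (hjet1 f' hf') (fun s => by
        rw [sub_self, N_zero]) i j).1 (2 * δ) (hjet f' hf')
      have k3 : N w (d.Q i j a + Ml (d.μR i j) (f a)) ≤ 2 * δ := by
        calc N w (d.Q i j a + Ml (d.μR i j) (f a)) ≤ N w (d.Q i j a) + N w (Ml (d.μR i j) (f a)) :=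
              N_add _ _
          _ ≤ δ + δ := add_le_add (h.Q i j a) ((hw.N_Ml (d.hR i j) _).trans (hf _))
          _ = 2 * δ := (two_mul δ).symm
      have k4 : N w (Ml (d.μR i j) (f a - f' a)) ≤ η := (hw.N_Ml (d.hR i j) _).trans (hη _)
      calc _ ≤ N w (aeval (d.jet f) (d.c i j) - aeval (d.jet f') (d.c i j)) *
            N w (d.Q i j a + Ml (d.μR i j) (f a)) +
            N w (aeval (d.jet f') (d.c i j)) * N w (Ml (d.μR i j) (f a - f' a)) :=
            (N_add _ _).trans (add_le_add (hw.N_mul _ _) (hw.N_mul _ _))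
        _ ≤ (C * η) * (2 * δ) + (C * (2 * δ)) * η := by gcongr
        _ = 4 * C * δ * η := by ring
    calc N w (∑ i, ∑ j, ((aeval (d.jet f) (d.c i j) - aeval (d.jet f') (d.c i j)) *
          (d.Q i j a + Ml (d.μR i j) (f a)) +
        aeval (d.jet f') (d.c i j) * Ml (d.μR i j) (f a - f' a)))
        ≤ ∑ i : Fin m, ∑ j : Fin m, 4 * C * δ * η := by
          refine (N_sum _ _).trans (Finset.sum_le_sum fun i _ => ?_)
          exact (N_sum _ _).trans (Finset.sum_le_sum fun j _ => e3 i j)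
      _ = 4 * m ^ 2 * C * δ * η := by
          simp only [Finset.sum_const, Finset.card_univ, Fintype.card_fin, nsmul_eq_mul]
          ring
  calc N w (d.Φ f a - d.Φ f' a) ≤ d.K w * N w (d.F f a - d.F f' a) := Dat.Phi_sub f f' a hw
    _ ≤ d.K w * (4 * m ^ 2 * C * δ * η) := by gcongr
    _ = d.K w * (4 * m ^ 2 * C * δ) * η := by ring
    _ ≤ 2⁻¹ * η := by
        gcongr
        exact h.small

/-- the iterates -/
def Dat.it (d : Dat m n) (j : ℕ) : Fin n → C(Tor m, ℝ) := (fun f => d.Φ f)^[j] 0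

lemma Dat.it_succ (j : ℕ) : d.it (j + 1) = d.Φ (d.it j) := by
  unfold Dat.it
  rw [Function.iterate_succ_apply']

/-- what the polynomial estimate gives -/
def PolyBd (d : Dat m n) (C : ℝ≥0∞) : Prop := ∀ (w : (Fin m → ℤ) → ℝ≥0∞), Wt w →
  ∀ (x y : Fin m × Fin n → C(Tor m, ℝ)) (η : ℝ≥0∞),
      (∀ s, N w (x s) ≤ 1) → (∀ s, N w (y s) ≤ 1) → (∀ s, N w (x s - y s) ≤ η) → ∀ i j,
        (∀ θ, (∀ s, N w (x s) ≤ θ) → N w (aeval x (d.c i j)) ≤ C * θ) ∧
        N w (aeval x (d.c i j) - aeval y (d.c i j)) ≤ C * η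

lemma Dat.Cond.it_le {C : ℝ≥0∞} {w : (Fin m → ℤ) → ℝ≥0∞} {δ e : ℝ≥0∞} (h : d.Cond C w δ e)
    (hC : PolyBd d C) (j : ℕ) (a : Fin n) : N w (d.it j a) ≤ 2 * (d.K w * e) := by
  induction j generalizing a with
  | zero =>
    have : d.it 0 a = 0 := rfl
    rw [this, N_zero]
    exact bot_le
  | succ j ih =>
    rw [Dat.it_succ]
    have h1 : N w (d.Φ (d.it j) a - d.Φ 0 a) ≤ 2⁻¹ * (2 * (d.K w * e)) := by
      refine h.contr (hC w h.wt) (fun a => (ih a).trans h.rad) (fun a => ?_) (fun a => ?_) a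
      · rw [Pi.zero_apply, N_zero]; exact bot_le
      · rw [Pi.zero_apply, sub_zero]; exact ih a
    have h2 : N w (d.Φ 0 a) ≤ d.K w * e := (Dat.Phi_zero a h.wt).trans (by gcongr; exact h.D a)
    have h3 : d.Φ (d.it j) a = (d.Φ (d.it j) a - d.Φ 0 a) + d.Φ 0 a := by abel
    rw [← mul_assoc, ENNReal.inv_mul_cancel two_ne_zero (by simp), one_mul] at h1
    rw [h3]
    calc N w ((d.Φ (d.it j) a - d.Φ 0 a) + d.Φ 0 a) ≤ d.K w * e + d.K w * e :=
          (N_add _ _).trans (add_le_add h1 h2)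
      _ = 2 * (d.K w * e) := (two_mul _).symm

lemma Dat.Cond.it_sub {C : ℝ≥0∞} {w : (Fin m → ℤ) → ℝ≥0∞} {δ e : ℝ≥0∞} (h : d.Cond C w δ e)
    (hC : PolyBd d C) (j : ℕ) (a : Fin n) : N w (d.it (j + 1) a - d.it j a) ≤ 2⁻¹ ^ j * δ := by
  induction j generalizing a with
  | zero =>
    have : d.it 0 a = 0 := rfl
    rw [this, sub_zero, pow_zero, one_mul]
    exact (h.it_le hC 1 a).trans h.rad
  | succ j ih =>
    have h1 := h.contr (hC w h.wt) (fun a => (h.it_le hC (j + 1) a).trans h.rad)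
      (fun a => (h.it_le hC j a).trans h.rad) ih a
    rw [← Dat.it_succ, ← Dat.it_succ] at h1
    rw [pow_succ']
    rwa [mul_assoc]

lemma Dat.Cond.it_sub' {C : ℝ≥0∞} {w : (Fin m → ℤ) → ℝ≥0∞} {δ e : ℝ≥0∞} (h : d.Cond C w δ e)
    (hC : PolyBd d C) (j p : ℕ) (a : Fin n) :
    N w (d.it (j + p) a - d.it j a) + 2 * (2⁻¹ ^ (j + p) * δ) ≤ 2 * (2⁻¹ ^ j * δ) := by
  induction p with
  | zero => rw [add_zero, sub_self, N_zero, zero_add]
  | succ p ih =>
    have h1 := h.it_sub hC (j + p) a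
    have h2 : d.it (j + (p + 1)) a - d.it j a =
        (d.it (j + p + 1) a - d.it (j + p) a) + (d.it (j + p) a - d.it j a) := by
      rw [← add_assoc]
      abel
    have h3 : 2 * (2⁻¹ ^ (j + (p + 1)) * δ) = 2⁻¹ ^ (j + p) * δ := by
      rw [← add_assoc, pow_succ', mul_assoc, ← mul_assoc,
        ENNReal.mul_inv_cancel two_ne_zero (by simp), one_mul]
    rw [h2, h3]
    calc N w ((d.it (j + p + 1) a - d.it (j + p) a) + (d.it (j + p) a - d.it j a)) +
          2⁻¹ ^ (j + p) * δ ≤ 2⁻¹ ^ (j + p) * δ + N w (d.it (j + p) a - d.it j a) +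
            2⁻¹ ^ (j + p) * δ := by
          gcongr
          exact (N_add _ _).trans (by gcongr)
      _ = N w (d.it (j + p) a - d.it j a) + 2 * (2⁻¹ ^ (j + p) * δ) := by ring
      _ ≤ _ := ih

/-- existence of the fixed point, with bounds for all good weights -/
theorem exists_fixed (d : Dat m n) {C : ℝ≥0∞} (hC : PolyBd d C) {w₀ : (Fin m → ℤ) → ℝ≥0∞}
    {δ₀ e₀ : ℝ≥0∞} (h₀ : d.Cond C w₀ δ₀ e₀) : ∃ L : Fin n → C(Tor m, ℝ), (∀ a, d.Φ L a = L a) ∧
      ∀ (w : (Fin m → ℤ) → ℝ≥0∞) (δ e : ℝ≥0∞), d.Cond C w δ e →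
        ∀ a, N w (L a) ≤ 2 * (d.K w * e) := by
  have h1 : δ₀ ≤ 1 := by
    calc δ₀ ≤ 2 * δ₀ := by rw [two_mul]; exact le_self_add
      _ ≤ 1 := h₀.two
  have hcau : ∀ a, CauchySeq fun j => d.it j a := by
    intro a
    refine cauchySeq_of_le_geometric (1 / 2) 1 (by norm_num) fun j => ?_
    have h2 := h₀.it_sub hC j a
    have h3 := h₀.wt.norm_le (d.it (j + 1) a - d.it j a)
    rw [dist_comm, dist_eq_norm]
    have h4 : ENNReal.ofReal ‖d.it (j + 1) a - d.it j a‖ ≤ ENNReal.ofReal (1 * (1 / 2) ^ j) := by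
      refine h3.trans (h2.trans ?_)
      rw [one_mul, ENNReal.ofReal_pow (by norm_num), one_div, ENNReal.ofReal_inv_of_pos two_pos]
      calc (2⁻¹ : ℝ≥0∞) ^ j * δ₀ ≤ 2⁻¹ ^ j * 1 := by gcongr
        _ = (ENNReal.ofReal 2)⁻¹ ^ j := by simp
    exact (ENNReal.ofReal_le_ofReal_iff (by positivity)).1 h4
  choose L hL using fun a => cauchySeq_tendsto_of_complete (hcau a)
  have hbd : ∀ (w : (Fin m → ℤ) → ℝ≥0∞) (δ e : ℝ≥0∞), d.Cond C w δ e →
        ∀ a, N w (L a) ≤ 2 * (d.K w * e) := by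
    intro w δ e h a
    exact h.wt.N_le_of_tendsto (hL a) (Filter.Eventually.of_forall fun j => h.it_le hC j a)
  refine ⟨L, fun a => ?_, hbd⟩
  have hlim : ∀ j a, N w₀ (L a - d.it j a) ≤ 2 * (2⁻¹ ^ j * δ₀) := by
    intro j a
    have h2 : Filter.Tendsto (fun p => d.it (j + p) a - d.it j a) Filter.atTop
        (nhds (L a - d.it j a)) := by
      refine Filter.Tendsto.sub_const ?_ _
      have := (Filter.tendsto_add_atTop_iff_nat j).2 (hL a)
      simpa only [add_comm] using this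
    refine h₀.wt.N_le_of_tendsto h2 (Filter.Eventually.of_forall fun p => ?_)
    exact le_self_add.trans (h₀.it_sub' hC j p a)
  have hfin : ∀ j, N w₀ (d.Φ L a - L a) ≤ 2⁻¹ ^ j * (2 * δ₀) := by
    intro j
    have h2 := h₀.contr (hC w₀ h₀.wt) (fun a => (hbd w₀ δ₀ e₀ h₀ a).trans h₀.rad)
      (fun a => (h₀.it_le hC j a).trans h₀.rad) (hlim j) a
    have h3 := hlim (j + 1) a
    rw [← Dat.it_succ] at h2
    have h4 : d.Φ L a - L a = (d.Φ L a - d.it (j + 1) a) - (L a - d.it (j + 1) a) := by abel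
    rw [h4]
    calc N w₀ ((d.Φ L a - d.it (j + 1) a) - (L a - d.it (j + 1) a))
        ≤ 2⁻¹ * (2 * (2⁻¹ ^ j * δ₀)) + 2 * (2⁻¹ ^ (j + 1) * δ₀) :=
          (N_sub _ _).trans (add_le_add h2 h3)
      _ = (2⁻¹ * 2) * (2⁻¹ ^ j * δ₀) + (2 * 2⁻¹) * (2⁻¹ ^ j * δ₀) := by
          rw [pow_succ]
          ring
      _ = 2⁻¹ ^ j * (2 * δ₀) := by
          rw [ENNReal.inv_mul_cancel two_ne_zero (by simp),
            ENNReal.mul_inv_cancel two_ne_zero (by simp)]
          ring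
  have hzero : N w₀ (d.Φ L a - L a) = 0 := by
    refine le_antisymm ?_ bot_le
    have h5 : Filter.Tendsto (fun j : ℕ => (2⁻¹ : ℝ≥0∞) ^ j * (2 * δ₀)) Filter.atTop
        (nhds (0 * (2 * δ₀))) := by
      refine ENNReal.Tendsto.mul_const ?_ (Or.inr ?_)
      · exact ENNReal.tendsto_pow_atTop_nhds_zero_of_lt_one (by
          rw [ENNReal.inv_lt_one]; norm_num)
      · exact ENNReal.mul_ne_top (by simp) (ne_top_of_le_ne_top ENNReal.one_ne_top h1)
    rw [zero_mul] at h5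
    exact ge_of_tendsto' h5 hfin
  exact sub_eq_zero.1 (h₀.wt.ext hzero)

end

end Vale.Agent.P214.REF
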