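import Mathlib

/-!
# P214, block REF: absolutely convergent Fourier series of real functions on the torus

`N w f` is the weighted `ℓ¹` norm of the Fourier coefficients, with values in `ℝ≥0∞`.
-/

open MeasureTheory UnitAddTorus
open scoped ENNReal ComplexConjugate

namespace Vale.Agent.P214.REF

noncomputable section

local instance instMS : MeasureSpace UnitAddCircle := ⟨AddCircle.haarAddCircle⟩

local instance instHaar : Measure.IsAddHaarMeasure (volume : Measure UnitAddCircle) :=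
  inferInstanceAs (Measure.IsAddHaarMeasure AddCircle.haarAddCircle)

local instance instProb : IsProbabilityMeasure (volume : Measure UnitAddCircle) :=
  inferInstanceAs (IsProbabilityMeasure AddCircle.haarAddCircle)

variable {m : ℕ}

/-- the torus -/
abbrev Tor (m : ℕ) : Type := UnitAddTorus (Fin m)

/-- Fourier coefficient of a complex function -/
def cf (h : C(Tor m, ℂ)) (k : Fin m → ℤ) : ℂ := mFourierCoeff h k

lemma cf_def (h : C(Tor m, ℂ)) (k : Fin m → ℤ) : cf h k = ∫ t, mFourier (-k) t * h t := rfl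

lemma integrable_cont (h : C(Tor m, ℂ)) : Integrable (fun t => h t) (volume : Measure (Tor m)) :=
  h.continuous.integrable_of_hasCompactSupport (HasCompactSupport.of_compactSpace _)

/-- Fourier coefficient as a continuous linear functional -/
def cfL (k : Fin m → ℤ) : C(Tor m, ℂ) →L[ℂ] ℂ :=
  LinearMap.mkContinuous
    { toFun := fun h => cf h k
      map_add' := fun g h => by
        simp only [cf_def, ContinuousMap.add_apply, mul_add]
        exact integral_add (integrable_cont (mFourier (-k) * g)) (integrable_cont (mFourier (-k) * h))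
      map_smul' := fun c h => by
        simp only [cf_def, ContinuousMap.smul_apply, smul_eq_mul, RingHom.id_apply]
        rw [← integral_const_mul]
        congr 1
        ext t
        ring } 1 (fun h => by
      change ‖∫ t, mFourier (-k) t * h t‖ ≤ 1 * ‖h‖
      refine (norm_integral_le_of_norm_le_const (C := ‖h‖) (Filter.Eventually.of_forall fun t => ?_)).trans ?_
      · rw [norm_mul]
        have h1 : ‖mFourier (-k) t‖ ≤ 1 := by
          have := (mFourier (-k)).norm_coe_le_norm t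
          rwa [mFourier_norm] at this
        calc ‖mFourier (-k) t‖ * ‖h t‖ ≤ 1 * ‖h‖ := by
              gcongr
              exact h.norm_coe_le_norm t
          _ = ‖h‖ := one_mul _
      · simp [measureReal_def])

@[simp] lemma cfL_apply (k : Fin m → ℤ) (h : C(Tor m, ℂ)) : cfL k h = cf h k := rfl

lemma cf_add (g h : C(Tor m, ℂ)) (k : Fin m → ℤ) : cf (g + h) k = cf g k + cf h k :=
  map_add (cfL k) g h

lemma cf_neg (g : C(Tor m, ℂ)) (k : Fin m → ℤ) : cf (-g) k = - cf g k :=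
  map_neg (cfL k) g

lemma cf_sub (g h : C(Tor m, ℂ)) (k : Fin m → ℤ) : cf (g - h) k = cf g k - cf h k :=
  map_sub (cfL k) g h

lemma cf_smul (c : ℂ) (g : C(Tor m, ℂ)) (k : Fin m → ℤ) : cf (c • g) k = c * cf g k :=
  map_smul (cfL k) c g

lemma norm_cf_le (h : C(Tor m, ℂ)) (k : Fin m → ℤ) : ‖cf h k‖ ≤ ‖h‖ := by
  have h1 := (cfL k).le_opNorm h
  have h2 : ‖cfL (m := m) k‖ ≤ 1 := LinearMap.mkContinuous_norm_le _ zero_le_one _
  calc ‖cf h k‖ ≤ ‖cfL (m := m) k‖ * ‖h‖ := h1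
    _ ≤ 1 * ‖h‖ := by gcongr
    _ = ‖h‖ := one_mul _

lemma cf_mFourier (n k : Fin m → ℤ) : cf (mFourier n) k = if n = k then 1 else 0 := by
  have h1 := orthonormal_iff_ite.1 (orthonormal_mFourier (d := Fin m)) k n
  rw [cf_def]
  have h2 : ∫ t, mFourier (-k) t * mFourier n t =
      inner ℂ (mFourierLp (d := Fin m) 2 k) (mFourierLp 2 n) := by
    rw [L2.inner_def]
    apply integral_congr_ae
    filter_upwards [coeFn_mFourierLp 2 n, coeFn_mFourierLp 2 k] with t h3 h4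
    rw [h3, h4, mFourier_neg, RCLike.inner_apply, mul_comm]
  rw [h2, h1]
  simp only [eq_comm]

lemma cf_mul_mFourier (n : Fin m → ℤ) (h : C(Tor m, ℂ)) (k : Fin m → ℤ) :
    cf (mFourier n * h) k = cf h (k - n) := by
  rw [cf_def, cf_def]
  congr 1
  ext t
  rw [ContinuousMap.mul_apply, ← mul_assoc, ← mFourier_add]
  congr 2
  congr 1
  abel

/-- a function whose coefficients are summable is the sum of its Fourier series -/
lemma hasSum_cf {h : C(Tor m, ℂ)} (hs : Summable (cf h)) :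
    HasSum (fun k => cf h k • (mFourier k : C(Tor m, ℂ))) h :=
  hasSum_mFourier_series_of_summable hs

lemma summable_series {a : (Fin m → ℤ) → ℂ} (ha : Summable a) :
    Summable fun k => a k • (mFourier k : C(Tor m, ℂ)) := by
  refine Summable.of_norm ?_
  simpa only [norm_smul, mFourier_norm, mul_one] using ha.norm

/-- sum of a Fourier series -/
def fs (a : (Fin m → ℤ) → ℂ) : C(Tor m, ℂ) := ∑' k, a k • (mFourier k : C(Tor m, ℂ))

lemma cf_fs {a : (Fin m → ℤ) → ℂ} (ha : Summable a) (k : Fin m → ℤ) : cf (fs a) k = a k := by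
  have h1 := (cfL k).hasSum (summable_series ha).hasSum
  simp only [cfL_apply, cf_smul, cf_mFourier] at h1
  have h2 : HasSum (fun n => a n * if n = k then (1 : ℂ) else 0) (a k) := by
    have h3 : (fun n => a n * if n = k then (1 : ℂ) else 0) = fun n => if n = k then a k else 0 := by
      funext n
      by_cases h : n = k <;> simp [h]
    rw [h3]
    exact hasSum_ite_eq k (a k)
  exact h1.unique h2

lemma fs_cf {h : C(Tor m, ℂ)} (hs : Summable (cf h)) : fs (cf h) = h :=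
  (hasSum_cf hs).tsum_eq

/-- Fourier coefficients of a product -/
lemma hasSum_cf_mul {g : C(Tor m, ℂ)} (hs : Summable (cf g)) (h : C(Tor m, ℂ)) (k : Fin m → ℤ) :
    HasSum (fun n => cf g n * cf h (k - n)) (cf (g * h) k) := by
  have h1 := (hasSum_cf hs).mul_right h
  have h2 := (cfL k).hasSum h1
  simp only [smul_mul_assoc, cfL_apply, cf_smul, cf_mul_mFourier] at h2
  exact h2

/-! ### Real functions -/

/-- a real function as complex function -/
def toC (f : C(Tor m, ℝ)) : C(Tor m, ℂ) := ⟨fun t => (f t : ℂ), by fun_prop⟩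

@[simp] lemma toC_apply (f : C(Tor m, ℝ)) (t : Tor m) : toC f t = (f t : ℂ) := rfl

lemma toC_add (f g : C(Tor m, ℝ)) : toC (f + g) = toC f + toC g := by
  ext t; simp

lemma toC_sub (f g : C(Tor m, ℝ)) : toC (f - g) = toC f - toC g := by
  ext t; simp

lemma toC_neg (f : C(Tor m, ℝ)) : toC (-f) = -toC f := by
  ext t; simp

lemma toC_mul (f g : C(Tor m, ℝ)) : toC (f * g) = toC f * toC g := by
  ext t; simp

lemma toC_smul (c : ℝ) (g : C(Tor m, ℝ)) : toC (c • g) = (c : ℂ) • toC g := by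
  ext t; simp

/-- real part -/
def rp (h : C(Tor m, ℂ)) : C(Tor m, ℝ) := ⟨fun t => (h t).re, by fun_prop⟩

@[simp] lemma rp_apply (h : C(Tor m, ℂ)) (t : Tor m) : rp h t = (h t).re := rfl

lemma rp_toC (f : C(Tor m, ℝ)) : rp (toC f) = f := by
  ext t; simp

/-- Fourier coefficient of a real function -/
def fc (f : C(Tor m, ℝ)) (k : Fin m → ℤ) : ℂ := cf (toC f) k

lemma fc_add (f g : C(Tor m, ℝ)) (k : Fin m → ℤ) : fc (f + g) k = fc f k + fc g k := by
  unfold fc; rw [toC_add, cf_add]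

lemma fc_sub (f g : C(Tor m, ℝ)) (k : Fin m → ℤ) : fc (f - g) k = fc f k - fc g k := by
  unfold fc; rw [toC_sub, cf_sub]

lemma fc_neg (f : C(Tor m, ℝ)) (k : Fin m → ℤ) : fc (-f) k = - fc f k := by
  unfold fc; rw [toC_neg, cf_neg]

lemma fc_smul (c : ℝ) (f : C(Tor m, ℝ)) (k : Fin m → ℤ) : fc (c • f) k = c * fc f k := by
  unfold fc; rw [toC_smul, cf_smul]

lemma fc_zero (k : Fin m → ℤ) : fc (0 : C(Tor m, ℝ)) k = 0 := by
  have := fc_smul 0 (0 : C(Tor m, ℝ)) k
  simpa using this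

lemma norm_toC (f : C(Tor m, ℝ)) : ‖toC f‖ ≤ ‖f‖ := by
  refine (ContinuousMap.norm_le _ (norm_nonneg _)).2 fun t => ?_
  rw [toC_apply, Complex.norm_real]
  exact f.norm_coe_le_norm t

lemma norm_fc_le (f : C(Tor m, ℝ)) (k : Fin m → ℤ) : ‖fc f k‖ ≤ ‖f‖ :=
  (norm_cf_le _ k).trans (norm_toC f)

lemma cf_conj (h : C(Tor m, ℂ)) (k : Fin m → ℤ) : cf (star h) k = conj (cf h (-k)) := by
  rw [cf_def, cf_def, ← integral_conj]
  congr 1
  ext t
  rw [map_mul, ← mFourier_neg, neg_neg]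
  rfl

lemma toC_rp (h : C(Tor m, ℂ)) : toC (rp h) = (2⁻¹ : ℂ) • (h + star h) := by
  ext t
  simp only [toC_apply, rp_apply, ContinuousMap.smul_apply, ContinuousMap.add_apply,
    ContinuousMap.star_apply, smul_eq_mul, RCLike.star_def, Complex.add_conj]
  push_cast
  ring

lemma fc_rp (h : C(Tor m, ℂ)) (k : Fin m → ℤ) :
    fc (rp h) k = 2⁻¹ * (cf h k + conj (cf h (-k))) := by
  unfold fc
  rw [toC_rp, cf_smul, cf_add, cf_conj]

/-! ### Weighted norms -/

/-- admissible weights -/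
structure Wt (w : (Fin m → ℤ) → ℝ≥0∞) : Prop where
  one_le : ∀ k, 1 ≤ w k
  mul : ∀ k l, w (k + l) ≤ w k * w l
  even : ∀ k, w (-k) = w k
  zero : w 0 = 1
  ne_top : ∀ k, w k ≠ ⊤

variable {w : (Fin m → ℤ) → ℝ≥0∞}

/-- weighted norm of the coefficients -/
def N (w : (Fin m → ℤ) → ℝ≥0∞) (f : C(Tor m, ℝ)) : ℝ≥0∞ := ∑' k, ‖fc f k‖ₑ * w k

lemma N_zero : N w 0 = 0 := by
  simp [N, fc_zero]

lemma N_add (f g : C(Tor m, ℝ)) : N w (f + g) ≤ N w f + N w g := by
  unfold N
  rw [← ENNReal.tsum_add]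
  refine ENNReal.tsum_le_tsum fun k => ?_
  rw [fc_add, ← add_mul]
  gcongr
  exact enorm_add_le _ _

lemma N_neg (f : C(Tor m, ℝ)) : N w (-f) = N w f := by
  unfold N
  simp only [fc_neg, enorm_neg]

lemma N_sub (f g : C(Tor m, ℝ)) : N w (f - g) ≤ N w f + N w g := by
  rw [sub_eq_add_neg, ← N_neg g]
  exact N_add _ _

lemma N_sub_comm (f g : C(Tor m, ℝ)) : N w (f - g) = N w (g - f) := by
  rw [← N_neg, neg_sub]

lemma N_smul (c : ℝ) (f : C(Tor m, ℝ)) : N w (c • f) = ‖c‖ₑ * N w f := by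
  unfold N
  rw [← ENNReal.tsum_mul_left]
  congr 1
  ext k
  rw [fc_smul, enorm_mul, mul_assoc]
  congr 1
  rw [← ofReal_norm, ← ofReal_norm, Complex.norm_real]

lemma N_sum {ι : Type*} (s : Finset ι) (f : ι → C(Tor m, ℝ)) :
    N w (∑ i ∈ s, f i) ≤ ∑ i ∈ s, N w (f i) := by
  classical
  induction s using Finset.induction_on with
  | empty => simp [N_zero]
  | insert i s hi ih =>
    rw [Finset.sum_insert hi, Finset.sum_insert hi]
    exact (N_add _ _).trans (by gcongr)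

lemma Wt.tsum_enorm_le (hw : Wt w) (f : C(Tor m, ℝ)) : ∑' k, ‖fc f k‖ₑ ≤ N w f := by
  refine ENNReal.tsum_le_tsum fun k => ?_
  calc ‖fc f k‖ₑ = ‖fc f k‖ₑ * 1 := (mul_one _).symm
    _ ≤ _ := by
      gcongr
      exact hw.one_le k

lemma Wt.summable (hw : Wt w) {f : C(Tor m, ℝ)} (hf : N w f ≠ ⊤) : Summable (fc f) := by
  have h1 : ∑' k, ‖fc f k‖ₑ ≠ ⊤ := ne_top_of_le_ne_top hf (hw.tsum_enorm_le f)
  have h2 : Summable fun k => ‖fc f k‖₊ := ENNReal.tsum_coe_ne_top_iff_summable.1 h1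
  exact Summable.of_nnnorm h2

lemma Wt.fs_fc (hw : Wt w) {f : C(Tor m, ℝ)} (hf : N w f ≠ ⊤) : fs (fc f) = toC f :=
  fs_cf (hw.summable hf)

lemma Wt.ext (hw : Wt w) {f : C(Tor m, ℝ)} (hf : N w f = 0) : f = 0 := by
  have h0 : ∀ k, fc f k = 0 := by
    intro k
    have h1 : ‖fc f k‖ₑ * w k ≤ 0 := by
      rw [← hf]
      exact ENNReal.le_tsum k
    have h2 : ‖fc f k‖ₑ * w k = 0 := le_antisymm h1 bot_le
    rcases mul_eq_zero.1 h2 with h | h
    · exact enorm_eq_zero.1 h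
    · exact absurd (hw.one_le k) (by rw [h]; simp)
  have h1 := hw.fs_fc (f := f) (by rw [hf]; simp)
  have h2 : fc f = 0 := funext h0
  rw [h2] at h1
  have h3 : toC f = 0 := by
    rw [← h1]
    unfold fs
    have h4 : ∀ k : Fin m → ℤ, (0 : (Fin m → ℤ) → ℂ) k • (mFourier k : C(Tor m, ℂ)) = 0 := by
      intro k
      ext t
      simp
    simp only [h4, tsum_zero]
  rw [← rp_toC f, h3]
  ext t
  simp

lemma Wt.N_mul (hw : Wt w) (f g : C(Tor m, ℝ)) : N w (f * g) ≤ N w f * N w g := by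
  by_cases hf : N w f = ⊤
  · rcases eq_or_ne (N w g) 0 with hg | hg
    · rw [hw.ext hg, mul_zero, N_zero]
      exact bot_le
    · rw [hf, ENNReal.top_mul hg]
      exact le_top
  · have h1 : ∀ k, ‖fc (f * g) k‖ₑ ≤ ∑' n, ‖fc f n‖ₑ * ‖fc g (k - n)‖ₑ := by
      intro k
      have h2 := hasSum_cf_mul (hw.summable hf) (toC g) k
      rw [← toC_mul] at h2
      have h3 : fc (f * g) k = ∑' n, fc f n * fc g (k - n) := h2.tsum_eq.symm
      rw [h3]
      refine (enorm_tsum_le_tsum_enorm).trans (le_of_eq ?_)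
      congr 1
      ext n
      rw [enorm_mul]
    calc N w (f * g) ≤ ∑' k, (∑' n, ‖fc f n‖ₑ * ‖fc g (k - n)‖ₑ) * w k := by
          unfold N
          exact ENNReal.tsum_le_tsum fun k => mul_le_mul_left (h1 k) _
      _ = ∑' k, ∑' n, ‖fc f n‖ₑ * ‖fc g (k - n)‖ₑ * w k := by
          congr 1
          ext k
          rw [ENNReal.tsum_mul_right]
      _ = ∑' n, ∑' k, ‖fc f n‖ₑ * ‖fc g (k - n)‖ₑ * w k := ENNReal.tsum_comm
      _ ≤ ∑' n, ∑' k, (‖fc f n‖ₑ * w n) * (‖fc g (k - n)‖ₑ * w (k - n)) := by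
          refine ENNReal.tsum_le_tsum fun n => ENNReal.tsum_le_tsum fun k => ?_
          have h4 : w k ≤ w n * w (k - n) := by
            have := hw.mul n (k - n)
            rwa [add_sub_cancel] at this
          calc ‖fc f n‖ₑ * ‖fc g (k - n)‖ₑ * w k
              ≤ ‖fc f n‖ₑ * ‖fc g (k - n)‖ₑ * (w n * w (k - n)) := by gcongr
            _ = _ := by ring
      _ = ∑' n, (‖fc f n‖ₑ * w n) * N w g := by
          congr 1
          ext n
          rw [ENNReal.tsum_mul_left]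
          congr 1
          exact (Equiv.subRight n).tsum_eq (fun k => ‖fc g k‖ₑ * w k)
      _ = N w f * N w g := by
          rw [ENNReal.tsum_mul_right]
          rfl

lemma fc_const (c : ℝ) (k : Fin m → ℤ) :
    fc (ContinuousMap.const (Tor m) c) k = if k = 0 then (c : ℂ) else 0 := by
  have h1 : toC (ContinuousMap.const (Tor m) c) = (c : ℂ) • mFourier 0 := by
    ext t
    rw [mFourier_zero]
    simp
  unfold fc
  rw [h1, cf_smul, cf_mFourier]
  by_cases h : k = 0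
  · simp [h]
  · rw [if_neg (Ne.symm h), if_neg h, mul_zero]

lemma Wt.N_const (hw : Wt w) (c : ℝ) : N w (ContinuousMap.const (Tor m) c) = ‖c‖ₑ := by
  unfold N
  rw [tsum_eq_single 0]
  · rw [fc_const, if_pos rfl, hw.zero, mul_one, ← ofReal_norm, ← ofReal_norm, Complex.norm_real]
  · intro k hk
    rw [fc_const, if_neg hk]
    simp

lemma Wt.N_rp (hw : Wt w) (h : C(Tor m, ℂ)) : N w (rp h) ≤ ∑' k, ‖cf h k‖ₑ * w k := by
  have h1 : ∀ k, ‖fc (rp h) k‖ₑ ≤ 2⁻¹ * (‖cf h k‖ₑ + ‖cf h (-k)‖ₑ) := by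
    intro k
    rw [fc_rp, enorm_mul]
    have h2 : ‖(2⁻¹ : ℂ)‖ₑ = 2⁻¹ := by
      rw [enorm_inv two_ne_zero]
      congr 1
      rw [← ofReal_norm]
      simp
    rw [h2]
    gcongr
    refine (enorm_add_le _ _).trans ?_
    gcongr
    rw [← ofReal_norm, ← ofReal_norm, RCLike.norm_conj]
  calc N w (rp h) ≤ ∑' k, 2⁻¹ * (‖cf h k‖ₑ + ‖cf h (-k)‖ₑ) * w k :=
        ENNReal.tsum_le_tsum fun k => mul_le_mul_left (h1 k) _
    _ = 2⁻¹ * (∑' k, ‖cf h k‖ₑ * w k + ∑' k, ‖cf h (-k)‖ₑ * w (-k)) := by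
        rw [← ENNReal.tsum_add, ← ENNReal.tsum_mul_left]
        congr 1
        ext k
        rw [hw.even]
        ring
    _ = 2⁻¹ * (∑' k, ‖cf h k‖ₑ * w k + ∑' k, ‖cf h k‖ₑ * w k) := by
        congr 2
        exact (Equiv.neg (Fin m → ℤ)).tsum_eq (fun k => ‖cf h k‖ₑ * w k)
    _ = _ := by
        rw [← two_mul, ← mul_assoc, ENNReal.inv_mul_cancel two_ne_zero (by simp), one_mul]

/-- lower semicontinuity -/
lemma Wt.N_le_of_tendsto (hw : Wt w) {F : ℕ → C(Tor m, ℝ)} {L : C(Tor m, ℝ)}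
    (hF : Filter.Tendsto F Filter.atTop (nhds L)) {r : ℝ≥0∞} (h : ∀ᶠ i in Filter.atTop, N w (F i) ≤ r) :
    N w L ≤ r := by
  unfold N
  rw [ENNReal.tsum_eq_iSup_sum]
  refine iSup_le fun s => ?_
  have h1 : Filter.Tendsto (fun i => ∑ k ∈ s, ‖fc (F i) k‖ₑ * w k) Filter.atTop
      (nhds (∑ k ∈ s, ‖fc L k‖ₑ * w k)) := by
    refine tendsto_finsetSum s fun k _ => ?_
    refine ENNReal.Tendsto.mul_const ?_ (Or.inr (hw.ne_top k))
    refine (continuous_enorm.tendsto _).comp ?_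
    have h2 : Filter.Tendsto (fun i => fc (F i) k - fc L k) Filter.atTop (nhds 0) := by
      refine squeeze_zero_norm (fun i => ?_) (tendsto_iff_norm_sub_tendsto_zero.1 hF)
      rw [← fc_sub]
      exact norm_fc_le _ k
    have h3 := h2.add_const (fc L k)
    simpa using h3
  refine le_of_tendsto h1 ?_
  filter_upwards [h] with i hi
  exact (ENNReal.sum_le_tsum s).trans hi

lemma Wt.norm_le (hw : Wt w) (f : C(Tor m, ℝ)) : ENNReal.ofReal ‖f‖ ≤ N w f := by
  by_cases hf : N w f = ⊤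
  · rw [hf]; exact le_top
  have h1 := hw.fs_fc hf
  have h2 : ‖f‖ ≤ ‖toC f‖ := by
    refine (ContinuousMap.norm_le _ (norm_nonneg _)).2 fun t => ?_
    have := (toC f).norm_coe_le_norm t
    rwa [toC_apply, Complex.norm_real] at this
  have h3 : ‖toC f‖ ≤ ∑' k, ‖fc f k‖ := by
    rw [← h1]
    unfold fs
    have h4 : Summable fun k => ‖fc f k • (mFourier k : C(Tor m, ℂ))‖ := by
      simpa only [norm_smul, mFourier_norm, mul_one] using (hw.summable hf).norm
    refine (norm_tsum_le_tsum_norm h4).trans (le_of_eq ?_)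
    simp only [norm_smul, mFourier_norm, mul_one]
  calc ENNReal.ofReal ‖f‖ ≤ ENNReal.ofReal (∑' k, ‖fc f k‖) :=
        ENNReal.ofReal_le_ofReal (h2.trans h3)
    _ = ∑' k, ‖fc f k‖ₑ := by
        rw [ENNReal.ofReal_tsum_of_nonneg (fun k => norm_nonneg _) (hw.summable hf).norm]
        simp only [ofReal_norm]
    _ ≤ N w f := hw.tsum_enorm_le f

/-! ### Fourier multipliers -/

/-- real part of the Fourier multiplier -/
def Ml (μ : (Fin m → ℤ) → ℂ) (f : C(Tor m, ℝ)) : C(Tor m, ℝ) := rp (fs fun k => μ k * fc f k)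

lemma Wt.summable_mul (hw : Wt w) {μ : (Fin m → ℤ) → ℂ} (hμ : ∀ k, ‖μ k‖ ≤ 1)
    {f : C(Tor m, ℝ)} (hf : N w f ≠ ⊤) : Summable fun k => μ k * fc f k := by
  refine Summable.of_norm_bounded (hw.summable hf).norm fun k => ?_
  rw [norm_mul]
  calc ‖μ k‖ * ‖fc f k‖ ≤ 1 * ‖fc f k‖ := by
        gcongr
        exact hμ k
    _ = _ := one_mul _

lemma Wt.N_Ml (hw : Wt w) {μ : (Fin m → ℤ) → ℂ} (hμ : ∀ k, ‖μ k‖ ≤ 1) (f : C(Tor m, ℝ)) :
    N w (Ml μ f) ≤ N w f := by
  by_cases hf : N w f = ⊤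
  · rw [hf]; exact le_top
  refine (hw.N_rp _).trans ?_
  refine ENNReal.tsum_le_tsum fun k => ?_
  rw [cf_fs (hw.summable_mul hμ hf), enorm_mul]
  calc ‖μ k‖ₑ * ‖fc f k‖ₑ * w k ≤ 1 * ‖fc f k‖ₑ * w k := by
        gcongr
        rw [← ofReal_norm]
        exact ENNReal.ofReal_le_one.2 (hμ k)
    _ = _ := by rw [one_mul]

lemma Wt.Ml_sub (hw : Wt w) {μ : (Fin m → ℤ) → ℂ} (hμ : ∀ k, ‖μ k‖ ≤ 1) {f g : C(Tor m, ℝ)}
    (hf : N w f ≠ ⊤) (hg : N w g ≠ ⊤) : Ml μ (f - g) = Ml μ f - Ml μ g := by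
  unfold Ml
  have h1 : fs (fun k => μ k * fc (f - g) k) =
      fs (fun k => μ k * fc f k) - fs (fun k => μ k * fc g k) := by
    unfold fs
    rw [← (summable_series (hw.summable_mul hμ hf)).tsum_sub
      (summable_series (hw.summable_mul hμ hg))]
    congr 1
    ext1 k
    show (μ k * fc (f - g) k) • _ = _
    rw [fc_sub, mul_sub]
    ext t
    simp only [ContinuousMap.smul_apply, ContinuousMap.sub_apply, smul_eq_mul]
    ring
  rw [h1]
  ext t
  simp

/-- mean value -/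
def mn (f : C(Tor m, ℝ)) : ℝ := (fc f 0).re

lemma fc_zero_eq (f : C(Tor m, ℝ)) : fc f 0 = (mn f : ℂ) := by
  have h1 : fc f 0 = ((∫ t, f t : ℝ) : ℂ) := by
    unfold fc
    rw [cf_def, ← integral_complex_ofReal]
    congr 1
    ext t
    rw [neg_zero, mFourier_zero]
    simp
  unfold mn
  rw [h1, Complex.ofReal_re]

lemma Wt.mn_le (hw : Wt w) (f : C(Tor m, ℝ)) : ‖mn f‖ₑ ≤ N w f := by
  have h1 : ‖mn f‖ₑ = ‖fc f 0‖ₑ * w 0 := by
    rw [fc_zero_eq, hw.zero, mul_one, ← ofReal_norm, ← ofReal_norm, Complex.norm_real]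
  rw [h1]
  exact ENNReal.le_tsum 0

end

end Vale.Agent.P214.REF
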