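import Vale.Agent.P214.REF.Weak

/-!
# P214, block LSOLVE: linear systems with small coefficients, weak estimate by duality
-/

open MvPolynomial MeasureTheory Filter Topology
open scoped ENNReal ContDiff

namespace Vale.Agent.P214.REF

noncomputable section

variable {m n : ℕ}

/-! ### abstract fixed point, all weights at the same time -/

theorem abs_fixed (Φ : (Fin n → C(Tor m, ℝ)) → Fin n → C(Tor m, ℝ))
    (G : ((Fin m → ℤ) → ℝ≥0∞) → ℝ≥0∞ → Prop)
    (h1 : ∀ w e, G w e → Wt w) (h2 : ∀ w e, G w e → e ≠ ⊤)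
    (h3 : ∀ w e, G w e → ∀ a, N w (Φ 0 a) ≤ e)
    (h4 : ∀ w e, G w e → ∀ f f' η, (∀ a, N w (f a) ≠ ⊤) → (∀ a, N w (f' a) ≠ ⊤) →
      (∀ b, N w (f b - f' b) ≤ η) → ∀ a, N w (Φ f a - Φ f' a) ≤ 2⁻¹ * η)
    {w₀ : (Fin m → ℤ) → ℝ≥0∞} {e₀ : ℝ≥0∞} (h₀ : G w₀ e₀) :
    ∃ L : Fin n → C(Tor m, ℝ), (∀ a, Φ L a = L a) ∧ ∀ w e, G w e → ∀ a, N w (L a) ≤ 2 * e := by
  set it : ℕ → Fin n → C(Tor m, ℝ) := fun j => Φ^[j] 0 with hit
  have it_zero : it 0 = 0 := rfl
  have it_succ : ∀ j, it (j + 1) = Φ (it j) := fun j => by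
    rw [hit]
    simp only [Function.iterate_succ_apply']
  have it_le : ∀ w e, G w e → ∀ j a, N w (it j a) ≤ 2 * e := by
    intro w e hG j
    induction j with
    | zero =>
      intro a
      rw [it_zero, Pi.zero_apply, N_zero]
      exact bot_le
    | succ j ih =>
      intro a
      have k1 : N w (Φ (it j) a - Φ 0 a) ≤ 2⁻¹ * (2 * e) := by
        refine h4 w e hG (it j) 0 (2 * e) (fun a => ?_) (fun a => ?_) (fun b => ?_) a
        · exact ne_top_of_le_ne_top (ENNReal.mul_ne_top (by simp) (h2 w e hG)) (ih a)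
        · rw [Pi.zero_apply, N_zero]; simp
        · rw [Pi.zero_apply, sub_zero]; exact ih b
      rw [← mul_assoc, ENNReal.inv_mul_cancel two_ne_zero (by simp), one_mul] at k1
      have k3 : it (j + 1) a = (Φ (it j) a - Φ 0 a) + Φ 0 a := by rw [it_succ]; abel
      rw [k3]
      calc N w ((Φ (it j) a - Φ 0 a) + Φ 0 a) ≤ e + e :=
            (N_add _ _).trans (add_le_add k1 (h3 w e hG a))
        _ = 2 * e := (two_mul _).symm
  have it_fin : ∀ w e, G w e → ∀ j a, N w (it j a) ≠ ⊤ := fun w e hG j a =>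
    ne_top_of_le_ne_top (ENNReal.mul_ne_top (by simp) (h2 w e hG)) (it_le w e hG j a)
  have it_sub : ∀ w e, G w e → ∀ j a, N w (it (j + 1) a - it j a) ≤ 2⁻¹ ^ j * (2 * e) := by
    intro w e hG j
    induction j with
    | zero =>
      intro a
      rw [it_zero, Pi.zero_apply, sub_zero, pow_zero, one_mul]
      exact it_le w e hG 1 a
    | succ j ih =>
      intro a
      have k1 := h4 w e hG (it (j + 1)) (it j) _ (it_fin w e hG _) (it_fin w e hG _) ih a
      rw [← it_succ, ← it_succ] at k1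
      rw [pow_succ', mul_assoc]
      exact k1
  have it_sub' : ∀ w e, G w e → ∀ j p a,
      N w (it (j + p) a - it j a) + 2 * (2⁻¹ ^ (j + p) * (2 * e)) ≤ 2 * (2⁻¹ ^ j * (2 * e)) := by
    intro w e hG j p a
    induction p with
    | zero => rw [add_zero, sub_self, N_zero, zero_add]
    | succ p ih =>
      have k1 := it_sub w e hG (j + p) a
      have k2 : it (j + (p + 1)) a - it j a =
          (it (j + p + 1) a - it (j + p) a) + (it (j + p) a - it j a) := by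
        rw [← add_assoc]
        abel
      have k3 : 2 * (2⁻¹ ^ (j + (p + 1)) * (2 * e)) = 2⁻¹ ^ (j + p) * (2 * e) := by
        rw [← add_assoc, pow_succ', mul_assoc, ← mul_assoc,
          ENNReal.mul_inv_cancel two_ne_zero (by simp), one_mul]
      rw [k2, k3]
      calc N w ((it (j + p + 1) a - it (j + p) a) + (it (j + p) a - it j a)) +
            2⁻¹ ^ (j + p) * (2 * e) ≤ 2⁻¹ ^ (j + p) * (2 * e) + N w (it (j + p) a - it j a) +
              2⁻¹ ^ (j + p) * (2 * e) := by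
            gcongr
            exact (N_add _ _).trans (by gcongr)
        _ = N w (it (j + p) a - it j a) + 2 * (2⁻¹ ^ (j + p) * (2 * e)) := by ring
        _ ≤ _ := ih
  have he₀ := h2 _ _ h₀
  have h2e : 2 * e₀ ≠ ⊤ := ENNReal.mul_ne_top (by simp) he₀
  have hcau : ∀ a, CauchySeq fun j => it j a := by
    intro a
    refine cauchySeq_of_le_geometric (1 / 2) (2 * e₀).toReal (by norm_num) fun j => ?_
    have k2 := it_sub _ _ h₀ j a
    have k3 := (h1 _ _ h₀).norm_le (it (j + 1) a - it j a)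
    rw [dist_comm, dist_eq_norm]
    have k4 : ENNReal.ofReal ‖it (j + 1) a - it j a‖ ≤
        ENNReal.ofReal ((2 * e₀).toReal * (1 / 2) ^ j) := by
      refine k3.trans (k2.trans (le_of_eq ?_))
      rw [ENNReal.ofReal_mul ENNReal.toReal_nonneg, ENNReal.ofReal_toReal h2e,
        ENNReal.ofReal_pow (by norm_num), one_div, ENNReal.ofReal_inv_of_pos two_pos, mul_comm]
      simp
    exact (ENNReal.ofReal_le_ofReal_iff (by positivity)).1 k4
  choose L hL using fun a => cauchySeq_tendsto_of_complete (hcau a)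
  have hbd : ∀ w e, G w e → ∀ a, N w (L a) ≤ 2 * e := fun w e hG a =>
    (h1 w e hG).N_le_of_tendsto (hL a) (Eventually.of_forall fun j => it_le w e hG j a)
  refine ⟨L, fun a => ?_, hbd⟩
  have hlim : ∀ j a, N w₀ (L a - it j a) ≤ 2 * (2⁻¹ ^ j * (2 * e₀)) := by
    intro j a
    have k2 : Tendsto (fun p => it (j + p) a - it j a) atTop (𝓝 (L a - it j a)) := by
      refine Tendsto.sub_const ?_ _
      have := (tendsto_add_atTop_iff_nat j).2 (hL a)
      simpa only [add_comm] using this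
    refine (h1 _ _ h₀).N_le_of_tendsto k2 (Eventually.of_forall fun p => ?_)
    exact le_self_add.trans (it_sub' _ _ h₀ j p a)
  have hfin : ∀ j, N w₀ (Φ L a - L a) ≤ 2⁻¹ ^ j * (2 * (2 * e₀)) := by
    intro j
    have k2 := h4 _ _ h₀ L (it j) _ (fun a => ne_top_of_le_ne_top h2e (hbd _ _ h₀ a))
      (it_fin _ _ h₀ j) (hlim j) a
    have k3 := hlim (j + 1) a
    rw [← it_succ] at k2
    have k4 : Φ L a - L a = (Φ L a - it (j + 1) a) - (L a - it (j + 1) a) := by abel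
    rw [k4]
    calc N w₀ ((Φ L a - it (j + 1) a) - (L a - it (j + 1) a))
        ≤ 2⁻¹ * (2 * (2⁻¹ ^ j * (2 * e₀))) + 2 * (2⁻¹ ^ (j + 1) * (2 * e₀)) :=
          (N_sub _ _).trans (add_le_add k2 k3)
      _ = (2⁻¹ * 2) * (2⁻¹ ^ j * (2 * e₀)) + (2 * 2⁻¹) * (2⁻¹ ^ j * (2 * e₀)) := by
          rw [pow_succ]
          ring
      _ = 2⁻¹ ^ j * (2 * (2 * e₀)) := by
          rw [ENNReal.inv_mul_cancel two_ne_zero (by simp),
            ENNReal.mul_inv_cancel two_ne_zero (by simp)]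
          ring
  have hzero : N w₀ (Φ L a - L a) = 0 := by
    refine le_antisymm ?_ bot_le
    have k5 : Tendsto (fun j : ℕ => (2⁻¹ : ℝ≥0∞) ^ j * (2 * (2 * e₀))) atTop
        (𝓝 (0 * (2 * (2 * e₀)))) := by
      refine ENNReal.Tendsto.mul_const ?_ (Or.inr (ENNReal.mul_ne_top (by simp) h2e))
      exact ENNReal.tendsto_pow_atTop_nhds_zero_of_lt_one (by
        rw [ENNReal.inv_lt_one]; norm_num)
    rw [zero_mul] at k5
    exact ge_of_tendsto' k5 hfin
  exact sub_eq_zero.1 ((h1 _ _ h₀).ext hzero)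

/-! ### the linear problem on the torus -/

/-- data of a linear problem -/
structure LD (m n : ℕ) where
  /-- second order coefficients -/
  A : Fin m → Fin m → C(Tor m, ℝ)
  /-- first order coefficients -/
  B : Fin n → Fin m × Fin n → C(Tor m, ℝ)
  /-- right-hand side -/
  D : Fin n → C(Tor m, ℝ)
  /-- correction of the mean value -/
  wm : C(Tor m, ℝ)

/-- right-hand side -/
def LD.G (d : LD m n) (f : Fin n → C(Tor m, ℝ)) (a : Fin n) : C(Tor m, ℝ) :=
  -d.D a - ∑ i, ∑ j, d.A i j * Ml (muR i j) (f a) - ∑ s, d.B a s * Ml (muS s.1) (f s.2)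

/-- the map whose fixed point is wanted -/
def LD.Φ (d : LD m n) (f : Fin n → C(Tor m, ℝ)) (a : Fin n) : C(Tor m, ℝ) :=
  d.G f a - mn (d.G f a) • d.wm

/-- size of the coefficients -/
def LD.siz (d : LD m n) (w : (Fin m → ℤ) → ℝ≥0∞) (a : Fin n) : ℝ≥0∞ :=
  (1 + N w d.wm) * (∑ i, ∑ j, N w (d.A i j) + ∑ s, N w (d.B a s))

lemma LD.G_zero (d : LD m n) (a : Fin n) : d.G 0 a = -d.D a := by
  unfold LD.G
  simp [Ml_zero]

lemma LD.contr (d : LD m n) {w : (Fin m → ℤ) → ℝ≥0∞} (hw : Wt w) {f f' : Fin n → C(Tor m, ℝ)}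
    {η : ℝ≥0∞} (hf : ∀ a, N w (f a) ≠ ⊤) (hf' : ∀ a, N w (f' a) ≠ ⊤)
    (hη : ∀ b, N w (f b - f' b) ≤ η) (a : Fin n) :
    N w (d.Φ f a - d.Φ f' a) ≤ d.siz w a * η := by
  have e1 : d.G f a - d.G f' a = -(∑ i, ∑ j, d.A i j * Ml (muR i j) (f a - f' a) +
      ∑ s, d.B a s * Ml (muS s.1) (f s.2 - f' s.2)) := by
    have e2 : ∀ i j, d.A i j * Ml (muR i j) (f a - f' a) =
        d.A i j * Ml (muR i j) (f a) - d.A i j * Ml (muR i j) (f' a) := by
      intro i j
      rw [hw.Ml_sub (norm_muR_le i j) (hf a) (hf' a), mul_sub]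
    have e3 : ∀ s : Fin m × Fin n, d.B a s * Ml (muS s.1) (f s.2 - f' s.2) =
        d.B a s * Ml (muS s.1) (f s.2) - d.B a s * Ml (muS s.1) (f' s.2) := by
      intro s
      rw [hw.Ml_sub (norm_muS_le s.1) (hf s.2) (hf' s.2), mul_sub]
    simp only [e2, e3, Finset.sum_sub_distrib]
    unfold LD.G
    ring
  have e4 : N w (d.G f a - d.G f' a) ≤ (∑ i, ∑ j, N w (d.A i j) + ∑ s, N w (d.B a s)) * η := by
    rw [e1, N_neg, add_mul, Finset.sum_mul, Finset.sum_mul]
    refine (N_add _ _).trans (add_le_add ((N_sum _ _).trans (Finset.sum_le_sum fun i _ => ?_))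
      ((N_sum _ _).trans (Finset.sum_le_sum fun s _ => ?_)))
    · rw [Finset.sum_mul]
      refine (N_sum _ _).trans (Finset.sum_le_sum fun j _ => (hw.N_mul _ _).trans ?_)
      gcongr
      exact (hw.N_Ml (norm_muR_le i j) _).trans (hη a)
    · refine (hw.N_mul _ _).trans ?_
      gcongr
      exact (hw.N_Ml (norm_muS_le s.1) _).trans (hη s.2)
  have e5 : d.Φ f a - d.Φ f' a = (d.G f a - d.G f' a) - mn (d.G f a - d.G f' a) • d.wm := by
    unfold LD.Φ
    rw [mn_sub, sub_smul]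
    abel
  rw [e5]
  calc _ ≤ N w (d.G f a - d.G f' a) + N w (d.G f a - d.G f' a) * N w d.wm := by
        refine (N_sub _ _).trans ?_
        rw [N_smul]
        gcongr
        exact hw.mn_le _
    _ = (1 + N w d.wm) * N w (d.G f a - d.G f' a) := by ring
    _ ≤ (1 + N w d.wm) * ((∑ i, ∑ j, N w (d.A i j) + ∑ s, N w (d.B a s)) * η) := by gcongr
    _ = _ := by
        unfold LD.siz
        ring

lemma LD.Phi_zero (d : LD m n) {w : (Fin m → ℤ) → ℝ≥0∞} (hw : Wt w) (a : Fin n) :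
    N w (d.Φ 0 a) ≤ (1 + N w d.wm) * N w (d.D a) := by
  unfold LD.Φ
  rw [LD.G_zero]
  calc _ ≤ N w (-d.D a) + N w (-d.D a) * N w d.wm := by
        refine (N_sub _ _).trans ?_
        rw [N_smul]
        gcongr
        exact hw.mn_le _
    _ = _ := by
        rw [N_neg]
        ring

/-- **solution of the linear problem on the torus** -/
theorem LD.exists_fixed (d : LD m n) (J : ℕ) {x ε : ℝ} (hx : 0 ≤ x) (hε : 0 ≤ ε)
    (hsm : (1 + x) * (m ^ 2 * ε + m * n * ε) < 1 / 2)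
    (bω : N (wt J 0 0) d.wm ≤ ENNReal.ofReal x)
    (bA : ∀ i j, N (wt J 0 0) (d.A i j) ≤ ENNReal.ofReal ε)
    (bB : ∀ a s, N (wt J 0 0) (d.B a s) ≤ ENNReal.ofReal ε)
    (fω : ∀ p, N (wt J p 1) d.wm ≠ ⊤) (fA : ∀ p i j, N (wt J p 1) (d.A i j) ≠ ⊤)
    (fB : ∀ p a s, N (wt J p 1) (d.B a s) ≠ ⊤) (fD : ∀ p a, N (wt J p 1) (d.D a) ≠ ⊤) :
    ∃ L : Fin n → C(Tor m, ℝ), (∀ a, d.Φ L a = L a) ∧
      (∀ δ : ℝ, 0 ≤ δ → (∀ a, N (wt J 0 0) (d.D a) ≤ ENNReal.ofReal δ) →
        ∀ a, N (wt J 0 0) (L a) ≤ ENNReal.ofReal (2 * (1 + x) * δ)) ∧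
      ∀ p a, N (wt J p 1) (L a) ≠ ⊤ := by
  -- bound of the size
  have hsz : ∀ (w : (Fin m → ℤ) → ℝ≥0∞) (y η : ℝ), 0 ≤ y → 0 ≤ η → N w d.wm ≤ ENNReal.ofReal y →
      (∀ i j, N w (d.A i j) ≤ ENNReal.ofReal η) → (∀ a s, N w (d.B a s) ≤ ENNReal.ofReal η) →
      (1 + y) * (m ^ 2 * η + m * n * η) ≤ 1 / 2 → ∀ a, d.siz w a ≤ 2⁻¹ := by
    intro w y η hy hη k1 k2 k3 k4 a
    unfold LD.siz
    calc (1 + N w d.wm) * (∑ i, ∑ j, N w (d.A i j) + ∑ s, N w (d.B a s))
        ≤ (1 + ENNReal.ofReal y) * (∑ i : Fin m, ∑ j : Fin m, ENNReal.ofReal η +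
          ∑ s : Fin m × Fin n, ENNReal.ofReal η) := by
          gcongr
          · exact k2 _ _
          · exact k3 _ _
      _ = ENNReal.ofReal ((1 + y) * (m ^ 2 * η + m * n * η)) := by
          simp only [Finset.sum_const, Finset.card_univ, Fintype.card_fin, Fintype.card_prod,
            nsmul_eq_mul]
          rw [ENNReal.ofReal_mul (by positivity), ENNReal.ofReal_add zero_le_one hy,
            ENNReal.ofReal_one, ENNReal.ofReal_add (by positivity) (by positivity),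
            ENNReal.ofReal_mul (by positivity), ENNReal.ofReal_mul (p := (m : ℝ) * n) (by positivity),
            ENNReal.ofReal_pow (by positivity), ENNReal.ofReal_mul (p := (m : ℝ)) (by positivity),
            ENNReal.ofReal_natCast, ENNReal.ofReal_natCast]
          push_cast
          ring
      _ ≤ ENNReal.ofReal (1 / 2) := ENNReal.ofReal_le_ofReal k4
      _ = 2⁻¹ := by
          rw [one_div, ENNReal.ofReal_inv_of_pos two_pos, ENNReal.ofReal_ofNat]
  have hw0 : Wt (wt (m := m) J 0 0) := Wt_wt J 0 le_rfl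
  have hfin0 : ∀ {f : C(Tor m, ℝ)}, N (wt J 0 1) f ≠ ⊤ → N (wt J 0 0) f ≠ ⊤ := by
    intro f hf
    refine ne_top_of_le_ne_top hf (N_mono (fun k => ?_) f)
    unfold wt wr
    simp
  set S₀ : ℝ≥0∞ := ∑ a, (1 + N (wt J 0 0) d.wm) * N (wt J 0 0) (d.D a) with hS₀
  have hS₀t : S₀ ≠ ⊤ := ENNReal.sum_ne_top.2 fun a _ =>
    ENNReal.mul_ne_top (ENNReal.add_ne_top.2 ⟨by simp, hfin0 (fω 0)⟩) (hfin0 (fD 0 a))
  have base : ∀ a, d.siz (wt J 0 0) a ≤ 2⁻¹ := hsz _ x ε hx hε bω bA bB hsm.le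
  obtain ⟨L, hL1, hL2⟩ := abs_fixed d.Φ
    (fun w e => Wt w ∧ e ≠ ⊤ ∧ (∀ a, (1 + N w d.wm) * N w (d.D a) ≤ e) ∧ ∀ a, d.siz w a ≤ 2⁻¹)
    (fun w e h => h.1) (fun w e h => h.2.1) (fun w e h a => (d.Phi_zero h.1 a).trans (h.2.2.1 a))
    (fun w e h f f' η hf hf' hη a => (d.contr h.1 hf hf' hη a).trans (by
      have := h.2.2.2 a
      gcongr))
    (w₀ := wt J 0 0) (e₀ := S₀) ⟨hw0, hS₀t, fun a =>
      Finset.single_le_sum (f := fun a => (1 + N (wt J 0 0) d.wm) * N (wt J 0 0) (d.D a))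
        (fun _ _ => bot_le) (Finset.mem_univ a), base⟩
  refine ⟨L, hL1, ?_, ?_⟩
  · intro δ hδ hD a
    refine (hL2 (wt J 0 0) (ENNReal.ofReal ((1 + x) * δ)) ⟨hw0, ENNReal.ofReal_ne_top, fun a => ?_,
      base⟩ a).trans (le_of_eq ?_)
    · rw [ENNReal.ofReal_mul (by positivity), ENNReal.ofReal_add zero_le_one hx, ENNReal.ofReal_one]
      gcongr
      exact hD a
    · rw [← ENNReal.ofReal_ofNat, ← ENNReal.ofReal_mul (by norm_num)]
      congr 1
      ring
  · intro p a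
    -- one bound for everything
    set M : ℝ≥0∞ := N (wt J p 1) d.wm + ∑ i, ∑ j, N (wt J p 1) (d.A i j) +
      ∑ a, ∑ s, N (wt J p 1) (d.B a s) with hM
    have hMt : M ≠ ⊤ := ENNReal.add_ne_top.2 ⟨ENNReal.add_ne_top.2 ⟨fω p,
      ENNReal.sum_ne_top.2 fun i _ => ENNReal.sum_ne_top.2 fun j _ => fA p i j⟩,
      ENNReal.sum_ne_top.2 fun a _ => ENNReal.sum_ne_top.2 fun s _ => fB p a s⟩
    set μ : ℝ := M.toReal with hμ
    have hμ0 : 0 ≤ μ := ENNReal.toReal_nonneg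
    have hMμ : M = ENNReal.ofReal μ := (ENNReal.ofReal_toReal hMt).symm
    have m1 : N (wt J p 1) d.wm ≤ M := by
      rw [hM, add_assoc]
      exact le_self_add
    have m2 : ∀ i j, N (wt J p 1) (d.A i j) ≤ M := fun i j =>
      ((Finset.single_le_sum (f := fun j => N (wt J p 1) (d.A i j)) (fun _ _ => bot_le)
        (Finset.mem_univ j)).trans (Finset.single_le_sum (f := fun i => ∑ j,
          N (wt J p 1) (d.A i j)) (fun _ _ => bot_le) (Finset.mem_univ i))).trans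
        (le_add_self.trans le_self_add)
    have m3 : ∀ a s, N (wt J p 1) (d.B a s) ≤ M := fun a s =>
      ((Finset.single_le_sum (f := fun s => N (wt J p 1) (d.B a s)) (fun _ _ => bot_le)
        (Finset.mem_univ s)).trans (Finset.single_le_sum (f := fun a => ∑ s,
          N (wt J p 1) (d.B a s)) (fun _ _ => bot_le) (Finset.mem_univ a))).trans le_add_self
    have hcont : Tendsto (fun t : ℝ => (1 + (x + t * μ)) * (m ^ 2 * (ε + t * μ) +
        m * n * (ε + t * μ))) (𝓝[>] 0)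
        (𝓝 ((1 + (x + 0 * μ)) * (m ^ 2 * (ε + 0 * μ) + m * n * (ε + 0 * μ)))) := by
      refine Tendsto.mono_left ?_ nhdsWithin_le_nhds
      exact (by fun_prop : Continuous fun t : ℝ => (1 + (x + t * μ)) * (m ^ 2 * (ε + t * μ) +
        m * n * (ε + t * μ))).tendsto 0
    simp only [zero_mul, add_zero] at hcont
    obtain ⟨t, ht1, ht0, ht2⟩ := ((hcont.eventually (gt_mem_nhds hsm)).and
      (Ioo_mem_nhdsGT (zero_lt_one' ℝ))).exists
    have hwt : Wt (wt (m := m) J p t) := Wt_wt J p ht0.le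
    have key : ∀ {f : C(Tor m, ℝ)} {y : ℝ}, 0 ≤ y → N (wt J 0 0) f ≤ ENNReal.ofReal y →
        N (wt J p 1) f ≤ M → N (wt J p t) f ≤ ENNReal.ofReal (y + t * μ) := by
      intro f y hy k1 k2
      refine (N_wt_le J p ht0.le ht2.le f).trans ?_
      rw [ENNReal.ofReal_add hy (by positivity), ENNReal.ofReal_mul ht0.le, ← hMμ]
      gcongr
    have hsz2 : ∀ a, d.siz (wt J p t) a ≤ 2⁻¹ := hsz _ (x + t * μ) (ε + t * μ) (by positivity)
      (by positivity) (key hx bω m1) (fun i j => key hε (bA i j) (m2 i j))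
      (fun a s => key hε (bB a s) (m3 a s)) ht1.le
    have hNt : ∀ {f : C(Tor m, ℝ)}, N (wt J p 1) f ≠ ⊤ → N (wt J p t) f ≠ ⊤ := by
      intro f hf
      have hf0 : N (wt J 0 0) f ≠ ⊤ := by
        refine ne_top_of_le_ne_top hf (N_mono (fun k => ?_) f)
        unfold wt
        refine ENNReal.ofReal_le_ofReal ?_
        unfold wr
        have := sz_nonneg k
        simp only [pow_zero, mul_one, one_mul]
        have h1 : 1 ≤ (1 + sz k) ^ p := one_le_pow₀ (by linarith)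
        have h2 : 0 ≤ (1 + sz k) ^ J := by positivity
        nlinarith
      refine ne_top_of_le_ne_top ?_ (N_wt_le J p ht0.le ht2.le f)
      exact ENNReal.add_ne_top.2 ⟨hf0, ENNReal.mul_ne_top ENNReal.ofReal_ne_top hf⟩
    set S : ℝ≥0∞ := ∑ a, (1 + N (wt J p t) d.wm) * N (wt J p t) (d.D a) with hS
    have hSt : S ≠ ⊤ := ENNReal.sum_ne_top.2 fun a _ =>
      ENNReal.mul_ne_top (ENNReal.add_ne_top.2 ⟨by simp, hNt (fω p)⟩) (hNt (fD p a))
    have h5 := hL2 (wt J p t) S ⟨hwt, hSt, fun a =>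
      Finset.single_le_sum (f := fun a => (1 + N (wt J p t) d.wm) * N (wt J p t) (d.D a))
        (fun _ _ => bot_le) (Finset.mem_univ a), hsz2⟩ a
    exact N_wt_one_ne_top J p ht0 ht2.le
      (ne_top_of_le_ne_top (ENNReal.mul_ne_top (by simp) hSt) h5)

end

end Vale.Agent.P214.REF
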