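import Vale.Agent.P214.REF.LSolve

/-!
# P214, block LSOLVE: linear systems with small coefficients, weak estimate by duality
-/

open MvPolynomial MeasureTheory Filter Topology
open scoped ENNReal ContDiff

namespace Vale.Agent.P214.REF

noncomputable section

variable {m n : ℕ}

/-! ### the duality argument -/

/-- one step of the duality argument -/
lemma LD.weak_step (d : LD m n) {w : (Fin m → ℤ) → ℝ≥0∞} (hw : Wt w) {L : Fin n → C(Tor m, ℝ)}
    (hL : ∀ a, d.Φ L a = L a) {ρ x ε W β : ℝ} (hx : 0 ≤ x) (hε : 0 ≤ ε)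
    (bA : ∀ i j, N w (d.A i j) ≤ ENNReal.ofReal ε) (bB : ∀ a s, N w (d.B a s) ≤ ENNReal.ofReal ε)
    (bL : ∀ a, N w (L a) ≤ ENNReal.ofReal ρ) (bω : N w d.wm ≤ ENNReal.ofReal x)
    (hW : ∀ (a : Fin n) (g : C(Tor m, ℝ)) (M : ℝ), 0 ≤ M → N w g ≤ ENNReal.ofReal M →
      |pr (d.D a) g| ≤ W * M)
    (hb : ∀ (a : Fin n) (g : C(Tor m, ℝ)) (M : ℝ), 0 ≤ M → N w g ≤ ENNReal.ofReal M →
      |pr (L a) g| ≤ β * M) (a : Fin n) (g : C(Tor m, ℝ)) (M : ℝ) (hM : 0 ≤ M)
    (hg : N w g ≤ ENNReal.ofReal M) :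
    |pr (L a) g| ≤ ((1 + x) * W + ((1 + x) * (m ^ 2 * ε + m * n * ε)) * β) * M := by
  set g' := gcor d.wm g with hg'
  set M' : ℝ := (1 + x) * M with hM'
  have hM'0 : 0 ≤ M' := by positivity
  have hNg' : N w g' ≤ ENNReal.ofReal M' := N_gcor hw hx hM bω hg
  have fin : ∀ {f : C(Tor m, ℝ)} {r : ℝ}, N w f ≤ ENNReal.ofReal r → N w f ≠ ⊤ := fun h =>
    ne_top_of_le_ne_top ENNReal.ofReal_ne_top h
  -- pass to `G`
  have e1 : pr (L a) g = pr (d.G L a) g' := by
    have e2 : L a = d.G L a - mn (d.G L a) • d.wm := by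
      conv_lhs => rw [← hL a]
      rfl
    rw [hg']
    unfold gcor
    rw [pr_sub_right, pr_const]
    conv_lhs => rw [e2, pr_sub_left]
    congr 1
    unfold pr
    rw [smul_mul_assoc, mn_smul]
    ring
  have e0 : d.G L a = -(d.D a + ∑ i, ∑ j, d.A i j * Ml (muR i j) (L a) +
      ∑ s, d.B a s * Ml (muS s.1) (L s.2)) := by
    unfold LD.G
    abel
  have e4 : pr (d.G L a) g' = -(pr (d.D a) g' + ∑ i, ∑ j, pr (L a) (Ml (muR i j) (d.A i j * g')) +
      ∑ s, -pr (L s.2) (Ml (muS s.1) (d.B a s * g'))) := by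
    have e5 : ∀ f g : C(Tor m, ℝ), pr (-f) g = -pr f g := fun f g => by
      rw [pr_comm, pr_neg_right, pr_comm]
    rw [e0, e5, pr_add_left, pr_add_left, pr_sum_left, pr_sum_left]
    congr 2
    · congr 1
      refine Finset.sum_congr rfl fun i _ => ?_
      rw [pr_sum_left]
      refine Finset.sum_congr rfl fun j _ => ?_
      rw [pr_mul]
      exact hw.pr_R (fin (bL a)) (ne_top_of_le_ne_top (ENNReal.mul_ne_top (fin (bA i j)) (fin hNg'))
        (hw.N_mul _ _)) i j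
    · refine Finset.sum_congr rfl fun s _ => ?_
      rw [pr_mul]
      exact hw.pr_S (fin (bL s.2)) (ne_top_of_le_ne_top
        (ENNReal.mul_ne_top (fin (bB a s)) (fin hNg')) (hw.N_mul _ _)) s.1
  have n1 : ∀ i j, |pr (L a) (Ml (muR i j) (d.A i j * g'))| ≤ β * (ε * M') := by
    intro i j
    refine hb a _ _ (by positivity) ?_
    refine (hw.N_Ml (norm_muR_le i j) _).trans ((hw.N_mul _ _).trans ?_)
    rw [ENNReal.ofReal_mul (by positivity)]
    gcongr
    exact bA i j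
  have n2 : ∀ s : Fin m × Fin n, |-pr (L s.2) (Ml (muS s.1) (d.B a s * g'))| ≤ β * (ε * M') := by
    intro s
    rw [abs_neg]
    refine hb s.2 _ _ (by positivity) ?_
    refine (hw.N_Ml (norm_muS_le s.1) _).trans ((hw.N_mul _ _).trans ?_)
    rw [ENNReal.ofReal_mul (by positivity)]
    gcongr
    exact bB a s
  have n3 : |∑ i, ∑ j, pr (L a) (Ml (muR i j) (d.A i j * g'))| ≤ m * (m * (β * (ε * M'))) := by
    refine (Finset.abs_sum_le_sum_abs _ _).trans ?_
    refine (Finset.sum_le_card_nsmul _ _ (m * (β * (ε * M'))) fun i _ => ?_).trans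
      (le_of_eq (by simp))
    refine (Finset.abs_sum_le_sum_abs _ _).trans ?_
    exact (Finset.sum_le_card_nsmul _ _ (β * (ε * M')) fun j _ => n1 i j).trans
      (le_of_eq (by simp))
  have n4 : |∑ s, -pr (L s.2) (Ml (muS s.1) (d.B a s * g'))| ≤ (m * n) * (β * (ε * M')) := by
    refine (Finset.abs_sum_le_sum_abs _ _).trans ?_
    exact (Finset.sum_le_card_nsmul _ _ (β * (ε * M')) fun j _ => n2 j).trans
      (le_of_eq (by simp))
  have n5 := hW a g' M' hM'0 hNg'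
  rw [e1, e4, abs_neg]
  calc _ ≤ |pr (d.D a) g'| + |∑ i, ∑ j, pr (L a) (Ml (muR i j) (d.A i j * g'))| +
        |∑ s, -pr (L s.2) (Ml (muS s.1) (d.B a s * g'))| :=
        (abs_add_le _ _).trans (add_le_add (abs_add_le _ _) le_rfl)
    _ ≤ W * M' + m * (m * (β * (ε * M'))) + (m * n) * (β * (ε * M')) :=
        add_le_add (add_le_add n5 n3) n4
    _ = _ := by
        rw [hM']
        ring

/-- **the duality argument** -/
lemma LD.weak_core (d : LD m n) {w : (Fin m → ℤ) → ℝ≥0∞} (hw : Wt w) {L : Fin n → C(Tor m, ℝ)}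
    (hL : ∀ a, d.Φ L a = L a) {x ε W : ℝ} (hx : 0 ≤ x) (hε : 0 ≤ ε) (hW0 : 0 ≤ W)
    (hsm : (1 + x) * (m ^ 2 * ε + m * n * ε) ≤ 1 / 2)
    (bA : ∀ i j, N w (d.A i j) ≤ ENNReal.ofReal ε) (bB : ∀ a s, N w (d.B a s) ≤ ENNReal.ofReal ε)
    (fL : ∀ a, N w (L a) ≠ ⊤) (bω : N w d.wm ≤ ENNReal.ofReal x)
    (hW : ∀ (a : Fin n) (g : C(Tor m, ℝ)) (M : ℝ), 0 ≤ M → N w g ≤ ENNReal.ofReal M →
      |pr (d.D a) g| ≤ W * M) (a : Fin n) (g : C(Tor m, ℝ)) (M : ℝ) (hM : 0 ≤ M)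
    (hg : N w g ≤ ENNReal.ofReal M) :
    |pr (L a) g| ≤ 2 * (1 + x) * W * M := by
  set ρ : ℝ := ∑ a, (N w (L a)).toReal with hρ
  have hρ0 : 0 ≤ ρ := Finset.sum_nonneg fun _ _ => ENNReal.toReal_nonneg
  have bL : ∀ a, N w (L a) ≤ ENNReal.ofReal ρ := by
    intro a
    rw [← ENNReal.ofReal_toReal (fL a)]
    exact ENNReal.ofReal_le_ofReal (Finset.single_le_sum (f := fun a => (N w (L a)).toReal)
      (fun _ _ => ENNReal.toReal_nonneg) (Finset.mem_univ a))
  set K : ℝ := (1 + x) * W with hK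
  have hK0 : 0 ≤ K := by positivity
  have key : ∀ j : ℕ, ∀ (a : Fin n) (g : C(Tor m, ℝ)) (M : ℝ), 0 ≤ M →
      N w g ≤ ENNReal.ofReal M → |pr (L a) g| ≤ (2 * K + (1 / 2) ^ j * ρ) * M := by
    intro j
    induction j with
    | zero =>
      intro a g M hM hg
      refine (abs_pr_le _ _).trans ?_
      have h1 := hw.norm_le_real hρ0 (bL a)
      have h2 := hw.norm_le_real hM hg
      rw [pow_zero, one_mul]
      calc ‖L a‖ * ‖g‖ ≤ ρ * M := by gcongr
        _ ≤ (2 * K + ρ) * M := by gcongr; linarith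
    | succ j ih =>
      intro a g M hM hg
      refine (d.weak_step hw hL hx hε (β := 2 * K + (1 / 2) ^ j * ρ) bA bB bL bω hW ih a g M hM
        hg).trans ?_
      have h3 : ((1 + x) * (m ^ 2 * ε + m * n * ε)) * (2 * K + (1 / 2) ^ j * ρ) ≤
          1 / 2 * (2 * K + (1 / 2) ^ j * ρ) := by gcongr
      have h4 : (1 + x) * W + ((1 + x) * (m ^ 2 * ε + m * n * ε)) * (2 * K + (1 / 2) ^ j * ρ) ≤
          2 * K + (1 / 2) ^ (j + 1) * ρ := by
        calc _ ≤ (1 + x) * W + 1 / 2 * (2 * K + (1 / 2) ^ j * ρ) := by gcongr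
          _ = _ := by
            rw [hK, pow_succ]
            ring
      gcongr
  have hlim : Tendsto (fun j : ℕ => (2 * K + (1 / 2 : ℝ) ^ j * ρ) * M) atTop
      (𝓝 ((2 * K + 0 * ρ) * M)) := by
    refine Tendsto.mul_const _ (Tendsto.const_add _ (Tendsto.mul_const _ ?_))
    exact tendsto_pow_atTop_nhds_zero_of_lt_one (by norm_num) (by norm_num)
  have h5 := ge_of_tendsto' hlim fun j => key j a g M hM hg
  refine h5.trans (le_of_eq ?_)
  rw [hK]
  ring

/-! ### reduction to smooth test functions -/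

/-- trigonometric polynomials -/
def trp (g : C(Tor m, ℝ)) (s : Finset (Fin m → ℤ)) : C(Tor m, ℝ) :=
  rp (∑ k ∈ s, fc g k • (UnitAddTorus.mFourier k : C(Tor m, ℂ)))

lemma cf_trp (g : C(Tor m, ℝ)) (s : Finset (Fin m → ℤ)) (k : Fin m → ℤ) :
    cf (∑ k ∈ s, fc g k • (UnitAddTorus.mFourier k : C(Tor m, ℂ))) k =
      if k ∈ s then fc g k else 0 := by
  classical
  have h1 := map_sum (cfL k) (fun l => fc g l • (UnitAddTorus.mFourier l : C(Tor m, ℂ))) s
  simp only [cfL_apply, cf_smul, cf_mFourier] at h1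
  rw [h1]
  simp

lemma N_trp_le {w : (Fin m → ℤ) → ℝ≥0∞} (hw : Wt w) (g : C(Tor m, ℝ)) (s : Finset (Fin m → ℤ)) :
    N w (trp g s) ≤ ∑ k ∈ s, ‖fc g k‖ₑ * w k := by
  classical
  refine (hw.N_rp _).trans (le_of_eq ?_)
  have h1 : ∀ k, ‖cf (∑ k ∈ s, fc g k • (UnitAddTorus.mFourier k : C(Tor m, ℂ))) k‖ₑ * w k =
      if k ∈ s then ‖fc g k‖ₑ * w k else 0 := by
    intro k
    rw [cf_trp]
    split_ifs
    · rfl
    · simp
  simp only [h1]
  rw [tsum_eq_sum (s := s) fun k hk => if_neg hk]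
  exact Finset.sum_congr rfl fun k hk => if_pos hk

lemma N_trp_le' {w : (Fin m → ℤ) → ℝ≥0∞} (hw : Wt w) (g : C(Tor m, ℝ)) (s : Finset (Fin m → ℤ)) :
    N w (trp g s) ≤ N w g := (N_trp_le hw g s).trans (ENNReal.sum_le_tsum s)

lemma N_trp_ne_top {w : (Fin m → ℤ) → ℝ≥0∞} (hw : Wt w) (g : C(Tor m, ℝ))
    (s : Finset (Fin m → ℤ)) : N w (trp g s) ≠ ⊤ :=
  ne_top_of_le_ne_top (ENNReal.sum_ne_top.2 fun k _ =>
    ENNReal.mul_ne_top enorm_ne_top (hw.ne_top k)) (N_trp_le hw g s)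

lemma tendsto_trp {w : (Fin m → ℤ) → ℝ≥0∞} (hw : Wt w) {g : C(Tor m, ℝ)} (hg : N w g ≠ ⊤) :
    Tendsto (trp g) atTop (𝓝 g) := by
  have h1 : HasSum (fun k => fc g k • (UnitAddTorus.mFourier k : C(Tor m, ℂ))) (toC g) :=
    hasSum_cf (hw.summable hg)
  have h2 : Tendsto (fun s => rp (∑ k ∈ s, fc g k • (UnitAddTorus.mFourier k : C(Tor m, ℂ)))) atTop
      (𝓝 (rp (toC g))) := by
    rw [tendsto_iff_norm_sub_tendsto_zero]
    have h3 := tendsto_iff_norm_sub_tendsto_zero.1 h1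
    refine squeeze_zero (fun _ => norm_nonneg _) (fun s => ?_) h3
    refine (ContinuousMap.norm_le _ (norm_nonneg _)).2 fun t => ?_
    have h4 := ((∑ k ∈ s, fc g k • (UnitAddTorus.mFourier k : C(Tor m, ℂ))) - toC g).norm_coe_le_norm t
    refine le_trans ?_ h4
    have h5 : (rp (∑ k ∈ s, fc g k • (UnitAddTorus.mFourier k : C(Tor m, ℂ))) - rp (toC g)) t =
        (((∑ k ∈ s, fc g k • (UnitAddTorus.mFourier k : C(Tor m, ℂ))) - toC g) t).re := by
      rw [ContinuousMap.sub_apply, rp_apply, rp_apply, ContinuousMap.sub_apply, Complex.sub_re]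
    rw [h5]
    exact Complex.abs_re_le_norm _
  rw [rp_toC] at h2
  exact h2

/-- **the weak norm of the data on the torus** -/
lemma weak_torus {d : Fin n → E m → ℝ} (hd : ∀ a, ContDiff ℝ ∞ (d a))
    (hd0 : ∀ a x, 1 / 4 ≤ ‖x‖ → d a x = 0) {t : ℕ} {W₀ : ℝ}
    (hW : ∀ (Φ : Fin n → E m → ℝ) (M : ℝ), 0 ≤ M → (∀ a, ContDiff ℝ ∞ (Φ a)) →
      (∀ a x, 3 / 8 ≤ ‖x‖ → Φ a x = 0) → (∀ a, N (wt t 0 0) (per (Φ a)) ≤ ENNReal.ofReal M) →
      |∑ a, ∫ x, d a x * Φ a x| ≤ W₀ * M) (a : Fin n) (g : C(Tor m, ℝ)) (M : ℝ) (hM : 0 ≤ M)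
    (hg : N (wt t 0 0) g ≤ ENNReal.ofReal M) :
    |pr (per (d a)) g| ≤ W₀ * (N (wt t 0 0) (per (b1 m))).toReal * M := by
  have hw : Wt (wt (m := m) t 0 0) := Wt_wt t 0 le_rfl
  have hb1 : Sup (b1 m : E m → ℝ) := fun x hx => b1_zero (by linarith)
  have hb1N : N (wt t 0 0) (per (b1 m)) ≠ ⊤ := N_per_ne_top (b1 m).contDiff hb1 t
  set K : ℝ := (N (wt t 0 0) (per (b1 m))).toReal with hK
  have hK0 : 0 ≤ K := ENNReal.toReal_nonneg
  -- smooth test functions
  have key : ∀ f : C(Tor m, ℝ), (∀ p, N (wt t p 1) f ≠ ⊤) → N (wt t 0 0) f ≤ ENNReal.ofReal M →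
      |pr (per (d a)) f| ≤ W₀ * K * M := by
    intro f hf1 hf2
    have hdec : Dec (fc f) := dec_fc hf1
    have hS : ContDiff ℝ ∞ (S (fc f)) := hdec.contDiff
    have hSf : ∀ x, S (fc f) x = f (qt x) := fun x => fc_qt hdec x
    set Φ : Fin n → E m → ℝ := fun b x => if b = a then b1 m x * S (fc f) x else 0 with hΦ
    have hΦa : Φ a = fun x => b1 m x * S (fc f) x := by
      funext x
      rw [hΦ]
      simp
    have hΦb : ∀ b, b ≠ a → Φ b = fun _ => 0 := fun b hb => by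
      funext x
      rw [hΦ]
      simp [hb]
    have h1 : per (Φ a) = per (b1 m) * f := by
      rw [hΦa]
      exact per_mul_torus (b1 m).continuous hb1 f hS.continuous hSf
    have h2 := hW Φ (K * M) (by positivity) (fun b => by
      by_cases hb : b = a
      · rw [hb, hΦa]
        exact (b1 m).contDiff.mul hS
      · rw [hΦb b hb]
        exact contDiff_const) (fun b x hx => by
      by_cases hb : b = a
      · rw [hb, hΦa]
        simp only
        rw [b1_zero hx, zero_mul]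
      · rw [hΦb b hb]) (fun b => by
      by_cases hb : b = a
      · rw [hb, h1]
        refine (hw.N_mul _ _).trans ?_
        rw [ENNReal.ofReal_mul hK0, hK, ENNReal.ofReal_toReal hb1N]
        gcongr
      · rw [hΦb b hb]
        have h3 : per (fun _ : E m => (0 : ℝ)) = 0 := by
          ext s
          rw [per_apply continuous_const (fun _ _ => rfl)]
          rfl
        rw [h3, N_zero]
        exact bot_le)
    have h3 : ∑ b, ∫ x, d b x * Φ b x = pr (per (d a)) f := by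
      rw [Finset.sum_eq_single a]
      · rw [pr_per (hd a).continuous (fun x hx => hd0 a x (by linarith)) f hS.continuous hSf]
        congr 1
        funext x
        rw [hΦa]
        simp only
        by_cases hx : 1 / 4 ≤ ‖x‖
        · rw [hd0 a x hx, zero_mul, zero_mul]
        · rw [b1_one (not_le.1 hx).le, one_mul]
      · intro b _ hb
        rw [hΦb b hb]
        simp
      · intro h
        exact absurd (Finset.mem_univ a) h
    rw [h3] at h2
    refine h2.trans (le_of_eq ?_)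
    ring
  have hlim : Tendsto (fun s => |pr (per (d a)) (trp g s)|) atTop (𝓝 |pr (per (d a)) g|) := by
    refine Tendsto.abs ?_
    rw [tendsto_iff_norm_sub_tendsto_zero]
    have h1 := tendsto_iff_norm_sub_tendsto_zero.1
      (tendsto_trp hw (ne_top_of_le_ne_top ENNReal.ofReal_ne_top hg))
    have h2 : Tendsto (fun s => ‖per (d a)‖ * ‖trp g s - g‖) atTop (𝓝 (‖per (d a)‖ * 0)) :=
      h1.const_mul _
    rw [mul_zero] at h2
    refine squeeze_zero (fun _ => norm_nonneg _) (fun s => ?_) h2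
    rw [← pr_sub_right, Real.norm_eq_abs]
    exact abs_pr_le _ _
  exact le_of_tendsto' hlim fun s => key (trp g s)
    (fun p => N_trp_ne_top (Wt_wt t p zero_le_one) g s) ((N_trp_le' hw g s).trans hg)

/-! ### the inverse Laplace operator gains two derivatives -/

lemma N_Z_le (q : ℕ) {f : C(Tor m, ℝ)} (hf : N (wt q 0 0) f ≠ ⊤) :
    N (wt (q + 2) 0 0) (Ml muZ f) ≤ ENNReal.ofReal m * N (wt q 0 0) f := by
  have hw : Wt (wt (m := m) q 0 0) := Wt_wt q 0 le_rfl
  have hs := hw.summable_mul norm_muZ_le hf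
  unfold N
  rw [← ENNReal.tsum_mul_left]
  refine ENNReal.tsum_le_tsum fun k => ?_
  rw [fc_Ml muZ_conj hs, ← ofReal_norm, ← ofReal_norm, norm_mul]
  unfold wt
  rw [← ENNReal.ofReal_mul (by positivity), ← ENNReal.ofReal_mul (norm_nonneg _),
    ← ENNReal.ofReal_mul (by positivity)]
  refine ENNReal.ofReal_le_ofReal ?_
  have hz : ‖muZ k‖ = |zh k| := by
    unfold muZ
    rw [Complex.norm_real, Real.norm_eq_abs]
  rw [hz]
  have h0 := sz_nonneg k
  have h1 : |zh k| * (1 + sz k) ^ 2 ≤ m := by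
    by_cases hk : k = 0
    · subst hk
      have : zh (0 : Fin m → ℤ) = 0 := by simp [zh, sq2]
      rw [this, abs_zero, zero_mul]
      positivity
    · have h2 := one_le_sq2 hk
      have h3 := sz_sq_le k
      have hm1 : (1 : ℝ) ≤ m := by
        rcases Nat.eq_zero_or_pos m with hm | hm
        · subst hm
          exact absurd (Subsingleton.elim k 0) hk
        · exact_mod_cast hm
      rw [abs_zh, one_div, inv_mul_le_iff₀ (by positivity)]
      have hpi := Real.pi_gt_three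
      have h4 : (1 + sz k) ^ 2 ≤ 2 + 2 * sz k ^ 2 := by nlinarith [sq_nonneg (1 - sz k)]
      have h5 : (36 : ℝ) ≤ 4 * Real.pi ^ 2 := by nlinarith
      have h6 : 36 * (sq2 k * m) ≤ 4 * Real.pi ^ 2 * sq2 k * m := by
        have : 0 ≤ sq2 k * m := by positivity
        nlinarith
      have h7 : 1 ≤ sq2 k * m := by nlinarith
      nlinarith
  unfold wr
  calc |zh k| * ‖fc f k‖ * ((1 + sz k) ^ (q + 2) * (1 + 0 * sz k) ^ 0)
      = (|zh k| * (1 + sz k) ^ 2) * (‖fc f k‖ * ((1 + sz k) ^ q * (1 + 0 * sz k) ^ 0)) := by ring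
    _ ≤ m * (‖fc f k‖ * ((1 + sz k) ^ q * (1 + 0 * sz k) ^ 0)) := by
        gcongr

/-- `vv` as a function on the torus -/
lemma vv_eq {f : C(Tor m, ℝ)} (h : Dec (fc f)) (x : E m) : vv f x = Ml muZ f (qt x) := by
  unfold vv
  have h1 : zf f = fun k => muZ k * fc f k := rfl
  rw [← rp_fs_qt (dec_zf h).summable, h1]
  rfl

/-! ### the linear operator -/

/-- second order linear operator -/
def Lop (al : Fin m → Fin m → E m → ℝ) (be : Fin n → Fin m × Fin n → E m → ℝ)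
    (f : Fin n → E m → ℝ) (a : Fin n) (x : E m) : ℝ :=
  ∑ i, pd i (pd i (f a)) x + ∑ i, ∑ j, al i j x * pd i (pd j (f a)) x +
    ∑ s : Fin m × Fin n, be a s x * pd s.1 (f s.2) x

lemma Lop_congr (al : Fin m → Fin m → E m → ℝ) (be : Fin n → Fin m × Fin n → E m → ℝ)
    {f f' : Fin n → E m → ℝ} {x : E m} (h : ∀ b, f b =ᶠ[𝓝 x] f' b) (a : Fin n) :
    Lop al be f a x = Lop al be f' a x := by
  unfold Lop
  have h1 : ∀ b i, pd i (f b) x = pd i (f' b) x := fun b i => (pd_congr (h b) i).eq_of_nhds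
  have h2 : ∀ b i j, pd i (pd j (f b)) x = pd i (pd j (f' b)) x :=
    fun b i j => (pd_congr (pd_congr (h b) j) i).eq_of_nhds
  simp only [h1, h2]

/-- the data -/
def mkLD (i₀ : Fin m) (al : Fin m → Fin m → E m → ℝ) (be : Fin n → Fin m × Fin n → E m → ℝ)
    (d : Fin n → E m → ℝ) : LD m n where
  A i j := per (al i j)
  B a s := per (be a s)
  D a := per (d a)
  wm := per (om4 i₀)

/-- **the fixed point gives a solution** -/
lemma Lop_vv (i₀ : Fin m) {al : Fin m → Fin m → E m → ℝ} {be : Fin n → Fin m × Fin n → E m → ℝ}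
    {d : Fin n → E m → ℝ} (hal : ∀ i j, ContDiff ℝ ∞ (al i j)) (hbe : ∀ a s, ContDiff ℝ ∞ (be a s))
    (hd : ∀ a, ContDiff ℝ ∞ (d a)) (al0 : ∀ i j, Sup (al i j)) (be0 : ∀ a s, Sup (be a s))
    (hd0 : ∀ a, Sup (d a)) {J : ℕ} {L : Fin n → C(Tor m, ℝ)}
    (hL : ∀ a, (mkLD i₀ al be d).Φ L a = L a) (hf : ∀ p a, N (wt J p 1) (L a) ≠ ⊤) (a : Fin n)
    {x : E m} (hx : ‖x‖ < 9 / 32) : Lop al be (fun b => vv (L b)) a x = -d a x := by
  have hdec : ∀ b, Dec (fc (L b)) := fun b => dec_fc (J := J) fun p => hf p b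
  have hx2 : ‖x‖ < 1 / 2 := hx.trans (by norm_num)
  have hm : fc (L a) 0 = 0 := by
    rw [fc_zero_eq, ← hL a]
    unfold LD.Φ
    rw [mn_sub]
    have h1 : mn (mn ((mkLD i₀ al be d).G L a) • (mkLD i₀ al be d).wm) =
        mn ((mkLD i₀ al be d).G L a) := by
      rw [mn_smul]
      have h2 : mn (mkLD i₀ al be d).wm = 1 := mn_om4 i₀
      rw [h2, mul_one]
    rw [h1, sub_self, Complex.ofReal_zero]
  have e1 : L a (qt x) = (mkLD i₀ al be d).G L a (qt x) := by
    conv_lhs => rw [← hL a]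
    unfold LD.Φ
    rw [ContinuousMap.sub_apply, ContinuousMap.smul_apply]
    have h2 : (mkLD i₀ al be d).wm (qt x) = 0 := by
      change per (om4 i₀) (qt x) = 0
      rw [per_qt (contDiff_om4 i₀).continuous (fun y hy => om4_zero1 i₀ hy) hx2, om4_zero2 i₀ hx.le]
    rw [h2, smul_zero, sub_zero]
  have hA : ∀ i j, (mkLD i₀ al be d).A i j (qt x) = al i j x := fun i j => by
    change per (al i j) (qt x) = _
    rw [per_qt (hal i j).continuous (al0 i j) hx2]
  have hB : ∀ s, (mkLD i₀ al be d).B a s (qt x) = be a s x := fun s => by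
    change per (be a s) (qt x) = _
    rw [per_qt (hbe a s).continuous (be0 a s) hx2]
  have hD : (mkLD i₀ al be d).D a (qt x) = d a x := by
    change per (d a) (qt x) = _
    rw [per_qt (hd a).continuous (hd0 a) hx2]
  have e2 : (mkLD i₀ al be d).G L a (qt x) = -d a x -
      ∑ i, ∑ j, al i j x * pd i (pd j (vv (L a))) x -
      ∑ s : Fin m × Fin n, be a s x * pd s.1 (vv (L s.2)) x := by
    unfold LD.G
    rw [ContinuousMap.sub_apply, ContinuousMap.sub_apply, ContinuousMap.neg_apply, hD,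
      sum_torus_apply, sum_torus_apply]
    congr 1
    · congr 1
      refine Finset.sum_congr rfl fun i _ => ?_
      rw [sum_torus_apply]
      refine Finset.sum_congr rfl fun j _ => ?_
      rw [ContinuousMap.mul_apply, hA, pd_pd_vv (hdec a)]
    · refine Finset.sum_congr rfl fun s _ => ?_
      rw [ContinuousMap.mul_apply, hB, pd_vv (hdec s.2)]
  have e3 := lap_vv (hdec a) hm x
  unfold Lop
  rw [e3, e1, e2]
  ring

/-- **[LSOLVE]**: solution of the linear system with small coefficients on the ball of radius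
`9/32`, strong and weak estimates -/
theorem lsolve (hm : 0 < m) (n s t : ℕ) (hts : t ≤ s) : ∃ ε : ℝ, 0 < ε ∧ ∃ C : ℝ, 0 ≤ C ∧
    ∀ (al : Fin m → Fin m → E m → ℝ) (be : Fin n → Fin m × Fin n → E m → ℝ),
      (∀ i j, ContDiff ℝ ∞ (al i j)) → (∀ a q, ContDiff ℝ ∞ (be a q)) →
      (∀ i j x, 3 / 8 ≤ ‖x‖ → al i j x = 0) → (∀ a q x, 3 / 8 ≤ ‖x‖ → be a q x = 0) →
      (∀ i j, N (wt s 0 0) (per (al i j)) ≤ ENNReal.ofReal ε) →
      (∀ a q, N (wt s 0 0) (per (be a q)) ≤ ENNReal.ofReal ε) →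
      ∀ d : Fin n → E m → ℝ, (∀ a, ContDiff ℝ ∞ (d a)) → (∀ a x, 1 / 4 ≤ ‖x‖ → d a x = 0) →
      ∃ v : Fin n → E m → ℝ, (∀ a, ContDiff ℝ ∞ (v a)) ∧ (∀ a x, 3 / 8 ≤ ‖x‖ → v a x = 0) ∧
        (∀ a x, ‖x‖ < 9 / 32 → Lop al be v a x = -d a x) ∧
        (∀ δ : ℝ, 0 ≤ δ → (∀ a, N (wt s 0 0) (per (d a)) ≤ ENNReal.ofReal δ) →
          ∀ a, N (wt (s + 2) 0 0) (per (v a)) ≤ ENNReal.ofReal (C * δ)) ∧
        ∀ W₀ : ℝ, 0 ≤ W₀ →
          (∀ (Φ : Fin n → E m → ℝ) (M : ℝ), 0 ≤ M → (∀ a, ContDiff ℝ ∞ (Φ a)) →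
            (∀ a x, 3 / 8 ≤ ‖x‖ → Φ a x = 0) →
            (∀ a, N (wt t 0 0) (per (Φ a)) ≤ ENNReal.ofReal M) →
            |∑ a, ∫ x, d a x * Φ a x| ≤ W₀ * M) →
          ∀ (ψ : Fin n → E m → ℝ) (M : ℝ), 0 ≤ M → (∀ a, ContDiff ℝ ∞ (ψ a)) →
            (∀ a x, 9 / 32 ≤ ‖x‖ → ψ a x = 0) →
            (∀ a, N (wt t 0 0) (per (ψ a)) ≤ ENNReal.ofReal M) →
            |∑ a, ∫ x, v a x * ψ a x| ≤ C * W₀ * M := by
  set i₀ : Fin m := ⟨0, hm⟩
  have hω4 : Sup (om4 i₀) := fun x hx => om4_zero1 i₀ hx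
  have hb5 : Sup (b5 m : E m → ℝ) := fun x hx => b5_zero (by linarith)
  have hb1 : Sup (b1 m : E m → ℝ) := fun x hx => b1_zero (by linarith)
  set x₀ : ℝ := (N (wt s 0 0) (per (om4 i₀))).toReal with hx₀
  have hx₀0 : 0 ≤ x₀ := ENNReal.toReal_nonneg
  have hxω : N (wt s 0 0) (per (om4 i₀)) = ENNReal.ofReal x₀ :=
    (ENNReal.ofReal_toReal (N_per_ne_top (contDiff_om4 i₀) hω4 s)).symm
  set K5 : ℝ := (N (wt (s + 2) 0 0) (per (b5 m))).toReal with hK5
  have hK50 : 0 ≤ K5 := ENNReal.toReal_nonneg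
  have hK5e : N (wt (s + 2) 0 0) (per (b5 m)) = ENNReal.ofReal K5 :=
    (ENNReal.ofReal_toReal (N_per_ne_top (b5 m).contDiff hb5 (s + 2))).symm
  set K1 : ℝ := (N (wt t 0 0) (per (b1 m))).toReal with hK1
  have hK10 : 0 ≤ K1 := ENNReal.toReal_nonneg
  set ε : ℝ := 1 / (4 * (1 + x₀) * (m ^ 2 + m * n + 1)) with hε
  have hε0 : 0 < ε := by positivity
  have hsm : (1 + x₀) * (m ^ 2 * ε + m * n * ε) < 1 / 2 := by
    have h1 : (1 + x₀) * (m ^ 2 * ε + m * n * ε) =
        (m ^ 2 + m * n : ℝ) / (4 * (m ^ 2 + m * n + 1)) := by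
      rw [hε]
      field_simp
    rw [h1, div_lt_iff₀ (by positivity)]
    have : (0 : ℝ) ≤ m ^ 2 + m * n := by positivity
    linarith
  refine ⟨ε, hε0, K5 * (m * (2 * (1 + x₀))) + n * (2 * (1 + x₀) * K1), by positivity, ?_⟩
  intro al be hal hbe al0 be0 bal bbe d hd hd0
  have al1 : ∀ i j, Sup (al i j) := fun i j x hx => al0 i j x (by linarith)
  have be1 : ∀ a q, Sup (be a q) := fun a q x hx => be0 a q x (by linarith)
  have hd1 : ∀ a, Sup (d a) := fun a x hx => hd0 a x (by linarith)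
  have fn : ∀ {F : E m → ℝ} (p : ℕ), ContDiff ℝ ∞ F → Sup F → N (wt s p 1) (per F) ≠ ⊤ := by
    intro F p hF hs
    rw [funext fun k => wt_eq s p k]
    exact N_per_ne_top hF hs _
  obtain ⟨L, hL1, hL2, hL3⟩ := (mkLD i₀ al be d).exists_fixed s hx₀0 hε0.le hsm
    (le_of_eq hxω) bal bbe (fun p => fn p (contDiff_om4 i₀) hω4)
    (fun p i j => fn p (hal i j) (al1 i j)) (fun p a q => fn p (hbe a q) (be1 a q))
    (fun p a => fn p (hd a) (hd1 a))
  have hdec : ∀ a, Dec (fc (L a)) := fun a => dec_fc (J := s) fun p => hL3 p a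
  have hvv : ∀ a, ContDiff ℝ ∞ (vv (L a)) := fun a => contDiff_vv (hdec a)
  have hLs : ∀ a, N (wt s 0 0) (L a) ≠ ⊤ := fun a => by
    have h1 := hL3 0 a
    rw [funext fun k => wt_eq s 0 k] at h1
    exact h1
  have hmono : ∀ f : C(Tor m, ℝ), N (wt t 0 0) f ≤ N (wt s 0 0) f := fun f => by
    refine N_mono (fun k => ?_) f
    unfold wt
    refine ENNReal.ofReal_le_ofReal ?_
    unfold wr
    have h0 := sz_nonneg k
    have h1 : (1 + REF.sz k) ^ t ≤ (1 + REF.sz k) ^ s := pow_le_pow_right₀ (by linarith) hts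
    simpa using h1
  refine ⟨fun a x => b5 m x * vv (L a) x, fun a => (b5 m).contDiff.mul (hvv a), ?_, ?_, ?_, ?_⟩
  · intro a x hx
    simp only
    rw [b5_zero hx, zero_mul]
  · intro a x hx
    rw [← Lop_vv i₀ hal hbe hd al1 be1 hd1 hL1 hL3 a hx]
    refine Lop_congr al be (fun b => ?_) a
    have h2 : {y : E m | ‖y‖ < 9 / 32} ∈ 𝓝 x :=
      (isOpen_lt continuous_norm continuous_const).mem_nhds hx
    filter_upwards [h2] with y hy
    rw [b5_one (le_of_lt hy), one_mul]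
  · intro δ hδ hdd a
    have h1 : per (fun x => b5 m x * vv (L a) x) = per (b5 m) * Ml muZ (L a) :=
      per_mul_torus (b5 m).continuous hb5 _ (hvv a).continuous fun x => vv_eq (hdec a) x
    rw [h1]
    have hw : Wt (wt (m := m) (s + 2) 0 0) := Wt_wt (s + 2) 0 le_rfl
    calc _ ≤ N (wt (s + 2) 0 0) (per (b5 m)) * N (wt (s + 2) 0 0) (Ml muZ (L a)) := hw.N_mul _ _
      _ ≤ ENNReal.ofReal K5 * (ENNReal.ofReal m * ENNReal.ofReal (2 * (1 + x₀) * δ)) := by
          rw [hK5e]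
          gcongr
          refine (N_Z_le s (hLs a)).trans ?_
          gcongr
          exact hL2 δ hδ hdd a
      _ = ENNReal.ofReal (K5 * (m * (2 * (1 + x₀))) * δ) := by
          rw [← ENNReal.ofReal_mul (by positivity), ← ENNReal.ofReal_mul (by positivity)]
          congr 1
          ring
      _ ≤ _ := by
          refine ENNReal.ofReal_le_ofReal ?_
          have : 0 ≤ n * (2 * (1 + x₀) * K1) := by positivity
          gcongr
          linarith
  · intro W₀ hW₀ hW ψ M hM hψ hψ0 hψN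
    have hw : Wt (wt (m := m) t 0 0) := Wt_wt t 0 le_rfl
    have hψs : ∀ a, Sup (ψ a) := fun a x hx => hψ0 a x (by linarith)
    have hLt : ∀ a, N (wt t 0 0) (L a) ≠ ⊤ := fun a => ne_top_of_le_ne_top (hLs a) (hmono _)
    have h1 := (mkLD i₀ al be d).weak_core hw hL1 hx₀0 hε0.le (W := W₀ * K1) (by positivity) hsm.le
      (fun i j => (hmono _).trans (bal i j)) (fun a q => (hmono _).trans (bbe a q)) hLt
      ((hmono _).trans (le_of_eq hxω)) (fun a g M hM hg => weak_torus hd hd0 hW a g M hM hg)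
    have h2 : ∀ a, ∫ x, (b5 m x * vv (L a) x) * ψ a x = pr (L a) (Ml muZ (per (ψ a))) := by
      intro a
      have hψt : N (wt t 0 0) (per (ψ a)) ≠ ⊤ := ne_top_of_le_ne_top ENNReal.ofReal_ne_top (hψN a)
      rw [← hw.pr_Z (hLt a) hψt, pr_comm, pr_per (hψ a).continuous (hψs a) _ (hvv a).continuous
        fun x => vv_eq (hdec a) x]
      congr 1
      funext x
      by_cases hx : 9 / 32 ≤ ‖x‖
      · rw [hψ0 a x hx]
        ring
      · rw [b5_one (not_le.1 hx).le]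
        ring
    have h3 : ∀ a, |∫ x, (b5 m x * vv (L a) x) * ψ a x| ≤ 2 * (1 + x₀) * (W₀ * K1) * M := by
      intro a
      rw [h2]
      exact h1 a _ M hM ((hw.N_Ml norm_muZ_le _).trans (hψN a))
    calc |∑ a, ∫ x, (b5 m x * vv (L a) x) * ψ a x|
        ≤ ∑ a, |∫ x, (b5 m x * vv (L a) x) * ψ a x| := Finset.abs_sum_le_sum_abs _ _
      _ ≤ n * (2 * (1 + x₀) * (W₀ * K1) * M) :=
          (Finset.sum_le_card_nsmul _ _ _ fun a _ => h3 a).trans (le_of_eq (by simp))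
      _ = n * (2 * (1 + x₀) * K1) * (W₀ * M) := by ring
      _ ≤ (K5 * (m * (2 * (1 + x₀))) + n * (2 * (1 + x₀) * K1)) * (W₀ * M) := by
          have : 0 ≤ K5 * (m * (2 * (1 + x₀))) := by positivity
          gcongr
          linarith
      _ = _ := by ring

end

end Vale.Agent.P214.REF
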