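import Vale.Agent.P214.REF.Per

/-!
# P214, block REF: real Fourier series on Euclidean space
-/

open UnitAddTorus
open scoped ENNReal ContDiff

namespace Vale.Agent.P214.REF

noncomputable section

variable {m : ℕ}

/-- one-dimensional building block -/
def g1 (c : ℂ) (s : ℝ) : ℝ := (c * Complex.exp (s * Complex.I)).re

lemma hasDerivAt_g1 (c : ℂ) (s : ℝ) : HasDerivAt (g1 c) (g1 (c * Complex.I) s) s := by
  have h1 : HasDerivAt (fun s : ℝ => c * Complex.exp (s * Complex.I))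
      (c * (Complex.exp (s * Complex.I) * (1 * Complex.I))) s := by
    refine HasDerivAt.const_mul c ?_
    refine HasDerivAt.cexp ?_
    refine HasDerivAt.mul_const ?_ Complex.I
    exact Complex.ofRealCLM.hasDerivAt
  have h2 := (Complex.reCLM.hasFDerivAt (x := c * Complex.exp (s * Complex.I))).comp_hasDerivAt s h1
  have h3 : (Complex.reCLM (c * (Complex.exp (s * Complex.I) * (1 * Complex.I)))) =
      g1 (c * Complex.I) s := by
    unfold g1
    rw [Complex.reCLM_apply]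
    congr 1
    ring
  rw [h3] at h2
  exact h2

lemma iteratedDeriv_g1 (c : ℂ) (j : ℕ) : iteratedDeriv j (g1 c) = g1 (c * Complex.I ^ j) := by
  induction j with
  | zero => simp
  | succ j ih =>
    rw [iteratedDeriv_succ, ih]
    funext s
    rw [(hasDerivAt_g1 _ s).deriv, pow_succ]
    congr 1
    ring

lemma contDiff_g1 (c : ℂ) : ContDiff ℝ ∞ (g1 c) := by
  have h1 : ContDiff ℝ ∞ fun s : ℝ => c * Complex.exp (s * Complex.I) := by
    refine contDiff_const.mul ?_
    refine ContDiff.cexp ?_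
    exact (Complex.ofRealCLM.contDiff).mul contDiff_const
  exact Complex.reCLM.contDiff.comp h1

lemma abs_g1_le (c : ℂ) (s : ℝ) : |g1 c s| ≤ ‖c‖ := by
  unfold g1
  refine (Complex.abs_re_le_norm _).trans ?_
  rw [norm_mul, Complex.norm_exp_ofReal_mul_I, mul_one]

/-- the linear functional of an integer vector -/
def ln (k : Fin m → ℤ) : E m →L[ℝ] ℝ := (2 * Real.pi) • innerSL ℝ (vec k)

lemma ln_apply (k : Fin m → ℤ) (x : E m) : ln k x = 2 * Real.pi * ∑ i, (k i : ℝ) * x i := by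
  change 2 * Real.pi * inner ℝ (vec k) x = _
  congr 1
  rw [PiLp.inner_apply]
  refine Finset.sum_congr rfl fun i _ => ?_
  simp [vec, mul_comm]

lemma norm_vec_le (k : Fin m → ℤ) : ‖vec k‖ ≤ sz k := by
  rw [EuclideanSpace.norm_eq]
  refine Real.sqrt_le_iff.2 ⟨sz_nonneg k, ?_⟩
  unfold sz
  have h1 : ∀ i, ‖(vec k) i‖ = |(k i : ℝ)| := fun i => by simp [vec]
  simp only [h1]
  exact Finset.sum_sq_le_sq_sum_of_nonneg fun i _ => abs_nonneg _

lemma norm_ln_le (k : Fin m → ℤ) : ‖ln k‖ ≤ 2 * Real.pi * sz k := by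
  unfold ln
  rw [norm_smul, innerSL_apply_norm, Real.norm_eq_abs, abs_of_pos (by positivity)]
  have := norm_vec_le k
  gcongr

lemma mFourier_qt (k : Fin m → ℤ) (x : E m) :
    mFourier k (qt x) = Complex.exp ((ln k x : ℝ) * Complex.I) := by
  have := mFourier_coe k (fun i => x i)
  rw [ln_apply]
  exact this

/-- a term of the series -/
def tm (a : (Fin m → ℤ) → ℂ) (k : Fin m → ℤ) (x : E m) : ℝ := g1 (a k) (ln k x)

lemma contDiff_tm (a : (Fin m → ℤ) → ℂ) (k : Fin m → ℤ) : ContDiff ℝ ∞ (tm a k) :=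
  (contDiff_g1 (a k)).comp (ln k).contDiff

lemma norm_iteratedFDeriv_tm (a : (Fin m → ℤ) → ℂ) (k : Fin m → ℤ) (j : ℕ) (x : E m) :
    ‖iteratedFDeriv ℝ j (tm a k) x‖ ≤ ‖a k‖ * (2 * Real.pi * sz k) ^ j := by
  have h1 : tm a k = g1 (a k) ∘ ln k := rfl
  rw [h1, (ln k).iteratedFDeriv_comp_right (contDiff_g1 (a k)) x (by exact_mod_cast le_top)]
  refine (ContinuousMultilinearMap.norm_compContinuousLinearMap_le _ _).trans ?_
  rw [norm_iteratedFDeriv_eq_norm_iteratedDeriv, iteratedDeriv_g1, Finset.prod_const,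
    Finset.card_univ, Fintype.card_fin]
  have h2 : ‖g1 (a k * Complex.I ^ j) (ln k x)‖ ≤ ‖a k‖ := by
    rw [Real.norm_eq_abs]
    refine (abs_g1_le _ _).trans ?_
    rw [norm_mul, norm_pow, Complex.norm_I, one_pow, mul_one]
  have h3 := norm_ln_le k
  have h4 := sz_nonneg k
  gcongr

/-- rapid decay -/
def Dec (a : (Fin m → ℤ) → ℂ) : Prop := ∀ p : ℕ, Summable fun k => ‖a k‖ * (1 + sz k) ^ p

lemma Dec.summable_pow {a : (Fin m → ℤ) → ℂ} (ha : Dec a) (j : ℕ) :
    Summable fun k => ‖a k‖ * (2 * Real.pi * sz k) ^ j := by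
  refine Summable.of_nonneg_of_le (fun k => ?_) (fun k => ?_) ((ha j).mul_left ((2 * Real.pi) ^ j))
  · have := sz_nonneg k
    positivity
  · have := sz_nonneg k
    calc ‖a k‖ * (2 * Real.pi * sz k) ^ j ≤ ‖a k‖ * (2 * Real.pi * (1 + sz k)) ^ j := by
          gcongr
          linarith
      _ = _ := by
          rw [mul_pow]
          ring

lemma Dec.summable {a : (Fin m → ℤ) → ℂ} (ha : Dec a) : Summable a := by
  have := ha 0
  simp only [pow_zero, mul_one] at this
  exact this.of_norm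

/-- the real Fourier series -/
def S (a : (Fin m → ℤ) → ℂ) (x : E m) : ℝ := ∑' k, tm a k x

lemma Dec.contDiff {a : (Fin m → ℤ) → ℂ} (ha : Dec a) : ContDiff ℝ ∞ (S a) :=
  contDiff_tsum (N := ⊤) (fun k => contDiff_tm a k) (fun j _ => ha.summable_pow j)
    fun j k x _ => norm_iteratedFDeriv_tm a k j x

lemma Dec.norm_iteratedFDeriv_le {a : (Fin m → ℤ) → ℂ} (ha : Dec a) (j : ℕ) (x : E m) :
    ‖iteratedFDeriv ℝ j (S a) x‖ ≤ ∑' k, ‖a k‖ * (2 * Real.pi * sz k) ^ j := by
  have h1 := iteratedFDeriv_tsum (N := ⊤) (fun k => contDiff_tm a k)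
    (fun j _ => ha.summable_pow j) (fun j k x _ => norm_iteratedFDeriv_tm a k j x) (k := j) le_top
  have h2 : iteratedFDeriv ℝ j (S a) x = ∑' k, iteratedFDeriv ℝ j (tm a k) x := congrFun h1 x
  rw [h2]
  exact tsum_of_norm_bounded (ha.summable_pow j).hasSum fun k => norm_iteratedFDeriv_tm a k j x

/-- coordinate vector -/
def bs (i : Fin m) : E m := EuclideanSpace.single i 1

/-- partial derivative -/
def pd (i : Fin m) (u : E m → ℝ) (x : E m) : ℝ := fderiv ℝ u x (bs i)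

/-- derivation of the coefficients -/
def dc (i : Fin m) (a : (Fin m → ℤ) → ℂ) (k : Fin m → ℤ) : ℂ :=
  (2 * Real.pi * Complex.I * (k i)) * a k

lemma abs_le_sz (k : Fin m → ℤ) (i : Fin m) : |(k i : ℝ)| ≤ sz k :=
  Finset.single_le_sum (f := fun i => |(k i : ℝ)|) (fun _ _ => abs_nonneg _) (Finset.mem_univ i)

lemma Dec.dc {a : (Fin m → ℤ) → ℂ} (ha : Dec a) (i : Fin m) : Dec (dc i a) := by
  intro p
  refine Summable.of_nonneg_of_le (fun k => ?_) (fun k => ?_) ((ha (p + 1)).mul_left (2 * Real.pi))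
  · have := sz_nonneg k
    positivity
  · have h0 := sz_nonneg k
    unfold REF.dc
    have h1 : ‖(2 * Real.pi * Complex.I * (k i) : ℂ)‖ = 2 * Real.pi * |(k i : ℝ)| := by
      rw [norm_mul, norm_mul, norm_mul, Complex.norm_I, mul_one, Complex.norm_intCast]
      simp [abs_of_pos Real.pi_pos]
    rw [norm_mul, h1]
    have h2 := abs_le_sz k i
    calc 2 * Real.pi * |(k i : ℝ)| * ‖a k‖ * (1 + sz k) ^ p
        ≤ 2 * Real.pi * (1 + sz k) * ‖a k‖ * (1 + sz k) ^ p := by
          gcongr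
          linarith
      _ = _ := by ring

lemma pd_S {a : (Fin m → ℤ) → ℂ} (ha : Dec a) (i : Fin m) (x : E m) :
    pd i (S a) x = S (dc i a) x := by
  have h0 : ∀ k (x : E m), ‖fderiv ℝ (tm a k) x‖ ≤ ‖a k‖ * (2 * Real.pi * sz k) ^ 1 := by
    intro k x
    rw [← norm_iteratedFDeriv_one]
    exact norm_iteratedFDeriv_tm a k 1 x
  have h1 : fderiv ℝ (S a) x = ∑' k, fderiv ℝ (tm a k) x := by
    have := fderiv_tsum (x₀ := (0 : E m)) (ha.summable_pow 1)
      (fun k => (contDiff_tm a k).differentiable (by simp)) h0 (by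
        refine Summable.of_norm_bounded (ha.summable_pow 0) fun k => ?_
        rw [pow_zero, mul_one]
        exact abs_g1_le _ _)
    exact congrFun this x
  have h2 : Summable fun k => fderiv ℝ (tm a k) x :=
    Summable.of_norm_bounded (ha.summable_pow 1) fun k => h0 k x
  unfold pd
  rw [h1]
  have h3 : (∑' k, fderiv ℝ (tm a k) x) (bs i) = ∑' k, fderiv ℝ (tm a k) x (bs i) :=
    (ContinuousLinearMap.apply ℝ ℝ (bs i)).map_tsum h2
  rw [h3]
  unfold S
  congr 1
  ext1 k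
  have h4 : HasFDerivAt (tm a k) ((ContinuousLinearMap.toSpanSingleton ℝ
      (g1 (a k * Complex.I) (ln k x))).comp (ln k)) x :=
    (hasDerivAt_g1 (a k) (ln k x)).hasFDerivAt.comp x (ln k).hasFDerivAt
  rw [h4.fderiv]
  have h5 : ln k (bs i) = 2 * Real.pi * (k i) := by
    rw [ln_apply]
    congr 1
    unfold bs
    simp
  simp only [ContinuousLinearMap.comp_apply, ContinuousLinearMap.toSpanSingleton_apply, smul_eq_mul,
    h5]
  unfold tm g1 dc
  have h6 : (2 * Real.pi * Complex.I * (k i) * a k * Complex.exp ((ln k x : ℝ) * Complex.I)) =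
      ((2 * Real.pi * (k i) : ℝ) : ℂ) * (a k * Complex.I * Complex.exp ((ln k x : ℝ) * Complex.I)) := by
    push_cast
    ring
  rw [h6, Complex.re_ofReal_mul]

lemma rp_fs_qt {a : (Fin m → ℤ) → ℂ} (ha : Summable a) (x : E m) : rp (fs a) (qt x) = S a x := by
  have h1 : HasSum (fun k => a k * mFourier k (qt x)) (fs a (qt x)) := by
    have := (ContinuousMap.evalCLM ℂ (qt x)).hasSum (summable_series ha).hasSum
    unfold fs
    simpa using this
  have h2 := Complex.reCLM.hasSum h1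
  rw [rp_apply]
  have h3 : (fs a (qt x)).re = ∑' k, (a k * mFourier k (qt x)).re := h2.tsum_eq.symm
  rw [h3]
  unfold S tm g1
  congr 1
  ext k
  rw [mFourier_qt]

/-! ### the inverse Laplace operator -/

/-- squared length of an integer vector -/
def sq2 (k : Fin m → ℤ) : ℝ := ∑ i, (k i : ℝ) ^ 2

lemma sq2_nonneg (k : Fin m → ℤ) : 0 ≤ sq2 k := Finset.sum_nonneg fun _ _ => sq_nonneg _

lemma sq2_pos {k : Fin m → ℤ} (hk : k ≠ 0) : 0 < sq2 k := by
  obtain ⟨i, hi⟩ := Function.ne_iff.1 hk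
  refine Finset.sum_pos' (fun _ _ => sq_nonneg _) ⟨i, Finset.mem_univ _, ?_⟩
  have : (k i : ℝ) ≠ 0 := by exact_mod_cast hi
  positivity

/-- the symbol of the inverse Laplace operator -/
def zh (k : Fin m → ℤ) : ℝ := -(1 / (4 * Real.pi ^ 2 * sq2 k))

lemma abs_zh (k : Fin m → ℤ) : |zh k| = 1 / (4 * Real.pi ^ 2 * sq2 k) := by
  unfold zh
  have := sq2_nonneg k
  rw [abs_neg, abs_of_nonneg (by positivity)]

/-- first order multiplier -/
def muS (i : Fin m) (k : Fin m → ℤ) : ℂ := (2 * Real.pi * Complex.I * (k i)) * zh k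

/-- second order multiplier -/
def muR (i j : Fin m) (k : Fin m → ℤ) : ℂ :=
  (2 * Real.pi * Complex.I * (k i)) * ((2 * Real.pi * Complex.I * (k j)) * zh k)

lemma norm_fac (k : Fin m → ℤ) (i : Fin m) :
    ‖(2 * Real.pi * Complex.I * (k i) : ℂ)‖ = 2 * Real.pi * |(k i : ℝ)| := by
  rw [norm_mul, norm_mul, norm_mul, Complex.norm_I, mul_one, Complex.norm_intCast]
  simp [abs_of_pos Real.pi_pos]

lemma sq_le_sq2 (k : Fin m → ℤ) (i : Fin m) : |(k i : ℝ)| ^ 2 ≤ sq2 k := by
  rw [sq_abs]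
  exact Finset.single_le_sum (f := fun i => (k i : ℝ) ^ 2) (fun _ _ => sq_nonneg _)
    (Finset.mem_univ i)

lemma one_le_sq2 {k : Fin m → ℤ} (hk : k ≠ 0) : 1 ≤ sq2 k := by
  obtain ⟨i, hi⟩ := Function.ne_iff.1 hk
  refine le_trans ?_ (sq_le_sq2 k i)
  have h1 : 1 ≤ |(k i : ℝ)| := by
    rw [← Int.cast_abs]
    exact_mod_cast Int.one_le_abs hi
  nlinarith

lemma norm_muR_le (i j : Fin m) (k : Fin m → ℤ) : ‖muR i j k‖ ≤ 1 := by
  by_cases hk : k = 0
  · subst hk
    unfold muR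
    simp
  · unfold muR
    have h0 := sq2_pos hk
    rw [norm_mul (2 * Real.pi * Complex.I * (k i) : ℂ), norm_mul (2 * Real.pi * Complex.I * (k j) : ℂ),
      norm_fac, norm_fac, Complex.norm_real, Real.norm_eq_abs, abs_zh]
    have h1 := sq_le_sq2 k i
    have h2 := sq_le_sq2 k j
    have h3 : |(k i : ℝ)| * |(k j : ℝ)| ≤ sq2 k := by nlinarith [sq_nonneg (|(k i : ℝ)| - |(k j : ℝ)|)]
    have h4 : 2 * Real.pi * |(k i : ℝ)| * (2 * Real.pi * |(k j : ℝ)| * (1 / (4 * Real.pi ^ 2 * sq2 k))) =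
        |(k i : ℝ)| * |(k j : ℝ)| / sq2 k := by
      have := Real.pi_pos
      field_simp
      ring
    rw [h4]
    exact div_le_one_of_le₀ h3 h0.le

lemma norm_muS_le (i : Fin m) (k : Fin m → ℤ) : ‖muS i k‖ ≤ 1 := by
  by_cases hk : k = 0
  · subst hk
    unfold muS
    simp
  · unfold muS
    have h0 := sq2_pos hk
    have h01 := one_le_sq2 hk
    rw [norm_mul, norm_fac, Complex.norm_real, Real.norm_eq_abs, abs_zh]
    have h1 := sq_le_sq2 k i
    have h3 : |(k i : ℝ)| ≤ sq2 k := by nlinarith [abs_nonneg (k i : ℝ), sq_nonneg (|(k i : ℝ)| - 1)]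
    have hpi : 1 ≤ 2 * Real.pi := by linarith [Real.pi_gt_three]
    have h4 : 2 * Real.pi * |(k i : ℝ)| * (1 / (4 * Real.pi ^ 2 * sq2 k)) =
        (|(k i : ℝ)| / sq2 k) / (2 * Real.pi) := by
      have := Real.pi_pos
      field_simp
      ring
    rw [h4]
    refine div_le_one_of_le₀ ?_ (by positivity)
    exact (div_le_one_of_le₀ h3 h0.le).trans hpi

lemma sum_muR (k : Fin m → ℤ) : ∑ i, muR i i k = if k = 0 then 0 else 1 := by
  by_cases hk : k = 0
  · subst hk
    simp [muR]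
  · rw [if_neg hk]
    have h0 := sq2_pos hk
    have h1 : ∀ i, muR i i k = (((k i : ℝ) ^ 2 / sq2 k : ℝ) : ℂ) := by
      intro i
      unfold muR zh
      have hpi : (Real.pi : ℂ) ≠ 0 := by exact_mod_cast Real.pi_ne_zero
      have hs : (sq2 k : ℂ) ≠ 0 := by exact_mod_cast h0.ne'
      push_cast
      field_simp
      linear_combination (-4 * ((k i : ℤ) : ℂ) ^ 2) * Complex.I_sq
    rw [Finset.sum_congr rfl fun i _ => h1 i, ← Complex.ofReal_sum, ← Finset.sum_div]
    have h2 : ∑ i, (k i : ℝ) ^ 2 = sq2 k := rfl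
    rw [h2, div_self h0.ne', Complex.ofReal_one]

/-! ### the solution of the Poisson equation -/

lemma summable_wr {f : C(Tor m, ℝ)} {J p : ℕ} {ε : ℝ} (hε : 0 ≤ ε) (h : N (wt J p ε) f ≠ ⊤) :
    Summable fun k => ‖fc f k‖ * wr J p ε k := by
  have h1 : ∀ k, ‖fc f k‖ₑ * wt J p ε k = ENNReal.ofReal (‖fc f k‖ * wr J p ε k) := by
    intro k
    unfold wt
    rw [← ofReal_norm, ← ENNReal.ofReal_mul (norm_nonneg _)]
  unfold N at h
  simp only [h1] at h
  have h2 : Summable fun k => (‖fc f k‖ * wr J p ε k).toNNReal := by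
    rw [← ENNReal.tsum_coe_ne_top_iff_summable]
    exact h
  have h3 := (NNReal.summable_coe.2 h2)
  refine h3.congr fun k => ?_
  exact Real.coe_toNNReal _ (mul_nonneg (norm_nonneg _) (wr_nonneg J p hε k))

lemma toReal_N {f : C(Tor m, ℝ)} {J p : ℕ} {ε : ℝ} (hε : 0 ≤ ε) (h : N (wt J p ε) f ≠ ⊤) :
    (N (wt J p ε) f).toReal = ∑' k, ‖fc f k‖ * wr J p ε k := by
  have h1 : ∀ k, ‖fc f k‖ₑ * wt J p ε k = ENNReal.ofReal (‖fc f k‖ * wr J p ε k) := by
    intro k
    unfold wt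
    rw [← ofReal_norm, ← ENNReal.ofReal_mul (norm_nonneg _)]
  have h2 : ∀ k, 0 ≤ ‖fc f k‖ * wr J p ε k := fun k =>
    mul_nonneg (norm_nonneg _) (wr_nonneg J p hε k)
  unfold N
  simp only [h1]
  rw [← ENNReal.ofReal_tsum_of_nonneg h2 (summable_wr hε h), ENNReal.toReal_ofReal (tsum_nonneg h2)]

lemma dec_fc {f : C(Tor m, ℝ)} {J : ℕ} (h : ∀ p, N (wt J p 1) f ≠ ⊤) : Dec (fc f) := by
  intro p
  refine Summable.of_nonneg_of_le (fun k => ?_) (fun k => ?_) (summable_wr zero_le_one (h p))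
  · have := sz_nonneg k
    positivity
  · have h0 := sz_nonneg k
    unfold wr
    rw [one_mul]
    have h1 : 1 ≤ (1 + sz k) ^ J := one_le_pow₀ (by linarith)
    have h2 : 0 ≤ (1 + sz k) ^ p := by positivity
    calc ‖fc f k‖ * (1 + sz k) ^ p ≤ ‖fc f k‖ * (1 * (1 + sz k) ^ p) := by rw [one_mul]
      _ ≤ _ := by gcongr

lemma abs_zh_le (k : Fin m → ℤ) : |zh k| ≤ 1 := by
  rw [abs_zh]
  by_cases hk : k = 0
  · subst hk
    simp [sq2]
  · have h1 := one_le_sq2 hk
    rw [one_div]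
    refine inv_le_one_of_one_le₀ ?_
    have h2 := Real.pi_gt_three
    nlinarith [sq_nonneg (Real.pi - 3)]

/-- coefficients of the solution -/
def zf (f : C(Tor m, ℝ)) (k : Fin m → ℤ) : ℂ := zh k * fc f k

lemma dec_zf {f : C(Tor m, ℝ)} (h : Dec (fc f)) : Dec (zf f) := by
  intro p
  refine Summable.of_nonneg_of_le (fun k => ?_) (fun k => ?_) (h p)
  · have := sz_nonneg k
    positivity
  · have h0 := sz_nonneg k
    unfold zf
    rw [norm_mul, Complex.norm_real, Real.norm_eq_abs]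
    have := abs_zh_le k
    calc |zh k| * ‖fc f k‖ * (1 + sz k) ^ p ≤ 1 * ‖fc f k‖ * (1 + sz k) ^ p := by gcongr
      _ = _ := by rw [one_mul]

/-- the solution of the Poisson equation -/
def vv (f : C(Tor m, ℝ)) : E m → ℝ := S (zf f)

lemma pd_vv {f : C(Tor m, ℝ)} (h : Dec (fc f)) (i : Fin m) (x : E m) :
    pd i (vv f) x = Ml (muS i) f (qt x) := by
  unfold vv
  rw [pd_S (dec_zf h)]
  have h1 : dc i (zf f) = fun k => muS i k * fc f k := by
    funext k
    unfold dc zf muS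
    ring
  have h2 := ((dec_zf h).dc i).summable
  rw [h1] at h2 ⊢
  exact (rp_fs_qt h2 x).symm

lemma pd_pd_vv {f : C(Tor m, ℝ)} (h : Dec (fc f)) (i j : Fin m) (x : E m) :
    pd i (pd j (vv f)) x = Ml (muR i j) f (qt x) := by
  have h0 : pd j (vv f) = S (dc j (zf f)) := funext fun x => pd_S (dec_zf h) j x
  rw [h0, pd_S ((dec_zf h).dc j)]
  have h1 : dc i (dc j (zf f)) = fun k => muR i j k * fc f k := by
    funext k
    unfold dc zf muR
    ring
  have h2 := (((dec_zf h).dc j).dc i).summable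
  rw [h1] at h2 ⊢
  exact (rp_fs_qt h2 x).symm

lemma fc_qt {f : C(Tor m, ℝ)} (h : Dec (fc f)) (x : E m) : S (fc f) x = f (qt x) := by
  rw [← rp_fs_qt h.summable]
  have h1 : fs (fc f) = toC f := fs_cf h.summable
  rw [h1, rp_toC]

lemma S_tsum_add {a b : (Fin m → ℤ) → ℂ} (ha : Dec a) (hb : Dec b) (x : E m) :
    S (fun k => a k + b k) x = S a x + S b x := by
  unfold S
  have h1 : Summable fun k => tm a k x := by
    refine Summable.of_norm_bounded (ha.summable_pow 0) fun k => ?_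
    rw [pow_zero, mul_one]
    exact abs_g1_le _ _
  have h2 : Summable fun k => tm b k x := by
    refine Summable.of_norm_bounded (hb.summable_pow 0) fun k => ?_
    rw [pow_zero, mul_one]
    exact abs_g1_le _ _
  rw [← h1.tsum_add h2]
  congr 1
  ext k
  unfold tm g1
  rw [add_mul, Complex.add_re]

lemma dec_sum {ι : Type*} (s : Finset ι) (a : ι → (Fin m → ℤ) → ℂ) (ha : ∀ i ∈ s, Dec (a i)) :
    Dec fun k => ∑ i ∈ s, a i k := by
  intro p
  have h1 : Summable fun k => ∑ i ∈ s, ‖a i k‖ * (1 + sz k) ^ p := summable_sum fun i hi => ha i hi p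
  refine Summable.of_nonneg_of_le (fun k => ?_) (fun k => ?_) h1
  · have := sz_nonneg k
    positivity
  · have h0 := sz_nonneg k
    rw [← Finset.sum_mul]
    gcongr
    exact norm_sum_le _ _

lemma S_sum {ι : Type*} [DecidableEq ι] (s : Finset ι) (a : ι → (Fin m → ℤ) → ℂ)
    (ha : ∀ i ∈ s, Dec (a i)) (x : E m) :
    S (fun k => ∑ i ∈ s, a i k) x = ∑ i ∈ s, S (a i) x := by
  induction s using Finset.induction_on with
  | empty =>
    simp only [Finset.sum_empty]
    unfold S tm g1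
    simp
  | insert i s hi ih =>
    rw [Finset.sum_insert hi]
    simp only [Finset.sum_insert hi]
    rw [S_tsum_add (ha i (Finset.mem_insert_self _ _))
      (dec_sum s a fun j hj => ha j (Finset.mem_insert_of_mem hj)),
      ih fun j hj => ha j (Finset.mem_insert_of_mem hj)]

lemma lap_vv {f : C(Tor m, ℝ)} (h : Dec (fc f)) (h0 : fc f 0 = 0) (x : E m) :
    ∑ i, pd i (pd i (vv f)) x = f (qt x) := by
  have h1 : ∀ i, pd i (pd i (vv f)) x = S (dc i (dc i (zf f))) x := by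
    intro i
    have h0 : pd i (vv f) = S (dc i (zf f)) := funext fun x => pd_S (dec_zf h) i x
    rw [h0, pd_S ((dec_zf h).dc i)]
  rw [Finset.sum_congr rfl fun i _ => h1 i,
    ← S_sum Finset.univ _ fun i _ => ((dec_zf h).dc i).dc i, ← fc_qt h]
  congr 1
  funext k
  have h2 : ∀ i, dc i (dc i (zf f)) k = muR i i k * fc f k := by
    intro i
    unfold dc zf muR
    ring
  rw [Finset.sum_congr rfl fun i _ => h2 i, ← Finset.sum_mul, sum_muR]
  by_cases hk : k = 0
  · rw [hk, h0, mul_zero]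
  · rw [if_neg hk, one_mul]

lemma sz_sq_le (k : Fin m → ℤ) : sz k ^ 2 ≤ m * sq2 k := by
  unfold sz sq2
  have h1 := sq_sum_le_card_mul_sum_sq (s := Finset.univ) (f := fun i => |(k i : ℝ)|)
  simpa using h1

lemma zh_pow_le (k : Fin m → ℤ) {J j : ℕ} (hj : j ≤ J + 2) :
    |zh k| * (2 * Real.pi * sz k) ^ j ≤ m * (2 * Real.pi) ^ J * (1 + sz k) ^ J := by
  by_cases hk : k = 0
  · subst hk
    have : zh (0 : Fin m → ℤ) = 0 := by simp [zh, sq2]
    rw [this, abs_zero, zero_mul]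
    have := sz_nonneg (0 : Fin m → ℤ)
    positivity
  · have h1 := one_le_sq2 hk
    have h2 := sz_sq_le k
    have h0 := sz_nonneg k
    have hpi := Real.pi_gt_three
    have hpi0 := Real.pi_pos
    have h3 : 1 ≤ sz k := by
      obtain ⟨i, hi⟩ := Function.ne_iff.1 hk
      refine le_trans ?_ (abs_le_sz k i)
      rw [← Int.cast_abs]
      exact_mod_cast Int.one_le_abs hi
    have h4 : 1 ≤ 2 * Real.pi * sz k := by nlinarith
    have h5 : |zh k| * (2 * Real.pi * sz k) ^ 2 ≤ m := by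
      rw [abs_zh]
      have h6 : 1 / (4 * Real.pi ^ 2 * sq2 k) * (2 * Real.pi * sz k) ^ 2 = sz k ^ 2 / sq2 k := by
        field_simp
        ring
      rw [h6, div_le_iff₀ (by linarith)]
      exact h2
    calc |zh k| * (2 * Real.pi * sz k) ^ j ≤ |zh k| * (2 * Real.pi * sz k) ^ (J + 2) := by
          gcongr
      _ = (|zh k| * (2 * Real.pi * sz k) ^ 2) * (2 * Real.pi * sz k) ^ J := by ring
      _ ≤ m * (2 * Real.pi * (1 + sz k)) ^ J := by
          gcongr
          linarith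
      _ = _ := by
          rw [mul_pow]
          ring

lemma norm_vv_le {f : C(Tor m, ℝ)} {J : ℕ} (h : ∀ p, N (wt J p 1) f ≠ ⊤) {j : ℕ} (hj : j ≤ J + 2)
    (x : E m) :
    ‖iteratedFDeriv ℝ j (vv f) x‖ ≤ m * (2 * Real.pi) ^ J * (N (wt J 0 0) f).toReal := by
  have hd := dec_fc h
  have h0 : N (wt J 0 0) f ≠ ⊤ := by
    refine ne_top_of_le_ne_top (h 0) (N_mono (fun k => ?_) f)
    unfold wt wr
    simp
  refine ((dec_zf hd).norm_iteratedFDeriv_le j x).trans ?_
  rw [toReal_N le_rfl h0, ← tsum_mul_left]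
  refine ((dec_zf hd).summable_pow j).tsum_le_tsum (fun k => ?_) ((summable_wr le_rfl h0).mul_left _)
  unfold zf
  rw [norm_mul, Complex.norm_real, Real.norm_eq_abs]
  have h1 := zh_pow_le k hj
  calc |zh k| * ‖fc f k‖ * (2 * Real.pi * sz k) ^ j
      = ‖fc f k‖ * (|zh k| * (2 * Real.pi * sz k) ^ j) := by ring
    _ ≤ ‖fc f k‖ * (m * (2 * Real.pi) ^ J * (1 + sz k) ^ J) := by gcongr
    _ = _ := by
        unfold wr
        rw [pow_zero, mul_one]
        ring

lemma contDiff_vv {f : C(Tor m, ℝ)} (h : Dec (fc f)) : ContDiff ℝ ∞ (vv f) := (dec_zf h).contDiff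

end

end Vale.Agent.P214.REF
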