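import Vale.Agent.P214.REF.Smo
import Vale.Agent.P214.REF.Ser

/-!
# P214, block REF: exact smooth solutions near approximate ones

For a quasilinear system `Δ u_a = ∑ c_ij(Du) ∂_i ∂_j u_a` with polynomial coefficients vanishing at
zero, every small smooth approximate solution on the ball of radius `1/2` can be corrected to an
exact solution on the ball of radius `1/8`, with a correction bounded by the defect.
-/

open MvPolynomial MeasureTheory
open scoped ENNReal ContDiff FourierTransform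

namespace Vale.Agent.P214.REF

noncomputable section

variable {m n : ℕ}

/-! ### partial derivatives -/

lemma contDiff_pd {u : E m → ℝ} (hu : ContDiff ℝ ∞ u) (i : Fin m) : ContDiff ℝ ∞ (pd i u) :=
  (hu.fderiv_right (by simp)).clm_apply contDiff_const

lemma norm_bs (i : Fin m) : ‖(bs i : E m)‖ = 1 := by
  unfold bs
  simp

lemma norm_iteratedFDeriv_pd {u : E m → ℝ} (hu : ContDiff ℝ ∞ u) (i : Fin m) (j : ℕ) (x : E m) :
    ‖iteratedFDeriv ℝ j (pd i u) x‖ ≤ ‖iteratedFDeriv ℝ (j + 1) u x‖ := by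
  have h1 : ContDiff ℝ ∞ (fderiv ℝ u) := hu.fderiv_right (by simp)
  have h2 := norm_iteratedFDeriv_clm_apply_const (c := bs i) (n := j) (h1.contDiffAt (x := x))
    (by exact_mod_cast le_top)
  rw [norm_bs, one_mul, norm_iteratedFDeriv_fderiv] at h2
  exact h2

lemma pd_add {u v : E m → ℝ} (hu : ContDiff ℝ ∞ u) (hv : ContDiff ℝ ∞ v) (i : Fin m) :
    pd i (fun x => u x + v x) = fun x => pd i u x + pd i v x := by
  funext x
  unfold pd
  have h1 : DifferentiableAt ℝ u x := (hu.differentiable (by simp)).differentiableAt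
  have h2 : DifferentiableAt ℝ v x := (hv.differentiable (by simp)).differentiableAt
  have h3 : fderiv ℝ (fun x => u x + v x) x = fderiv ℝ u x + fderiv ℝ v x := fderiv_fun_add h1 h2
  rw [h3]
  rfl

lemma pd_zero (i : Fin m) : pd i (fun _ : E m => (0 : ℝ)) = fun _ => 0 := by
  funext x
  unfold pd
  simp

/-- the nonlinear operator -/
def Qop (c : Fin m → Fin m → MvPolynomial (Fin m × Fin n) ℝ) (u : Fin n → E m → ℝ) (a : Fin n)
    (x : E m) : ℝ :=
  ∑ i, pd i (pd i (u a)) x -
    ∑ i, ∑ j, eval (fun s : Fin m × Fin n => pd s.1 (u s.2) x) (c i j) * pd i (pd j (u a)) x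

lemma contDiff_eval {σ : Type} (p : MvPolynomial σ ℝ) (f : σ → E m → ℝ)
    (hf : ∀ s, ContDiff ℝ ∞ (f s)) : ContDiff ℝ ∞ fun x => eval (fun s => f s x) p := by
  induction p using MvPolynomial.induction_on with
  | C a =>
    simp only [eval_C]
    exact contDiff_const
  | add p q hp hq =>
    simp only [map_add]
    exact hp.add hq
  | mul_X p s hp =>
    simp only [map_mul, eval_X]
    exact hp.mul (hf s)

lemma contDiff_Qop (c : Fin m → Fin m → MvPolynomial (Fin m × Fin n) ℝ) {u : Fin n → E m → ℝ}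
    (hu : ∀ a, ContDiff ℝ ∞ (u a)) (a : Fin n) : ContDiff ℝ ∞ (Qop c u a) := by
  unfold Qop
  refine ContDiff.sub (ContDiff.sum fun i _ => contDiff_pd (contDiff_pd (hu a) i) i)
    (ContDiff.sum fun i _ => ContDiff.sum fun j _ => ?_)
  exact (contDiff_eval (c i j) (fun s => pd s.1 (u s.2)) fun s => contDiff_pd (hu s.2) s.1).mul
    (contDiff_pd (contDiff_pd (hu a) j) i)

/-! ### cut-off functions -/

/-- multiplication by a cut-off function -/
lemma mul_bound (q : ℕ) {ψ : E m → ℝ} (hψ : ContDiff ℝ ∞ ψ) (h0 : ∀ x, 3 / 8 ≤ ‖x‖ → ψ x = 0) :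
    ∃ C : ℝ, 0 ≤ C ∧ ∀ F : E m → ℝ, ContDiff ℝ ∞ F → ∀ M : ℝ,
      (∀ j ≤ q, ∀ x, ‖x‖ < 1 / 2 → ‖iteratedFDeriv ℝ j F x‖ ≤ M) →
        ∀ j ≤ q, ∀ x, ‖iteratedFDeriv ℝ j (fun x => ψ x * F x) x‖ ≤ C * M := by
  have hcs : HasCompactSupport ψ := by
    refine HasCompactSupport.intro (isCompact_closedBall (0 : E m) (3 / 8)) fun x hx => ?_
    rw [Metric.mem_closedBall, dist_zero_right, not_le] at hx
    exact h0 x hx.le
  have hb : ∀ j, ∃ B, ∀ x, ‖iteratedFDeriv ℝ j ψ x‖ ≤ B := fun j =>
    (hcs.iteratedFDeriv j).exists_bound_of_continuous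
      (hψ.continuous_iteratedFDeriv (by exact_mod_cast le_top))
  choose B hB using hb
  have hB0 : ∀ j, 0 ≤ B j := fun j => (norm_nonneg _).trans (hB j 0)
  refine ⟨∑ j ∈ Finset.range (q + 1), ∑ i ∈ Finset.range (j + 1), (j.choose i) * B i,
    Finset.sum_nonneg fun j _ => Finset.sum_nonneg fun i _ => mul_nonneg (by positivity) (hB0 i), ?_⟩
  intro F hF M hM j hj x
  have hM0 : 0 ≤ M := (norm_nonneg _).trans (hM 0 (Nat.zero_le _) 0 (by simp))
  have hle : ∑ i ∈ Finset.range (j + 1), (j.choose i) * B i ≤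
      ∑ j ∈ Finset.range (q + 1), ∑ i ∈ Finset.range (j + 1), (j.choose i) * B i :=
    Finset.single_le_sum (f := fun j => ∑ i ∈ Finset.range (j + 1), (j.choose i) * B i)
      (fun j _ => Finset.sum_nonneg fun i _ => mul_nonneg (by positivity) (hB0 i))
      (Finset.mem_range.2 (by omega))
  by_cases hx : ‖x‖ < 1 / 2
  · refine (norm_iteratedFDeriv_mul_le hψ hF x (by exact_mod_cast le_top)).trans ?_
    calc _ ≤ ∑ i ∈ Finset.range (j + 1), (j.choose i) * B i * M := by
          refine Finset.sum_le_sum fun i _ => ?_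
          have h1 := hB i x
          have h2 := hM (j - i) ((Nat.sub_le _ _).trans hj) x hx
          gcongr
          exact mul_nonneg (by positivity) (hB0 i)
      _ = (∑ i ∈ Finset.range (j + 1), (j.choose i) * B i) * M := by rw [Finset.sum_mul]
      _ ≤ _ := by gcongr
  · have h1 : iteratedFDeriv ℝ j (fun x => ψ x * F x) x = 0 := by
      by_contra hc
      have h3 := support_iteratedFDeriv_subset j (Function.mem_support.2 hc)
      refine hx ?_
      have h4 : x ∈ Metric.closedBall (0 : E m) (3 / 8) := by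
        refine closure_minimal ?_ Metric.isClosed_closedBall h3
        intro y hy
        rw [Metric.mem_closedBall, dist_zero_right]
        by_contra hc2
        push Not at hc2
        refine hy ?_
        simp only
        rw [h0 y hc2.le, zero_mul]
      rw [Metric.mem_closedBall, dist_zero_right] at h4
      linarith
    rw [h1, norm_zero]
    exact mul_nonneg ((Finset.sum_nonneg fun i _ => mul_nonneg (by positivity) (hB0 i)).trans hle) hM0

/-- the first cut-off -/
def b1 (m : ℕ) : ContDiffBump (0 : E m) := ⟨1 / 4, 3 / 8, by norm_num, by norm_num⟩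

/-- the second cut-off -/
def b2 (m : ℕ) : ContDiffBump (0 : E m) := ⟨1 / 8, 1 / 4, by norm_num, by norm_num⟩

/-- the correction of the mean value -/
def b3 (i : Fin m) : ContDiffBump ((5 / 16 : ℝ) • (bs i : E m)) :=
  ⟨1 / 16, 1 / 8, by norm_num, by norm_num⟩

lemma b1_zero {x : E m} (hx : 3 / 8 ≤ ‖x‖) : b1 m x = 0 := by
  refine (b1 m).zero_of_le_dist ?_
  rw [dist_zero_right]
  exact hx

lemma b2_zero {x : E m} (hx : 1 / 4 ≤ ‖x‖) : b2 m x = 0 := by
  refine (b2 m).zero_of_le_dist ?_
  rw [dist_zero_right]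
  exact hx

lemma b1_one {x : E m} (hx : ‖x‖ ≤ 1 / 4) : b1 m x = 1 := by
  refine (b1 m).one_of_mem_closedBall ?_
  rw [Metric.mem_closedBall, dist_zero_right]
  exact hx

lemma b2_one {x : E m} (hx : ‖x‖ ≤ 1 / 8) : b2 m x = 1 := by
  refine (b2 m).one_of_mem_closedBall ?_
  rw [Metric.mem_closedBall, dist_zero_right]
  exact hx

/-- the normalised function -/
def om (i : Fin m) : E m → ℝ := (b3 i).normed volume

lemma norm_center (i : Fin m) : ‖(5 / 16 : ℝ) • (bs i : E m)‖ = 5 / 16 := by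
  rw [norm_smul, norm_bs]
  norm_num

lemma om_zero1 (i : Fin m) {x : E m} (hx : 7 / 16 ≤ ‖x‖) : om i x = 0 := by
  unfold om
  rw [ContDiffBump.normed_def, (b3 i).zero_of_le_dist, zero_div]
  have h1 := norm_sub_norm_le x ((5 / 16 : ℝ) • (bs i : E m))
  rw [norm_center] at h1
  rw [dist_eq_norm]
  have h2 : (b3 i).rOut = 1 / 8 := rfl
  rw [h2]
  linarith

lemma om_zero2 (i : Fin m) {x : E m} (hx : ‖x‖ ≤ 1 / 8) : om i x = 0 := by
  unfold om
  rw [ContDiffBump.normed_def, (b3 i).zero_of_le_dist, zero_div]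
  have h1 := norm_sub_norm_le ((5 / 16 : ℝ) • (bs i : E m)) x
  rw [norm_center] at h1
  rw [dist_comm, dist_eq_norm]
  have h2 : (b3 i).rOut = 1 / 8 := rfl
  rw [h2]
  linarith

lemma contDiff_om (i : Fin m) : ContDiff ℝ ∞ (om i) := (b3 i).contDiff_normed

lemma mn_om (i : Fin m) : mn (per (om i)) = 1 := by
  unfold mn
  rw [fc_per (contDiff_om i).continuous (fun x hx => om_zero1 i hx), Real.fourier_eq']
  have h0 : vec (0 : Fin m → ℤ) = 0 := by
    ext i
    simp [vec]
  rw [h0]
  simp only [inner_zero_right, mul_zero, Complex.ofReal_zero, zero_mul, Complex.exp_zero, one_smul]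
  rw [integral_complex_ofReal, Complex.ofReal_re]
  exact (b3 i).integral_normed

/-- smooth functions have finite weighted norms -/
lemma N_per_ne_top {F : E m → ℝ} (hF : ContDiff ℝ ∞ F) (hs : Sup F) (q : ℕ) :
    N (wt q 0 0) (per F) ≠ ⊤ := by
  obtain ⟨C, hC0, hC⟩ := N_per_le m q
  have hcs : HasCompactSupport F := by
    refine HasCompactSupport.intro (isCompact_closedBall (0 : E m) (7 / 16)) fun x hx => ?_
    rw [Metric.mem_closedBall, dist_zero_right, not_le] at hx
    exact hs x hx.le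
  have hb : ∀ j, ∃ B, ∀ x, ‖iteratedFDeriv ℝ j F x‖ ≤ B := fun j =>
    (hcs.iteratedFDeriv j).exists_bound_of_continuous
      (hF.continuous_iteratedFDeriv (by exact_mod_cast le_top))
  choose B hB using hb
  have hB0 : ∀ j, 0 ≤ B j := fun j => (norm_nonneg _).trans (hB j 0)
  refine ne_top_of_le_ne_top ENNReal.ofReal_ne_top
    (hC F hF hs (∑ j ∈ Finset.range (q + 2 * m + 1), B j) fun j hj x => ?_)
  exact (hB j x).trans (Finset.single_le_sum (f := B) (fun j _ => hB0 j)
    (Finset.mem_range.2 (by omega)))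

end

end Vale.Agent.P214.REF
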