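import Vale.Agent.P214.REF.Glob

/-!
# P214, block REF2W: pairings, transposed multipliers, Taylor remainder
-/

open MvPolynomial MeasureTheory
open scoped ENNReal ContDiff FourierTransform ComplexConjugate

namespace Vale.Agent.P214.REF

noncomputable section

variable {m n : ℕ}

/-! ### Fourier coefficients of derivatives -/

lemma hcsD {F : E m → ℝ} (hs : Sup F) : HasCompactSupport F := by
  refine HasCompactSupport.intro (isCompact_closedBall (0 : E m) (7 / 16)) fun x hx => ?_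
  rw [Metric.mem_closedBall, dist_zero_right, not_le] at hx
  exact hs x hx.le

lemma fc_per_pd {u : E m → ℝ} (hu : ContDiff ℝ ∞ u) (hs : Sup u) (hs' : ∀ i, Sup (pd i u))
    (i : Fin m) (k : Fin m → ℤ) :
    fc (per (pd i u)) k = (2 * Real.pi * Complex.I * (k i)) * fc (per u) k := by
  rw [fc_per (contDiff_pd hu i).continuous (hs' i), fc_per hu.continuous hs]
  set f : E m → ℂ := fun x => (u x : ℂ) with hf
  have hfc : ContDiff ℝ ∞ f := Complex.ofRealCLM.contDiff.comp hu
  have h1 := Real.fourier_fderiv (f := f) (hfc.continuous.integrable_of_hasCompactSupport (hcs hs))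
    (hfc.differentiable (by simp))
    ((hfc.fderiv_right (m := ∞) (by simp)).continuous.integrable_of_hasCompactSupport
      ((hcs hs).fderiv (𝕜 := ℝ)))
  have h4 : Integrable (fderiv ℝ f) :=
    (hfc.fderiv_right (m := ∞) (by simp)).continuous.integrable_of_hasCompactSupport
      ((hcs hs).fderiv (𝕜 := ℝ))
  have h5 : (fun x : E m => ((pd i u x : ℝ) : ℂ)) = fun x => fderiv ℝ f x (bs i) := by
    funext x
    have h3 : fderiv ℝ f x = Complex.ofRealCLM.comp (fderiv ℝ u x) :=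
      (Complex.ofRealCLM.hasFDerivAt.comp x
        ((hu.differentiable (by simp)).differentiableAt.hasFDerivAt)).fderiv
    rw [h3]
    rfl
  rw [h5, ← Real.fourier_continuousLinearMap_apply h4, h1]
  simp only [VectorFourier.fourierSMulRight_apply]
  have h6 : ((-innerSL ℝ : E m →L[ℝ] E m →L[ℝ] ℝ) (vec k)) (bs i) = -(k i : ℝ) := by
    change -(inner ℝ (vec k) (bs i)) = _
    congr 1
    unfold vec bs
    rw [EuclideanSpace.inner_single_right]
    simp
  rw [h6]
  rw [Complex.real_smul, smul_eq_mul]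
  push_cast
  ring

/-- the weighted norm of a derivative -/
lemma N_per_pd {u : E m → ℝ} (hu : ContDiff ℝ ∞ u) (hs : Sup u) (hs' : ∀ i, Sup (pd i u))
    (i : Fin m) (q : ℕ) :
    N (wt q 0 0) (per (pd i u)) ≤ ENNReal.ofReal (2 * Real.pi) * N (wt (q + 1) 0 0) (per u) := by
  unfold N
  rw [← ENNReal.tsum_mul_left]
  refine ENNReal.tsum_le_tsum fun k => ?_
  rw [fc_per_pd hu hs hs', ← ofReal_norm, ← ofReal_norm, norm_mul, norm_fac]
  unfold wt
  rw [← ENNReal.ofReal_mul (by positivity), ← ENNReal.ofReal_mul (norm_nonneg _),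
    ← ENNReal.ofReal_mul (by positivity)]
  refine ENNReal.ofReal_le_ofReal ?_
  unfold wr
  have h0 := sz_nonneg k
  have h1 := abs_le_sz k i
  have hpi := Real.pi_pos
  calc 2 * Real.pi * |(k i : ℝ)| * ‖fc (per u) k‖ * ((1 + sz k) ^ q * (1 + 0 * sz k) ^ 0)
      ≤ 2 * Real.pi * (1 + sz k) * ‖fc (per u) k‖ * ((1 + sz k) ^ q * (1 + 0 * sz k) ^ 0) := by
        gcongr
        linarith
    _ = _ := by ring

/-! ### real multipliers -/

lemma fc_conj (f : C(Tor m, ℝ)) (k : Fin m → ℤ) : conj (fc f (-k)) = fc f k := by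
  have h1 : fc f k = cf (star (toC f)) k := by
    unfold fc
    congr 1
    ext t
    simp
  rw [h1, cf_conj]
  rfl

lemma fc_Ml {μ : (Fin m → ℤ) → ℂ} (hμ : ∀ k, conj (μ (-k)) = μ k) {f : C(Tor m, ℝ)}
    (hs : Summable fun k => μ k * fc f k) (k : Fin m → ℤ) : fc (Ml μ f) k = μ k * fc f k := by
  unfold Ml
  rw [fc_rp, cf_fs hs, cf_fs hs, map_mul, hμ, fc_conj]
  ring

lemma sq2_neg (k : Fin m → ℤ) : sq2 (-k) = sq2 k := by
  simp [sq2]

lemma zh_neg (k : Fin m → ℤ) : zh (-k) = zh k := by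
  unfold zh
  rw [sq2_neg]

lemma muS_neg (i : Fin m) (k : Fin m → ℤ) : muS i (-k) = -muS i k := by
  unfold muS
  rw [zh_neg]
  simp only [Pi.neg_apply]
  push_cast
  ring

lemma muS_conj (i : Fin m) (k : Fin m → ℤ) : conj (muS i (-k)) = muS i k := by
  rw [muS_neg]
  unfold muS
  simp only [map_neg, map_mul, Complex.conj_ofReal, Complex.conj_I, map_ofNat, map_intCast]
  ring

lemma muR_neg (i j : Fin m) (k : Fin m → ℤ) : muR i j (-k) = muR i j k := by
  unfold muR
  rw [zh_neg]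
  simp only [Pi.neg_apply]
  push_cast
  ring

lemma muR_conj (i j : Fin m) (k : Fin m → ℤ) : conj (muR i j (-k)) = muR i j k := by
  rw [muR_neg]
  unfold muR
  simp only [map_mul, Complex.conj_ofReal, Complex.conj_I, map_ofNat, map_intCast]
  ring

/-- the symbol of the inverse Laplace operator, complex -/
def muZ (k : Fin m → ℤ) : ℂ := (zh k : ℂ)

lemma muZ_neg (k : Fin m → ℤ) : muZ (-k) = muZ k := by
  unfold muZ
  rw [zh_neg]

lemma muZ_conj (k : Fin m → ℤ) : conj (muZ (-k)) = muZ k := by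
  rw [muZ_neg]
  unfold muZ
  rw [Complex.conj_ofReal]

lemma norm_muZ_le (k : Fin m → ℤ) : ‖muZ k‖ ≤ 1 := by
  unfold muZ
  rw [Complex.norm_real, Real.norm_eq_abs]
  exact abs_zh_le k

/-! ### the pairing -/

/-- the pairing of two functions on the torus -/
def pr (f g : C(Tor m, ℝ)) : ℝ := mn (f * g)

lemma mn_add (f g : C(Tor m, ℝ)) : mn (f + g) = mn f + mn g := by
  unfold mn
  rw [fc_add, Complex.add_re]

lemma mn_smul (c : ℝ) (f : C(Tor m, ℝ)) : mn (c • f) = c * mn f := by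
  unfold mn
  rw [fc_smul, Complex.re_ofReal_mul]

lemma pr_comm (f g : C(Tor m, ℝ)) : pr f g = pr g f := by
  unfold pr
  rw [mul_comm]

lemma pr_add_left (f f' g : C(Tor m, ℝ)) : pr (f + f') g = pr f g + pr f' g := by
  unfold pr
  rw [add_mul, mn_add]

lemma pr_add_right (f g g' : C(Tor m, ℝ)) : pr f (g + g') = pr f g + pr f g' := by
  unfold pr
  rw [mul_add, mn_add]

lemma pr_sub_left (f f' g : C(Tor m, ℝ)) : pr (f - f') g = pr f g - pr f' g := by
  unfold pr
  rw [sub_mul, mn_sub]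

lemma pr_sub_right (f g g' : C(Tor m, ℝ)) : pr f (g - g') = pr f g - pr f g' := by
  unfold pr
  rw [mul_sub, mn_sub]

lemma pr_neg_right (f g : C(Tor m, ℝ)) : pr f (-g) = -pr f g := by
  unfold pr
  rw [mul_neg, mn_neg]

lemma pr_zero_left (g : C(Tor m, ℝ)) : pr 0 g = 0 := by
  unfold pr
  rw [zero_mul, mn_zero]

lemma pr_zero_right (g : C(Tor m, ℝ)) : pr g 0 = 0 := by
  rw [pr_comm, pr_zero_left]

lemma pr_mul (f g h : C(Tor m, ℝ)) : pr (f * g) h = pr g (f * h) := by
  unfold pr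
  congr 1
  ring

lemma pr_sum_left {ι : Type*} (s : Finset ι) (f : ι → C(Tor m, ℝ)) (g : C(Tor m, ℝ)) :
    pr (∑ i ∈ s, f i) g = ∑ i ∈ s, pr (f i) g := by
  classical
  induction s using Finset.induction_on with
  | empty => simp [pr_zero_left]
  | insert i s hi ih => rw [Finset.sum_insert hi, Finset.sum_insert hi, pr_add_left, ih]

lemma pr_sum_right {ι : Type*} (s : Finset ι) (f : ι → C(Tor m, ℝ)) (g : C(Tor m, ℝ)) :
    pr g (∑ i ∈ s, f i) = ∑ i ∈ s, pr g (f i) := by
  rw [pr_comm, pr_sum_left]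
  exact Finset.sum_congr rfl fun i _ => pr_comm _ _

lemma abs_pr_le (f g : C(Tor m, ℝ)) : |pr f g| ≤ ‖f‖ * ‖g‖ := by
  unfold pr mn
  calc |(fc (f * g) 0).re| ≤ ‖fc (f * g) 0‖ := Complex.abs_re_le_norm _
    _ ≤ ‖f * g‖ := norm_fc_le _ _
    _ ≤ ‖f‖ * ‖g‖ := norm_mul_le _ _

/-- transposed multipliers -/
lemma pr_Ml {μ μ' : (Fin m → ℤ) → ℂ} (hμ : ∀ k, conj (μ (-k)) = μ k)
    (hμ' : ∀ k, conj (μ' (-k)) = μ' k) (ht : ∀ k, μ' (-k) = μ k) {f g : C(Tor m, ℝ)}
    (hf : Summable fun k => μ k * fc f k) (hg : Summable fun k => μ' k * fc g k)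
    (hf' : Summable (fc f)) :
    pr (Ml μ f) g = pr f (Ml μ' g) := by
  have h1 : HasSum (fun l => fc (Ml μ f) l * fc g (0 - l)) (fc (Ml μ f * g) 0) := by
    have h2 : Summable (cf (toC (Ml μ f))) := by
      have : (fun k => μ k * fc f k) = cf (toC (Ml μ f)) := by
        funext k
        exact (fc_Ml hμ hf k).symm
      rw [← this]
      exact hf
    have h3 := hasSum_cf_mul h2 (toC g) 0
    rw [← toC_mul] at h3
    exact h3
  have h4 : HasSum (fun l => fc f l * fc (Ml μ' g) (0 - l)) (fc (f * Ml μ' g) 0) := by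
    have h3 := hasSum_cf_mul (g := toC f) hf' (toC (Ml μ' g)) 0
    rw [← toC_mul] at h3
    exact h3
  have h5 : (fun l => fc (Ml μ f) l * fc g (0 - l)) = fun l => fc f l * fc (Ml μ' g) (0 - l) := by
    funext l
    rw [fc_Ml hμ hf, fc_Ml hμ' hg, zero_sub, ht]
    ring
  rw [h5] at h1
  unfold pr mn
  rw [h1.unique h4]

lemma Wt.pr_R {w : (Fin m → ℤ) → ℝ≥0∞} (hw : Wt w) {f g : C(Tor m, ℝ)} (hf : N w f ≠ ⊤)
    (hg : N w g ≠ ⊤) (i j : Fin m) : pr (Ml (muR i j) f) g = pr f (Ml (muR i j) g) :=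
  pr_Ml (muR_conj i j) (muR_conj i j) (muR_neg i j) (hw.summable_mul (norm_muR_le i j) hf)
    (hw.summable_mul (norm_muR_le i j) hg) (hw.summable hf)

lemma Wt.pr_Z {w : (Fin m → ℤ) → ℝ≥0∞} (hw : Wt w) {f g : C(Tor m, ℝ)} (hf : N w f ≠ ⊤)
    (hg : N w g ≠ ⊤) : pr (Ml muZ f) g = pr f (Ml muZ g) :=
  pr_Ml muZ_conj muZ_conj muZ_neg (hw.summable_mul norm_muZ_le hf)
    (hw.summable_mul norm_muZ_le hg) (hw.summable hf)

lemma Wt.pr_S {w : (Fin m → ℤ) → ℝ≥0∞} (hw : Wt w) {f g : C(Tor m, ℝ)} (hf : N w f ≠ ⊤)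
    (hg : N w g ≠ ⊤) (i : Fin m) : pr (Ml (muS i) f) g = -pr f (Ml (muS i) g) := by
  have h1 : pr (Ml (muS i) f) g = pr f (Ml (fun k => -muS i k) g) := by
    refine pr_Ml (muS_conj i) (fun k => ?_) (fun k => ?_) (hw.summable_mul (norm_muS_le i) hf)
      (hw.summable_mul (fun k => ?_) hg) (hw.summable hf)
    · rw [map_neg, muS_conj]
    · rw [muS_neg, neg_neg]
    · rw [norm_neg]
      exact norm_muS_le i k
  rw [h1, ← pr_neg_right]
  congr 1
  unfold Ml fs
  ext t
  simp only [rp_apply, ContinuousMap.neg_apply]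
  have h2 : (fun k => (-muS i k * fc g k) • (UnitAddTorus.mFourier k : C(Tor m, ℂ))) =
      fun k => -((muS i k * fc g k) • (UnitAddTorus.mFourier k : C(Tor m, ℂ))) := by
    funext k
    ext t
    simp
  rw [h2, tsum_neg]
  simp

/-- the mean value of a periodisation -/
lemma mn_per {F : E m → ℝ} (hF : Continuous F) (hs : Sup F) : mn (per F) = ∫ x, F x := by
  unfold mn
  rw [fc_per hF hs, Real.fourier_eq']
  have h0 : vec (0 : Fin m → ℤ) = 0 := by
    ext i
    simp [vec]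
  rw [h0]
  simp only [inner_zero_right, mul_zero, Complex.ofReal_zero, zero_mul, Complex.exp_zero, one_smul]
  rw [integral_complex_ofReal, Complex.ofReal_re]

lemma qt_repE (t : Tor m) : qt (repE t) = t := by
  funext i
  exact coe_rep (t i)

lemma per_mul_torus {F : E m → ℝ} (hF : Continuous F) (hs : Sup F) (f : C(Tor m, ℝ))
    {G : E m → ℝ} (hG : Continuous G) (hGf : ∀ x, G x = f (qt x)) :
    per (fun x => F x * G x) = per F * f := by
  ext t
  have h1 : per (fun x => F x * G x) t = F (repE t) * G (repE t) :=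
    per_apply (F := fun x => F x * G x) (hF.mul hG) (fun x hx => by simp only [hs x hx, zero_mul]) t
  rw [h1, ContinuousMap.mul_apply, per_apply hF hs, hGf, qt_repE]

lemma pr_per {F : E m → ℝ} (hF : Continuous F) (hs : Sup F) (f : C(Tor m, ℝ))
    {G : E m → ℝ} (hG : Continuous G) (hGf : ∀ x, G x = f (qt x)) :
    pr (per F) f = ∫ x, F x * G x := by
  unfold pr
  rw [← per_mul_torus hF hs f hG hGf]
  exact mn_per (F := fun x => F x * G x) (hF.mul hG)
    (fun x hx => by simp only [hs x hx, zero_mul])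

lemma continuous_qt : Continuous (qt : E m → Tor m) := by
  refine continuous_pi fun i => ?_
  exact (AddCircle.continuous_mk' 1).comp (PiLp.continuous_apply 2 _ i)

end

end Vale.Agent.P214.REF
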