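import Vale.Agent.P214.REF.Wts

/-!
# P214, block REF: periodisation of a smooth function supported in a small ball
-/

open MeasureTheory UnitAddTorus
open scoped ENNReal ContDiff FourierTransform

namespace Vale.Agent.P214.REF

noncomputable section

local instance instMSp : MeasureSpace UnitAddCircle := ⟨AddCircle.haarAddCircle⟩

local instance instHaarp : Measure.IsAddHaarMeasure (volume : Measure UnitAddCircle) :=
  inferInstanceAs (Measure.IsAddHaarMeasure AddCircle.haarAddCircle)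

local instance instProbp : IsProbabilityMeasure (volume : Measure UnitAddCircle) :=
  inferInstanceAs (IsProbabilityMeasure AddCircle.haarAddCircle)

variable {m : ℕ}

/-- Euclidean space -/
abbrev E (m : ℕ) : Type := EuclideanSpace ℝ (Fin m)

/-- projection to the torus -/
def qt (x : E m) : Tor m := fun i => (x i : UnitAddCircle)

/-- the representative in `(-1/2, 1/2]` -/
def rep (t : UnitAddCircle) : ℝ := (AddCircle.equivIoc 1 (-(1 / 2) : ℝ) t : ℝ)

/-- the representative in the box -/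
def repE (t : Tor m) : E m := WithLp.toLp 2 fun i => rep (t i)

lemma rep_mem (t : UnitAddCircle) : rep t ∈ Set.Ioc (-(1 / 2) : ℝ) (-(1 / 2) + 1) :=
  (AddCircle.equivIoc 1 (-(1 / 2) : ℝ) t).2

lemma coe_rep (t : UnitAddCircle) : ((rep t : ℝ) : UnitAddCircle) = t := AddCircle.coe_equivIoc

lemma rep_coe {x : ℝ} (hx : x ∈ Set.Ioc (-(1 / 2) : ℝ) (-(1 / 2) + 1)) :
    rep (x : UnitAddCircle) = x := by
  unfold rep
  rw [AddCircle.equivIoc_coe_eq hx]

lemma abs_rep (t : UnitAddCircle) : |rep t| = ‖t‖ := by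
  have h := rep_mem t
  have h1 : ‖((rep t : ℝ) : AddCircle (1 : ℝ))‖ = |rep t| := by
    rw [AddCircle.norm_coe_eq_abs_iff (1 : ℝ) one_ne_zero, abs_one, abs_le]
    constructor <;> linarith [h.1, h.2]
  rw [← h1]
  congr 1
  exact coe_rep t

lemma abs_coord_le (x : E m) (i : Fin m) : |x i| ≤ ‖x‖ := by
  have := PiLp.norm_apply_le (p := 2) x i
  rwa [Real.norm_eq_abs] at this

lemma repE_qt {x : E m} (hx : ‖x‖ < 1 / 2) : repE (qt x) = x := by
  ext i
  have h1 : |x i| < 1 / 2 := (abs_coord_le x i).trans_lt hx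
  have h2 := abs_lt.1 h1
  exact rep_coe ⟨h2.1, by linarith [h2.2]⟩

/-- vanishing outside of the ball of radius `7/16` -/
def Sup (F : E m → ℝ) : Prop := ∀ x, 7 / 16 ≤ ‖x‖ → F x = 0

lemma continuousAt_rep {t : UnitAddCircle} (ht : ‖t‖ ≤ 7 / 16) : ContinuousAt rep t := by
  have h1 : t ≠ ((-(1 / 2) : ℝ) : UnitAddCircle) := by
    intro h
    have h2 : ‖(((-(1 / 2) : ℝ)) : AddCircle (1 : ℝ))‖ = |(-(1 / 2) : ℝ)| := by
      rw [AddCircle.norm_coe_eq_abs_iff (1 : ℝ) one_ne_zero]
      norm_num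
    have h3 : ‖t‖ = 1 / 2 := by
      rw [h]
      refine h2.trans ?_
      norm_num
    linarith
  exact continuous_subtype_val.continuousAt.comp (AddCircle.continuousAt_equivIoc 1 _ h1)

lemma continuous_per {F : E m → ℝ} (hF : Continuous F) (hs : Sup F) :
    Continuous fun t : Tor m => F (repE t) := by
  rw [continuous_iff_continuousAt]
  intro t
  by_cases h : ∃ i, 7 / 16 < ‖t i‖
  · obtain ⟨i, hi⟩ := h
    have h1 : (fun t : Tor m => F (repE t)) =ᶠ[nhds t] fun _ => 0 := by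
      have h2 : {s : Tor m | 7 / 16 < ‖s i‖} ∈ nhds t :=
        (isOpen_lt continuous_const (continuous_norm.comp (continuous_apply i))).mem_nhds hi
      filter_upwards [h2] with s hs2
      refine hs _ ?_
      have h3 := abs_coord_le (repE s) i
      have h4 : |(repE s) i| = ‖s i‖ := abs_rep (s i)
      rw [h4] at h3
      exact hs2.le.trans h3
    exact continuousAt_const.congr h1.symm
  · push Not at h
    refine hF.continuousAt.comp ?_
    refine (PiLp.continuous_toLp 2 _).continuousAt.comp ?_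
    refine continuousAt_pi.2 fun i => ?_
    exact ContinuousAt.comp (g := rep) (f := fun s : Tor m => s i) (continuousAt_rep (h i))
      (continuous_apply i).continuousAt

open Classical in
/-- the periodisation -/
def per (F : E m → ℝ) : C(Tor m, ℝ) :=
  if h : Continuous fun t : Tor m => F (repE t) then ⟨_, h⟩ else 0

lemma per_apply {F : E m → ℝ} (hF : Continuous F) (hs : Sup F) (t : Tor m) :
    per F t = F (repE t) := by
  unfold per
  rw [dif_pos (continuous_per hF hs)]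
  rfl

lemma per_qt {F : E m → ℝ} (hF : Continuous F) (hs : Sup F) {x : E m} (hx : ‖x‖ < 1 / 2) :
    per F (qt x) = F x := by
  rw [per_apply hF hs, repE_qt hx]

/-- an integer vector as a vector -/
def vec (k : Fin m → ℤ) : E m := WithLp.toLp 2 fun i => (k i : ℝ)

lemma mFourier_coe (k : Fin m → ℤ) (x : Fin m → ℝ) :
    mFourier k (fun i => (x i : UnitAddCircle)) =
      Complex.exp ((2 * Real.pi * ∑ i, (k i : ℝ) * x i : ℝ) * Complex.I) := by
  have h1 : mFourier k (fun i => (x i : UnitAddCircle)) =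
      ∏ i, fourier (k i) (x i : UnitAddCircle) := rfl
  rw [h1]
  have h2 : ∀ i, fourier (k i) (x i : UnitAddCircle) =
      Complex.exp (2 * Real.pi * Complex.I * (k i) * (x i)) := by
    intro i
    rw [fourier_coe_apply]
    simp
  rw [Finset.prod_congr rfl fun i _ => h2 i, ← Complex.exp_sum]
  congr 1
  push_cast
  rw [Finset.mul_sum, Finset.sum_mul]
  refine Finset.sum_congr rfl fun i _ => ?_
  ring

lemma fc_per {F : E m → ℝ} (hF : Continuous F) (hs : Sup F) (k : Fin m → ℤ) :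
    fc (per F) k = 𝓕 (fun x : E m => (F x : ℂ)) (vec k) := by
  have h1 : fc (per F) k = mFourierCoeff (fun t : Tor m => ((F (repE t) : ℝ) : ℂ)) k := by
    unfold fc cf
    congr 1
    ext t
    rw [toC_apply, per_apply hF hs]
  rw [h1, mFourierCoeff_eq_integral _ _ fun _ => (-(1 / 2) : ℝ), Real.fourier_eq']
  rw [← (PiLp.volume_preserving_toLp (Fin m)).integral_comp
    (MeasurableEquiv.toLp 2 (Fin m → ℝ)).measurableEmbedding]
  refine Eq.trans ?_ (setIntegral_eq_integral_of_forall_compl_eq_zero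
    (s := {x : Fin m → ℝ | ∀ i, x i ∈ Set.Ioc (-(1 / 2) : ℝ) (-(1 / 2) + 1)}) ?_)
  · refine setIntegral_congr_fun (MeasurableSet.univ_pi'
      fun i => (measurableSet_Ioc : MeasurableSet (Set.Ioc (-(1 / 2) : ℝ) (-(1 / 2) + 1)))) ?_
    intro x hx
    simp only
    have h2 : repE (fun i => ((x i : ℝ) : UnitAddCircle)) = WithLp.toLp 2 x := by
      ext i
      exact rep_coe (hx i)
    rw [h2, mFourier_coe]
    congr 2
    congr 2
    rw [PiLp.inner_apply]
    simp only [Pi.neg_apply, Int.cast_neg, vec, RCLike.inner_apply, conj_trivial, neg_mul]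
    rw [Finset.sum_neg_distrib]
    ring
  · intro x hx
    have h3 : F (WithLp.toLp 2 x) = 0 := by
      refine hs _ ?_
      by_contra hc
      push Not at hc
      refine hx fun i => ?_
      have h4 := abs_coord_le (WithLp.toLp 2 x) i
      have h5 : |x i| < 1 / 2 := by
        refine (h4.trans_lt hc).trans (by norm_num)
      have h6 := abs_lt.1 h5
      exact ⟨h6.1, by linarith [h6.2]⟩
    rw [h3]
    simp

/-! ### decay of the coefficients -/

lemma sz_le (k : Fin m → ℤ) : sz k ≤ m * ‖vec k‖ := by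
  unfold sz
  calc ∑ i, |(k i : ℝ)| ≤ ∑ i : Fin m, ‖vec k‖ := Finset.sum_le_sum fun i _ => abs_coord_le (vec k) i
    _ = m * ‖vec k‖ := by simp

lemma hcs {F : E m → ℝ} (hs : Sup F) : HasCompactSupport fun x => (F x : ℂ) := by
  refine HasCompactSupport.intro (isCompact_closedBall (0 : E m) (7 / 16)) fun x hx => ?_
  rw [hs x, Complex.ofReal_zero]
  rw [Metric.mem_closedBall, dist_zero_right, not_le] at hx
  exact hx.le

lemma norm_iter_ofReal {F : E m → ℝ} (hF : ContDiff ℝ ∞ F) (j : ℕ) (x : E m) :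
    ‖iteratedFDeriv ℝ j (fun x => (F x : ℂ)) x‖ = ‖iteratedFDeriv ℝ j F x‖ := by
  have := Complex.ofRealLI.norm_iteratedFDeriv_comp_left (hF.contDiffAt (x := x)) (i := j)
    (by exact_mod_cast le_top)
  exact this

lemma fourier_decay (q : ℕ) : ∃ C : ℝ, 0 ≤ C ∧ ∀ F : E m → ℝ, ContDiff ℝ ∞ F → Sup F → ∀ M : ℝ,
    (∀ j ≤ q, ∀ x, ‖iteratedFDeriv ℝ j F x‖ ≤ M) → ∀ k : Fin m → ℤ,
      (1 + sz k) ^ q * ‖fc (per F) k‖ ≤ C * M := by
  set V : ℝ := (volume : Measure (E m)).real (Metric.closedBall 0 (7 / 16)) with hV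
  have hV0 : 0 ≤ V := measureReal_nonneg
  -- bound for each power
  have key : ∀ r ≤ q, ∀ F : E m → ℝ, ContDiff ℝ ∞ F → Sup F → ∀ M : ℝ,
      (∀ j ≤ q, ∀ x, ‖iteratedFDeriv ℝ j F x‖ ≤ M) → ∀ k : Fin m → ℤ,
      ‖vec k‖ ^ r * ‖fc (per F) k‖ ≤ 2 ^ r * ((r + 1) * (M * V)) := by
    intro r hr F hF hs M hM k
    have hint : ∀ j, Integrable (iteratedFDeriv ℝ j fun x => (F x : ℂ)) := by
      intro j
      refine Continuous.integrable_of_hasCompactSupport ?_ ((hcs hs).iteratedFDeriv j)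
      have hFC : ContDiff ℝ ∞ fun x => (F x : ℂ) := Complex.ofRealCLM.contDiff.comp hF
      exact hFC.continuous_iteratedFDeriv (by exact_mod_cast le_top)
    have h1 := Real.pow_mul_norm_iteratedFDeriv_fourier_le (K := 0) (N := (⊤ : ℕ∞))
      (f := fun x : E m => (F x : ℂ)) (Complex.ofRealCLM.contDiff.comp hF) (by
        intro k j hk _
        have hk0 : k = 0 := by simpa using hk
        subst hk0
        simpa using (hint j).norm) (k := 0) (n := r) (by simp) le_top (vec k)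
    rw [← norm_iteratedFDeriv_zero (𝕜 := ℝ) (f := fun _ : E m => fc (per F) k) (x := vec k)]
    rw [norm_iteratedFDeriv_zero, fc_per hF.continuous hs]
    rw [norm_iteratedFDeriv_zero] at h1
    refine h1.trans ?_
    have h2 : ∀ j ≤ r, ∫ v : E m, ‖iteratedFDeriv ℝ j (fun x => (F x : ℂ)) v‖ ≤ M * V := by
      intro j hj
      rw [← setIntegral_eq_integral_of_forall_compl_eq_zero (s := Metric.closedBall 0 (7 / 16))]
      · refine (le_abs_self _).trans ?_
        rw [← Real.norm_eq_abs]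
        refine norm_setIntegral_le_of_norm_le_const measure_closedBall_lt_top fun x _ => ?_
        rw [norm_norm, norm_iter_ofReal hF]
        exact hM j (hj.trans hr) x
      · intro x hx
        rw [norm_eq_zero]
        by_contra hc
        have h3 := support_iteratedFDeriv_subset j (Function.mem_support.2 hc)
        refine hx ?_
        refine closure_minimal ?_ Metric.isClosed_closedBall h3
        intro y hy
        rw [Metric.mem_closedBall, dist_zero_right]
        by_contra hc2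
        push Not at hc2
        refine hy ?_
        simp only
        rw [hs y hc2.le, Complex.ofReal_zero]
    have h4 : ∑ p ∈ Finset.range (0 + 1) ×ˢ Finset.range (r + 1),
        ∫ v : E m, ‖v‖ ^ p.1 * ‖iteratedFDeriv ℝ p.2 (fun x => (F x : ℂ)) v‖ ≤
        (r + 1) * (M * V) := by
      rw [Finset.sum_product]
      simp only [zero_add, Finset.range_one, Finset.sum_singleton, pow_zero, one_mul]
      calc _ ≤ ∑ j ∈ Finset.range (r + 1), M * V := Finset.sum_le_sum fun j hj =>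
            h2 j (Nat.lt_succ_iff.1 (Finset.mem_range.1 hj))
        _ = (r + 1) * (M * V) := by simp
    calc _ ≤ (2 * Real.pi) ^ 0 * (2 * ((0 : ℕ) : ℝ) + 2) ^ r * ((r + 1) * (M * V)) := by gcongr
      _ = _ := by simp
  refine ⟨2 ^ q * ((V + m ^ q * (2 ^ q * ((q + 1) * V)))), by positivity, ?_⟩
  intro F hF hs M hM k
  have hM0 : 0 ≤ M := (norm_nonneg _).trans (hM 0 (Nat.zero_le _) 0)
  have h0 := key 0 (Nat.zero_le _) F hF hs M hM k
  have hq := key q le_rfl F hF hs M hM k
  have hs0 := sz_nonneg k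
  have h5 : (1 + sz k) ^ q ≤ 2 ^ q * (1 + m ^ q * ‖vec k‖ ^ q) := by
    calc (1 + sz k) ^ q ≤ 2 ^ q * (1 ^ q + sz k ^ q) := by
          refine (add_pow_le zero_le_one hs0 q).trans ?_
          have : (2 : ℝ) ^ (q - 1) ≤ 2 ^ q := pow_le_pow_right₀ one_le_two (Nat.sub_le _ _)
          gcongr
      _ ≤ _ := by
          rw [one_pow, ← mul_pow]
          gcongr
          exact sz_le k
  calc (1 + sz k) ^ q * ‖fc (per F) k‖ ≤ 2 ^ q * (1 + m ^ q * ‖vec k‖ ^ q) * ‖fc (per F) k‖ := by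
        gcongr
    _ = 2 ^ q * (‖vec k‖ ^ 0 * ‖fc (per F) k‖ + m ^ q * (‖vec k‖ ^ q * ‖fc (per F) k‖)) := by ring
    _ ≤ 2 ^ q * (2 ^ 0 * ((((0 : ℕ) : ℝ) + 1) * (M * V)) + m ^ q * (2 ^ q * ((q + 1) * (M * V)))) := by
        gcongr
    _ = _ := by
        push_cast
        ring

/-! ### summability over the integer vectors -/

lemma tsum_pi_ne_top (a : ℤ → ℝ≥0∞) (ha : ∑' n, a n ≠ ⊤) (m : ℕ) :
    ∑' k : Fin m → ℤ, ∏ i, a (k i) ≠ ⊤ := by
  induction m with
  | zero =>
    rw [tsum_eq_single default (fun b hb => absurd (Subsingleton.elim b default) hb)]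
    simp
  | succ m ih =>
    rw [← (Fin.consEquiv fun _ : Fin (m + 1) => ℤ).tsum_eq]
    have h1 : ∀ p : ℤ × (Fin m → ℤ), ∏ i, a ((Fin.consEquiv fun _ : Fin (m + 1) => ℤ) p i) =
        a p.1 * ∏ i, a (p.2 i) := by
      intro p
      rw [Fin.prod_univ_succ]
      simp [Fin.consEquiv]
    simp only [h1]
    rw [ENNReal.tsum_prod']
    simp only [ENNReal.tsum_mul_left, ENNReal.tsum_mul_right]
    exact ENNReal.mul_ne_top ha ih

lemma summable_sq : Summable fun n : ℤ => ((1 + |(n : ℝ)|) ^ 2)⁻¹ := by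
  have h1 : Summable fun n : ℤ => 1 / (n : ℝ) ^ 2 := Real.summable_one_div_int_pow.2 one_lt_two
  have h2 : Summable fun n : ℤ => if n = 0 then (1 : ℝ) else 0 :=
    (hasSum_ite_eq (0 : ℤ) (1 : ℝ)).summable
  refine Summable.of_nonneg_of_le (fun n => by positivity) (fun n => ?_) (h2.add h1)
  by_cases hn : n = 0
  · simp [hn]
  · rw [if_neg hn, zero_add, one_div]
    have h3 : 0 < |(n : ℝ)| := abs_pos.2 (by exact_mod_cast hn)
    rw [← sq_abs (n : ℝ)]
    gcongr
    linarith

/-- the constant of the lattice sum -/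
def lat (m : ℕ) : ℝ≥0∞ := ∑' k : Fin m → ℤ, ∏ i, ENNReal.ofReal ((1 + |(k i : ℝ)|) ^ 2)⁻¹

lemma lat_ne_top (m : ℕ) : lat m ≠ ⊤ :=
  tsum_pi_ne_top _ summable_sq.tsum_ofReal_ne_top m

lemma inv_le_prod (k : Fin m → ℤ) : ((1 + sz k) ^ (2 * m))⁻¹ ≤ ∏ i, ((1 + |(k i : ℝ)|) ^ 2)⁻¹ := by
  rw [Finset.prod_inv_distrib]
  have h0 : 0 < ∏ i, (1 + |(k i : ℝ)|) ^ 2 := Finset.prod_pos fun i _ => by positivity
  refine inv_anti₀ h0 ?_
  calc ∏ i, (1 + |(k i : ℝ)|) ^ 2 ≤ ∏ i : Fin m, (1 + sz k) ^ 2 := by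
        refine Finset.prod_le_prod (fun i _ => by positivity) fun i _ => ?_
        have : |(k i : ℝ)| ≤ sz k :=
          Finset.single_le_sum (f := fun i => |(k i : ℝ)|) (fun _ _ => abs_nonneg _)
            (Finset.mem_univ i)
        gcongr
    _ = (1 + sz k) ^ (2 * m) := by
        rw [Finset.prod_const, Finset.card_univ, Fintype.card_fin, pow_mul]

/-- bound of the weighted norm by derivatives -/
theorem N_per_le (m q : ℕ) : ∃ C : ℝ, 0 ≤ C ∧ ∀ F : E m → ℝ, ContDiff ℝ ∞ F → Sup F → ∀ M : ℝ,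
    (∀ j ≤ q + 2 * m, ∀ x, ‖iteratedFDeriv ℝ j F x‖ ≤ M) →
      N (wt q 0 0) (per F) ≤ ENNReal.ofReal (C * M) := by
  obtain ⟨C, hC0, hC⟩ := fourier_decay (m := m) (q + 2 * m)
  refine ⟨C * (lat m).toReal, by positivity, fun F hF hs M hM => ?_⟩
  have hM0 : 0 ≤ M := (norm_nonneg _).trans (hM 0 (Nat.zero_le _) 0)
  have h1 : ∀ k : Fin m → ℤ, ‖fc (per F) k‖ₑ * wt q 0 0 k ≤
      ENNReal.ofReal (C * M) * ∏ i, ENNReal.ofReal ((1 + |(k i : ℝ)|) ^ 2)⁻¹ := by
    intro k
    have h2 := hC F hF hs M hM k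
    have hs0 := sz_nonneg k
    unfold wt
    rw [← ENNReal.ofReal_prod_of_nonneg (fun i _ => by positivity),
      ← ENNReal.ofReal_mul (mul_nonneg hC0 hM0), ← ofReal_norm, ← ENNReal.ofReal_mul (norm_nonneg _)]
    refine ENNReal.ofReal_le_ofReal ?_
    unfold wr
    rw [pow_zero, mul_one]
    calc ‖fc (per F) k‖ * (1 + sz k) ^ q
        = ((1 + sz k) ^ (q + 2 * m) * ‖fc (per F) k‖) * ((1 + sz k) ^ (2 * m))⁻¹ := by
          rw [pow_add]
          field_simp
      _ ≤ (C * M) * ∏ i, ((1 + |(k i : ℝ)|) ^ 2)⁻¹ := by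
          gcongr
          exact inv_le_prod k
  calc N (wt q 0 0) (per F) ≤ ∑' k : Fin m → ℤ,
        ENNReal.ofReal (C * M) * ∏ i, ENNReal.ofReal ((1 + |(k i : ℝ)|) ^ 2)⁻¹ :=
        ENNReal.tsum_le_tsum h1
    _ = ENNReal.ofReal (C * M) * lat m := ENNReal.tsum_mul_left
    _ = ENNReal.ofReal (C * (lat m).toReal * M) := by
        rw [mul_right_comm, ENNReal.ofReal_mul (mul_nonneg hC0 hM0),
          ENNReal.ofReal_toReal (lat_ne_top m)]

end

end Vale.Agent.P214.REF
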