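import Vale.Agent.P214.REF.Four

/-!
# P214, block REF: polynomial weights
-/

open scoped ENNReal

namespace Vale.Agent.P214.REF

noncomputable section

variable {m : ℕ}

/-- size of an integer vector -/
def sz (k : Fin m → ℤ) : ℝ := ∑ i, |(k i : ℝ)|

lemma sz_nonneg (k : Fin m → ℤ) : 0 ≤ sz k := Finset.sum_nonneg fun _ _ => abs_nonneg _

lemma sz_add (k l : Fin m → ℤ) : sz (k + l) ≤ sz k + sz l := by
  unfold sz
  rw [← Finset.sum_add_distrib]
  refine Finset.sum_le_sum fun i _ => ?_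
  rw [Pi.add_apply, Int.cast_add]
  exact abs_add_le _ _

lemma sz_neg (k : Fin m → ℤ) : sz (-k) = sz k := by
  simp [sz]

lemma sz_zero : sz (0 : Fin m → ℤ) = 0 := by
  simp [sz]

/-- polynomial weight, real version -/
def wr (J p : ℕ) (ε : ℝ) (k : Fin m → ℤ) : ℝ := (1 + sz k) ^ J * (1 + ε * sz k) ^ p

/-- polynomial weight -/
def wt (J p : ℕ) (ε : ℝ) (k : Fin m → ℤ) : ℝ≥0∞ := ENNReal.ofReal (wr J p ε k)

lemma one_le_wr (J p : ℕ) {ε : ℝ} (hε : 0 ≤ ε) (k : Fin m → ℤ) : 1 ≤ wr J p ε k := by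
  have h := sz_nonneg k
  have h1 : 1 ≤ (1 + sz k) ^ J := one_le_pow₀ (by linarith)
  have h2 : 1 ≤ (1 + ε * sz k) ^ p := one_le_pow₀ (by nlinarith)
  exact one_le_mul_of_one_le_of_one_le h1 h2

lemma wr_nonneg (J p : ℕ) {ε : ℝ} (hε : 0 ≤ ε) (k : Fin m → ℤ) : 0 ≤ wr J p ε k :=
  zero_le_one.trans (one_le_wr J p hε k)

lemma Wt_wt (J p : ℕ) {ε : ℝ} (hε : 0 ≤ ε) : Wt (wt (m := m) J p ε) where
  one_le k := by
    unfold wt
    rw [← ENNReal.ofReal_one]
    exact ENNReal.ofReal_le_ofReal (one_le_wr J p hε k)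
  mul k l := by
    unfold wt
    rw [← ENNReal.ofReal_mul (wr_nonneg J p hε k)]
    refine ENNReal.ofReal_le_ofReal ?_
    have hk := sz_nonneg k
    have hl := sz_nonneg l
    have hkl := sz_nonneg (k + l)
    have h1 : (1 + sz (k + l)) ^ J ≤ ((1 + sz k) * (1 + sz l)) ^ J := by
      gcongr
      have := sz_add k l
      nlinarith [mul_nonneg hk hl]
    have h2 : (1 + ε * sz (k + l)) ^ p ≤ ((1 + ε * sz k) * (1 + ε * sz l)) ^ p := by
      gcongr
      have := mul_le_mul_of_nonneg_left (sz_add k l) hε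
      nlinarith [mul_nonneg (mul_nonneg hε hk) (mul_nonneg hε hl)]
    calc wr J p ε (k + l) ≤ ((1 + sz k) * (1 + sz l)) ^ J * ((1 + ε * sz k) * (1 + ε * sz l)) ^ p := by
          unfold wr
          gcongr
      _ = _ := by
          unfold wr
          rw [mul_pow, mul_pow]
          ring
  even k := by
    unfold wt wr
    rw [sz_neg]
  zero := by
    unfold wt wr
    rw [sz_zero]
    simp
  ne_top k := ENNReal.ofReal_ne_top

lemma pow_le_convex (p : ℕ) {ε s : ℝ} (h0 : 0 ≤ ε) (h1 : ε ≤ 1) (hs : 0 ≤ s) :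
    (1 + ε * s) ^ p ≤ 1 + ε * ((1 + s) ^ p - 1) := by
  induction p with
  | zero => simp
  | succ p ih =>
    have h2 : 1 ≤ (1 + s) ^ p := one_le_pow₀ (by linarith)
    have h3 : ε * s ≤ s := by nlinarith
    calc (1 + ε * s) ^ (p + 1) = (1 + ε * s) ^ p * (1 + ε * s) := pow_succ _ _
      _ ≤ (1 + ε * ((1 + s) ^ p - 1)) * (1 + ε * s) := by
          have : 0 ≤ ε * s := mul_nonneg h0 hs
          gcongr
      _ = 1 + ε * s + ε * ((1 + s) ^ p - 1) * (1 + ε * s) := by ring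
      _ ≤ 1 + ε * s + ε * ((1 + s) ^ p - 1) * (1 + s) := by
          have : 0 ≤ ε * ((1 + s) ^ p - 1) := mul_nonneg h0 (by linarith)
          gcongr
      _ = _ := by ring

/-- the weighted norm depends on the small parameter in a controlled way -/
lemma N_wt_le (J p : ℕ) {ε : ℝ} (h0 : 0 ≤ ε) (h1 : ε ≤ 1) (f : C(Tor m, ℝ)) :
    N (wt J p ε) f ≤ N (wt J 0 0) f + ENNReal.ofReal ε * N (wt J p 1) f := by
  unfold N
  rw [← ENNReal.tsum_mul_left, ← ENNReal.tsum_add]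
  refine ENNReal.tsum_le_tsum fun k => ?_
  have h2 : wt J p ε k ≤ wt J 0 0 k + ENNReal.ofReal ε * wt J p 1 k := by
    unfold wt
    rw [← ENNReal.ofReal_mul h0, ← ENNReal.ofReal_add (wr_nonneg J 0 le_rfl k)
      (mul_nonneg h0 (wr_nonneg J p zero_le_one k))]
    refine ENNReal.ofReal_le_ofReal ?_
    unfold wr
    have h3 := pow_le_convex p h0 h1 (sz_nonneg k)
    have h4 : 0 ≤ (1 + sz k) ^ J := by
      have := sz_nonneg k
      positivity
    calc (1 + sz k) ^ J * (1 + ε * sz k) ^ p ≤ (1 + sz k) ^ J * (1 + ε * ((1 + sz k) ^ p - 1)) := by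
          gcongr
      _ ≤ (1 + sz k) ^ J * (1 + ε * (1 + sz k) ^ p) := by
          gcongr
          linarith
      _ = _ := by
          simp only [zero_mul, add_zero, pow_zero, mul_one, one_mul]
          ring
  calc ‖fc f k‖ₑ * wt J p ε k ≤ ‖fc f k‖ₑ * (wt J 0 0 k + ENNReal.ofReal ε * wt J p 1 k) := by
        gcongr
    _ = _ := by ring

/-- finiteness does not depend on the small parameter -/
lemma N_wt_one_ne_top (J p : ℕ) {ε : ℝ} (h0 : 0 < ε) (h1 : ε ≤ 1) {f : C(Tor m, ℝ)}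
    (hf : N (wt J p ε) f ≠ ⊤) : N (wt J p 1) f ≠ ⊤ := by
  have h2 : N (wt J p 1) f ≤ ENNReal.ofReal (ε⁻¹ ^ p) * N (wt J p ε) f := by
    unfold N
    rw [← ENNReal.tsum_mul_left]
    refine ENNReal.tsum_le_tsum fun k => ?_
    have h3 : wt J p 1 k ≤ ENNReal.ofReal (ε⁻¹ ^ p) * wt J p ε k := by
      unfold wt
      rw [← ENNReal.ofReal_mul (by positivity)]
      refine ENNReal.ofReal_le_ofReal ?_
      unfold wr
      have hs := sz_nonneg k
      have h4 : (1 + 1 * sz k) ^ p ≤ ε⁻¹ ^ p * (1 + ε * sz k) ^ p := by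
        rw [← mul_pow]
        gcongr
        have h5 : ε⁻¹ * (1 + ε * sz k) = ε⁻¹ + sz k := by
          field_simp
        rw [h5]
        have := one_le_inv_iff₀.2 ⟨h0, h1⟩
        linarith
      calc (1 + sz k) ^ J * (1 + 1 * sz k) ^ p ≤ (1 + sz k) ^ J * (ε⁻¹ ^ p * (1 + ε * sz k) ^ p) := by
            gcongr
        _ = _ := by ring
    calc ‖fc f k‖ₑ * wt J p 1 k ≤ ‖fc f k‖ₑ * (ENNReal.ofReal (ε⁻¹ ^ p) * wt J p ε k) := by gcongr
      _ = _ := by ring
  exact ne_top_of_le_ne_top (ENNReal.mul_ne_top ENNReal.ofReal_ne_top hf) h2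

lemma N_mono {w w' : (Fin m → ℤ) → ℝ≥0∞} (h : ∀ k, w k ≤ w' k) (f : C(Tor m, ℝ)) :
    N w f ≤ N w' f := ENNReal.tsum_le_tsum fun k => mul_le_mul_right (h k) _

lemma wt_eq (J p : ℕ) (k : Fin m → ℤ) : wt J p 1 k = wt (J + p) 0 0 k := by
  unfold wt wr
  rw [one_mul, pow_zero, mul_one, pow_add]

end

end Vale.Agent.P214.REF
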