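import Vale.Agent.P214.REF.Contr
import Vale.Agent.P214.REF.Wts

/-!
# P214, block REF: the fixed point has rapidly decaying coefficients
-/

open scoped ENNReal
open Filter Topology

namespace Vale.Agent.P214.REF

noncomputable section

variable {m n : ℕ}

lemma eventually_N_lt (J p : ℕ) {f : C(Tor m, ℝ)} (hf : N (wt J p 1) f ≠ ⊤) {r : ℝ≥0∞}
    (hr : N (wt J 0 0) f < r) : ∀ᶠ ε : ℝ in 𝓝[>] 0, N (wt J p ε) f < r := by
  have h1 : Tendsto (fun ε : ℝ => N (wt J 0 0) f + ENNReal.ofReal ε * N (wt J p 1) f) (𝓝[>] 0)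
      (𝓝 (N (wt J 0 0) f + 0 * N (wt J p 1) f)) := by
    refine Tendsto.const_add _ ?_
    refine ENNReal.Tendsto.mul_const ?_ (Or.inr hf)
    have h2 : Tendsto (fun ε : ℝ => ENNReal.ofReal ε) (𝓝 0) (𝓝 (ENNReal.ofReal 0)) :=
      (ENNReal.continuous_ofReal).tendsto 0
    rw [ENNReal.ofReal_zero] at h2
    exact h2.mono_left nhdsWithin_le_nhds
  rw [zero_mul, add_zero] at h1
  filter_upwards [h1.eventually (gt_mem_nhds hr), self_mem_nhdsWithin,
    (Ioo_mem_nhdsGT (zero_lt_one' ℝ))] with ε h3 h4 h5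
  exact (N_wt_le J p h5.1.le h5.2.le f).trans_lt h3

/-- existence of the fixed point, all weights -/
theorem exists_fixed_smooth (d : Dat m n) {C : ℝ≥0∞} (hC : PolyBd d C) (J : ℕ) {X δ e₀ : ℝ≥0∞}
    (hX : X ≠ ⊤) (hχ : N (wt J 0 0) d.χ < X) (hwm : N (wt J 0 0) d.wm < X) (h2 : 2 * δ ≤ 1)
    (hs : X * (1 + X) * (4 * m ^ 2 * C * δ) ≤ 2⁻¹) (hr : 2 * (X * (1 + X)) * e₀ < δ)
    (hP : ∀ s, N (wt J 0 0) (d.P s) < δ) (hQ : ∀ i j a, N (wt J 0 0) (d.Q i j a) < δ)
    (hD : ∀ a, N (wt J 0 0) (d.D a) ≤ e₀)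
    (fχ : ∀ p, N (wt J p 1) d.χ ≠ ⊤) (fwm : ∀ p, N (wt J p 1) d.wm ≠ ⊤)
    (fP : ∀ p s, N (wt J p 1) (d.P s) ≠ ⊤) (fQ : ∀ p i j a, N (wt J p 1) (d.Q i j a) ≠ ⊤)
    (fD : ∀ p a, N (wt J p 1) (d.D a) ≠ ⊤) :
    ∃ L : Fin n → C(Tor m, ℝ), (∀ a, d.Φ L a = L a) ∧
      (∀ a, N (wt J 0 0) (L a) ≤ 2 * (X * (1 + X) * e₀)) ∧ ∀ p a, N (wt J p 1) (L a) ≠ ⊤ := by
  have hK : ∀ w : (Fin m → ℤ) → ℝ≥0∞, N w d.χ ≤ X → N w d.wm ≤ X → d.K w ≤ X * (1 + X) := by
    intro w h1 h3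
    unfold Dat.K
    gcongr
  have hX0 : X * (1 + X) ≠ 0 := by
    have : 0 < X := bot_le.trans_lt hχ
    exact mul_ne_zero this.ne' (by simp)
  have hXt : X * (1 + X) ≠ ⊤ := ENNReal.mul_ne_top hX (ENNReal.add_ne_top.2 ⟨by simp, hX⟩)
  have base : d.Cond C (wt J 0 0) δ e₀ :=
    { wt := Wt_wt J 0 le_rfl
      two := h2
      small := by
        refine le_trans ?_ hs
        gcongr
        exact hK _ hχ.le hwm.le
      rad := by
        refine le_trans ?_ hr.le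
        rw [mul_assoc]
        gcongr
        exact hK _ hχ.le hwm.le
      P := fun s => (hP s).le
      Q := fun i j a => (hQ i j a).le
      D := hD }
  obtain ⟨L, hL1, hL2⟩ := exists_fixed d hC base
  refine ⟨L, hL1, fun a => ?_, fun p a => ?_⟩
  · refine (hL2 _ _ _ base a).trans ?_
    gcongr
    exact hK _ hχ.le hwm.le
  · -- choose the parameter
    set e₁ : ℝ≥0∞ := δ / (2 * (X * (1 + X))) with he₁
    have hδt : δ ≠ ⊤ := by
      intro h
      rw [h] at h2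
      simp at h2
    have hA0 : 2 * (X * (1 + X)) ≠ 0 := mul_ne_zero two_ne_zero hX0
    have hAt : 2 * (X * (1 + X)) ≠ ⊤ := ENNReal.mul_ne_top (by simp) hXt
    have h01 : e₀ < e₁ := by
      rw [he₁, ENNReal.lt_div_iff_mul_lt (Or.inl hA0) (Or.inl hAt), mul_comm]
      exact hr
    have he₁r : 2 * (X * (1 + X)) * e₁ = δ := by
      rw [he₁, ENNReal.mul_div_cancel hA0 hAt]
    have hev : ∀ᶠ ε : ℝ in 𝓝[>] 0, N (wt J p ε) d.χ < X ∧ N (wt J p ε) d.wm < X ∧
        (∀ s, N (wt J p ε) (d.P s) < δ) ∧ (∀ i j a, N (wt J p ε) (d.Q i j a) < δ) ∧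
        ∀ a, N (wt J p ε) (d.D a) < e₁ := by
      refine (eventually_N_lt J p (fχ p) hχ).and ((eventually_N_lt J p (fwm p) hwm).and
        ((eventually_all.2 fun s => eventually_N_lt J p (fP p s) (hP s)).and
        ((eventually_all.2 fun i => eventually_all.2 fun j => eventually_all.2 fun a =>
          eventually_N_lt J p (fQ p i j a) (hQ i j a)).and
        (eventually_all.2 fun a => eventually_N_lt J p (fD p a) ((hD a).trans_lt h01)))))
    obtain ⟨ε, ⟨k1, k2, k3, k4, k5⟩, hε0, hε1⟩ :=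
      (hev.and (Ioo_mem_nhdsGT (zero_lt_one' ℝ))).exists
    have hc : d.Cond C (wt J p ε) δ e₁ :=
      { wt := Wt_wt J p hε0.le
        two := h2
        small := by
          refine le_trans ?_ hs
          gcongr
          exact hK _ k1.le k2.le
        rad := by
          refine le_trans ?_ he₁r.le
          rw [mul_assoc]
          gcongr
          exact hK _ k1.le k2.le
        P := fun s => (k3 s).le
        Q := fun i j a => (k4 i j a).le
        D := fun a => (k5 a).le }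
    have h3 := hL2 _ _ _ hc a
    have h4 : N (wt J p ε) (L a) ≠ ⊤ := by
      refine ne_top_of_le_ne_top hδt (h3.trans hc.rad)
    exact N_wt_one_ne_top J p hε0 hε1.le h4

end

end Vale.Agent.P214.REF
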