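import Vale.Agent.P214.REF.Main

/-!
# P214, block REF: the existence theorem
-/

open MvPolynomial MeasureTheory
open scoped ENNReal ContDiff

namespace Vale.Agent.P214.REF

noncomputable section

variable {m n : ℕ}

/-- the data of the fixed point problem belonging to an approximate solution -/
def mkDat (c : Fin m → Fin m → MvPolynomial (Fin m × Fin n) ℝ) (i₀ : Fin m) (u : Fin n → E m → ℝ) :
    Dat m n where
  c := c
  P s := per fun x => b1 m x * pd s.1 (u s.2) x
  Q i j a := per fun x => b1 m x * pd i (pd j (u a)) x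
  D a := per fun x => b1 m x * Qop c u a x
  χ := per (b2 m)
  wm := per (om i₀)
  μS := muS
  μR := muR
  hS := norm_muS_le
  hR := norm_muR_le

lemma aeval_tor {σ : Type} (P : σ → C(Tor m, ℝ)) (p : MvPolynomial σ ℝ) (t : Tor m) :
    (aeval P p : C(Tor m, ℝ)) t = eval (fun s => P s t) p := by
  have h1 := comp_aeval_apply (R := ℝ) P (ContinuousMap.evalAlgHom ℝ ℝ t) p
  have h2 : (ContinuousMap.evalAlgHom ℝ ℝ t) (aeval P p : C(Tor m, ℝ)) =
      (aeval P p : C(Tor m, ℝ)) t := rfl
  rw [← h2, h1, ← coe_aeval_eq_eval]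
  rfl

lemma sum_torus_apply {ι : Type*} (s : Finset ι) (f : ι → C(Tor m, ℝ)) (t : Tor m) :
    (∑ i ∈ s, f i) t = ∑ i ∈ s, f i t := by
  rw [ContinuousMap.coe_sum, Finset.sum_apply]

lemma sup_b1 (F : E m → ℝ) : Sup fun x => b1 m x * F x := by
  intro x hx
  simp only
  rw [b1_zero (by linarith), zero_mul]

lemma contDiff_b1 : ContDiff ℝ ∞ (b1 m) := (b1 m).contDiff

/-- **the fixed point gives an exact solution** -/
lemma Qop_eq_zero (c : Fin m → Fin m → MvPolynomial (Fin m × Fin n) ℝ) (i₀ : Fin m)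
    {u : Fin n → E m → ℝ} (hu : ∀ a, ContDiff ℝ ∞ (u a)) {J : ℕ} {L : Fin n → C(Tor m, ℝ)}
    (hL : ∀ a, (mkDat c i₀ u).Φ L a = L a) (hf : ∀ p a, N (wt J p 1) (L a) ≠ ⊤) (a : Fin n)
    {x : E m} (hx : ‖x‖ < 1 / 8) : Qop c (fun b y => u b y + vv (L b) y) a x = 0 := by
  have hd : ∀ b, Dec (fc (L b)) := fun b => dec_fc (J := J) fun p => hf p b
  have hv : ∀ b, ContDiff ℝ ∞ (vv (L b)) := fun b => contDiff_vv (hd b)
  have hx2 : ‖x‖ < 1 / 2 := hx.trans (by norm_num)
  -- mean value zero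
  have hm : fc (L a) 0 = 0 := by
    rw [fc_zero_eq, ← hL a]
    unfold Dat.Φ
    rw [mn_sub]
    have h1 : mn (mn ((mkDat c i₀ u).χ * (mkDat c i₀ u).F L a) • (mkDat c i₀ u).wm) =
        mn ((mkDat c i₀ u).χ * (mkDat c i₀ u).F L a) := by
      have h2 : mn (mkDat c i₀ u).wm = 1 := mn_om i₀
      conv_lhs => unfold mn
      rw [fc_smul, Complex.re_ofReal_mul]
      have h3 : (fc (mkDat c i₀ u).wm 0).re = 1 := h2
      rw [h3, mul_one]
      rfl
    rw [h1, sub_self, Complex.ofReal_zero]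
  -- the fixed point equation at the point
  have e1 : L a (qt x) = (mkDat c i₀ u).F L a (qt x) := by
    conv_lhs => rw [← hL a]
    unfold Dat.Φ
    rw [ContinuousMap.sub_apply, ContinuousMap.mul_apply, ContinuousMap.smul_apply]
    have h1 : (mkDat c i₀ u).χ (qt x) = 1 := by
      change per (b2 m) (qt x) = 1
      rw [per_qt (b2 m).continuous (fun y hy => b2_zero (by linarith)) hx2, b2_one hx.le]
    have h2 : (mkDat c i₀ u).wm (qt x) = 0 := by
      change per (om i₀) (qt x) = 0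
      rw [per_qt (contDiff_om i₀).continuous (fun y hy => om_zero1 i₀ hy) hx2, om_zero2 i₀ hx.le]
    rw [h1, h2, smul_zero, sub_zero, one_mul]
  have hP : ∀ s, (mkDat c i₀ u).P s (qt x) = pd s.1 (u s.2) x := by
    intro s
    change per (fun x => b1 m x * pd s.1 (u s.2) x) (qt x) = _
    rw [per_qt (contDiff_b1.mul (contDiff_pd (hu s.2) s.1)).continuous (sup_b1 _) hx2]
    rw [b1_one (by linarith), one_mul]
  have hQ : ∀ i j, (mkDat c i₀ u).Q i j a (qt x) = pd i (pd j (u a)) x := by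
    intro i j
    change per (fun x => b1 m x * pd i (pd j (u a)) x) (qt x) = _
    rw [per_qt (contDiff_b1.mul (contDiff_pd (contDiff_pd (hu a) j) i)).continuous (sup_b1 _) hx2]
    rw [b1_one (by linarith), one_mul]
  have hD : (mkDat c i₀ u).D a (qt x) = Qop c u a x := by
    change per (fun x => b1 m x * Qop c u a x) (qt x) = _
    rw [per_qt (contDiff_b1.mul (contDiff_Qop c hu a)).continuous (sup_b1 _) hx2]
    rw [b1_one (by linarith), one_mul]
  have hjet : ∀ s, (mkDat c i₀ u).jet L s (qt x) = pd s.1 (u s.2) x + pd s.1 (vv (L s.2)) x := by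
    intro s
    unfold Dat.jet
    rw [ContinuousMap.add_apply, hP, pd_vv (hd s.2)]
    rfl
  have e2 : (mkDat c i₀ u).F L a (qt x) =
      ∑ i, ∑ j, (eval (fun s : Fin m × Fin n => pd s.1 (u s.2) x + pd s.1 (vv (L s.2)) x) (c i j) *
        (pd i (pd j (u a)) x + pd i (pd j (vv (L a))) x) -
        eval (fun s : Fin m × Fin n => pd s.1 (u s.2) x) (c i j) * pd i (pd j (u a)) x) -
        Qop c u a x := by
    unfold Dat.F
    rw [ContinuousMap.sub_apply, hD, sum_torus_apply]
    congr 1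
    refine Finset.sum_congr rfl fun i _ => ?_
    rw [sum_torus_apply]
    refine Finset.sum_congr rfl fun j _ => ?_
    rw [ContinuousMap.sub_apply, ContinuousMap.mul_apply, ContinuousMap.mul_apply,
      ContinuousMap.add_apply, hQ, aeval_tor, aeval_tor, pd_pd_vv (hd a)]
    simp only [hjet, hP]
    rfl
  have e3 := lap_vv (hd a) hm x
  rw [e1, e2] at e3
  -- the operator at the corrected function
  have hpd : ∀ b i, pd i (fun y => u b y + vv (L b) y) = fun y => pd i (u b) y + pd i (vv (L b)) y :=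
    fun b i => pd_add (hu b) (hv b) i
  have hpd2 : ∀ b i j, pd i (fun y => pd j (u b) y + pd j (vv (L b)) y) =
      fun y => pd i (pd j (u b)) y + pd i (pd j (vv (L b))) y :=
    fun b i j => pd_add (contDiff_pd (hu b) j) (contDiff_pd (hv b) j) i
  have e4 : Qop c (fun b y => u b y + vv (L b) y) a x =
      ∑ i, (pd i (pd i (u a)) x + pd i (pd i (vv (L a))) x) -
      ∑ i, ∑ j, eval (fun s : Fin m × Fin n => pd s.1 (u s.2) x + pd s.1 (vv (L s.2)) x) (c i j) *
        (pd i (pd j (u a)) x + pd i (pd j (vv (L a))) x) := by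
    unfold Qop
    simp only [hpd, hpd2]
  have e5 : Qop c u a x = ∑ i, pd i (pd i (u a)) x -
    ∑ i, ∑ j, eval (fun s : Fin m × Fin n => pd s.1 (u s.2) x) (c i j) * pd i (pd j (u a)) x := rfl
  rw [e4, Finset.sum_add_distrib, e3]
  simp only [Finset.sum_sub_distrib]
  rw [e5]
  ring

/-- **existence of exact solutions near approximate ones** -/
theorem exists_exact (c : Fin m → Fin m → MvPolynomial (Fin m × Fin n) ℝ)
    (hc : ∀ i j, constantCoeff (c i j) = 0) (J : ℕ) : ∃ ε₀ : ℝ, 0 < ε₀ ∧ ∃ C : ℝ, 0 ≤ C ∧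
    ∀ u : Fin n → E m → ℝ, (∀ a, ContDiff ℝ ∞ (u a)) →
      (∀ a, ∀ k, 1 ≤ k → k ≤ J + 2 * m + 2 → ∀ x, ‖x‖ < 1 / 2 →
        ‖iteratedFDeriv ℝ k (u a) x‖ ≤ ε₀) →
      ∀ δ : ℝ, δ ≤ ε₀ →
      (∀ a, ∀ k ≤ J + 2 * m, ∀ x, ‖x‖ < 1 / 2 → ‖iteratedFDeriv ℝ k (Qop c u a) x‖ ≤ δ) →
      ∃ v : Fin n → E m → ℝ, (∀ a, ContDiff ℝ ∞ (v a)) ∧
        (∀ a x, ‖x‖ < 1 / 8 → Qop c (fun b y => u b y + v b y) a x = 0) ∧
        ∀ a, ∀ j ≤ J + 2, ∀ x, ‖iteratedFDeriv ℝ j (v a) x‖ ≤ C * δ := by
  rcases Nat.eq_zero_or_pos m with hm | hm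
  · subst hm
    refine ⟨1, one_pos, 0, le_rfl, fun u hu _ δ hδ hD => ⟨fun _ _ => 0, fun a => contDiff_const, ?_, ?_⟩⟩
    · intro a x hx
      simp [Qop]
    · intro a j hj x
      rw [zero_mul]
      have : iteratedFDeriv ℝ j (fun _ : E 0 => (0 : ℝ)) x = 0 := by
        rw [iteratedFDeriv_fun_zero]
        rfl
      rw [this, norm_zero]
  · set i₀ : Fin m := ⟨0, hm⟩
    obtain ⟨C0, hC0t, hC0⟩ := poly_lip' (m := m) c hc
    obtain ⟨C1, hC1, hN⟩ := N_per_le m J
    obtain ⟨C2, hC2, hM⟩ := mul_bound (m := m) (J + 2 * m) contDiff_b1 (fun x hx => b1_zero hx)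
    have hχf : ∀ q, N (wt q 0 0) (per (b2 m)) ≠ ⊤ := fun q =>
      N_per_ne_top (b2 m).contDiff (fun y hy => b2_zero (by linarith)) q
    have hωf : ∀ q, N (wt q 0 0) (per (om i₀)) ≠ ⊤ := fun q =>
      N_per_ne_top (contDiff_om i₀) (fun y hy => om_zero1 i₀ hy) q
    -- the constants
    set X : ℝ≥0∞ := N (wt J 0 0) (per (b2 m)) + N (wt J 0 0) (per (om i₀)) + 1 with hX
    have hXt : X ≠ ⊤ := ENNReal.add_ne_top.2 ⟨ENNReal.add_ne_top.2 ⟨hχf J, hωf J⟩, by simp⟩
    have hX1 : N (wt J 0 0) (per (b2 m)) < X := by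
      refine lt_of_le_of_lt (le_self_add (b := N (wt J 0 0) (per (om i₀)))) ?_
      exact ENNReal.lt_add_right (ENNReal.add_ne_top.2 ⟨hχf J, hωf J⟩) one_ne_zero
    have hX2 : N (wt J 0 0) (per (om i₀)) < X := by
      refine lt_of_le_of_lt (le_add_self (b := N (wt J 0 0) (per (b2 m)))) ?_
      exact ENNReal.lt_add_right (ENNReal.add_ne_top.2 ⟨hχf J, hωf J⟩) one_ne_zero
    set x : ℝ := X.toReal with hx
    have hx0 : 0 ≤ x := ENNReal.toReal_nonneg
    have hXx : X = ENNReal.ofReal x := (ENNReal.ofReal_toReal hXt).symm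
    set c0 : ℝ := C0.toReal with hc0
    have hc00 : 0 ≤ c0 := ENNReal.toReal_nonneg
    have hCc : C0 = ENNReal.ofReal c0 := (ENNReal.ofReal_toReal hC0t).symm
    -- radius of the ball of the contraction
    set B : ℝ := 2 + 2 * (x * (1 + x)) * (4 * m ^ 2 * c0) with hB
    have hB0 : 0 < B := by positivity
    set r : ℝ := 1 / B with hr
    have hr0 : 0 < r := by positivity
    have hr2 : 2 * r ≤ 1 := by
      rw [hr, mul_one_div, div_le_one hB0, hB]
      have : 0 ≤ 2 * (x * (1 + x)) * (4 * m ^ 2 * c0) := by positivity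
      linarith
    have hr3 : (x * (1 + x)) * (4 * m ^ 2 * c0 * r) ≤ 1 / 2 := by
      have h1 : (x * (1 + x)) * (4 * m ^ 2 * c0 * r) = (x * (1 + x)) * (4 * m ^ 2 * c0) / B := by
        rw [hr]
        ring
      rw [h1, div_le_iff₀ hB0, hB]
      linarith
    set A : ℝ := C1 * C2 with hA
    have hA0 : 0 ≤ A := mul_nonneg hC1 hC2
    set G : ℝ := (A + 1) * (1 + 2 * (x * (1 + x))) with hG
    have hG0 : 0 < G := by positivity
    refine ⟨r / (2 * G), by positivity, m * (2 * Real.pi) ^ J * (2 * (x * (1 + x) * A)),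
      by positivity, ?_⟩
    intro u hu hsm δ hδ hdef
    -- if `n = 0` there is nothing to prove
    rcases Nat.eq_zero_or_pos n with hn | hn
    · subst hn
      exact ⟨fun _ _ => 0, fun a => contDiff_const, fun a => a.elim0, fun a => a.elim0⟩
    have hδ0 : 0 ≤ δ := (norm_nonneg _).trans (hdef ⟨0, hn⟩ 0 (Nat.zero_le _) 0 (by simp))
    set ε : ℝ := r / (2 * G) with hε
    have hε0 : 0 < ε := by positivity
    have hAε : A * ε < r := by
      have h1 : A < 2 * G := by
        rw [hG]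
        have : 0 ≤ 2 * (x * (1 + x)) := by positivity
        nlinarith
      rw [hε, mul_div_assoc', div_lt_iff₀ (by positivity)]
      nlinarith
    have hAδ : 2 * (x * (1 + x)) * (A * δ) < r := by
      have h0 : 0 ≤ 2 * (x * (1 + x)) := by positivity
      have h1 : 2 * (x * (1 + x)) * A < 2 * G := by
        rw [hG]
        nlinarith
      calc 2 * (x * (1 + x)) * (A * δ) ≤ 2 * (x * (1 + x)) * (A * ε) := by gcongr
        _ = 2 * (x * (1 + x)) * A * r / (2 * G) := by rw [hε]; ring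
        _ < r := by
          rw [div_lt_iff₀ (by positivity)]
          nlinarith
    set d := mkDat c i₀ u with hd
    have hPoly : PolyBd d C0 := hC0
    -- bounds for the data
    have bP : ∀ s, N (wt J 0 0) (d.P s) ≤ ENNReal.ofReal (A * ε) := by
      intro s
      have h1 := hN (fun x => b1 m x * pd s.1 (u s.2) x)
        (contDiff_b1.mul (contDiff_pd (hu s.2) s.1)) (sup_b1 _) (C2 * ε)
        (hM _ (contDiff_pd (hu s.2) s.1) ε fun j hj x hx =>
          (norm_iteratedFDeriv_pd (hu s.2) s.1 j x).trans (hsm s.2 (j + 1) (by omega) (by omega) x hx))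
      rw [hA, mul_assoc]
      exact h1
    have bQ : ∀ i j a, N (wt J 0 0) (d.Q i j a) ≤ ENNReal.ofReal (A * ε) := by
      intro i j a
      have h1 := hN (fun x => b1 m x * pd i (pd j (u a)) x)
        (contDiff_b1.mul (contDiff_pd (contDiff_pd (hu a) j) i)) (sup_b1 _) (C2 * ε)
        (hM _ (contDiff_pd (contDiff_pd (hu a) j) i) ε fun k hk x hx =>
          (norm_iteratedFDeriv_pd (contDiff_pd (hu a) j) i k x).trans
            ((norm_iteratedFDeriv_pd (hu a) j (k + 1) x).trans (hsm a (k + 1 + 1) (by omega) (by omega) x hx)))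
      rw [hA, mul_assoc]
      exact h1
    have bD : ∀ a, N (wt J 0 0) (d.D a) ≤ ENNReal.ofReal (A * δ) := by
      intro a
      have h1 := hN (fun x => b1 m x * Qop c u a x)
        (contDiff_b1.mul (contDiff_Qop c hu a)) (sup_b1 _) (C2 * δ)
        (hM _ (contDiff_Qop c hu a) δ fun k hk x hx => hdef a k hk x hx)
      rw [hA, mul_assoc]
      exact h1
    obtain ⟨L, hL1, hL2, hL3⟩ := exists_fixed_smooth d hPoly J (X := X) (δ := ENNReal.ofReal r)
      (e₀ := ENNReal.ofReal (A * δ)) hXt hX1 hX2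
      (by
        rw [← ENNReal.ofReal_ofNat, ← ENNReal.ofReal_mul (by norm_num), ← ENNReal.ofReal_one]
        exact ENNReal.ofReal_le_ofReal hr2)
      (by
        have h2 : X * (1 + X) * (4 * m ^ 2 * C0 * ENNReal.ofReal r) =
            ENNReal.ofReal ((x * (1 + x)) * (4 * m ^ 2 * c0 * r)) := by
          rw [hXx, hCc, ENNReal.ofReal_mul (by positivity), ENNReal.ofReal_mul hx0,
            ENNReal.ofReal_add zero_le_one hx0, ENNReal.ofReal_mul (by positivity),
            ENNReal.ofReal_mul (by positivity), ENNReal.ofReal_mul (by positivity),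
            ENNReal.ofReal_pow (by positivity), ENNReal.ofReal_one, ENNReal.ofReal_natCast,
            ENNReal.ofReal_ofNat]
        rw [h2]
        have h3 : (2⁻¹ : ℝ≥0∞) = ENNReal.ofReal (1 / 2) := by
          rw [one_div, ENNReal.ofReal_inv_of_pos two_pos, ENNReal.ofReal_ofNat]
        rw [h3]
        exact ENNReal.ofReal_le_ofReal hr3)
      (by
        have h2 : 2 * (X * (1 + X)) * ENNReal.ofReal (A * δ) =
            ENNReal.ofReal (2 * (x * (1 + x)) * (A * δ)) := by
          rw [hXx, ENNReal.ofReal_mul (p := 2 * (x * (1 + x))) (by positivity),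
            ENNReal.ofReal_mul (p := 2) (by norm_num),
            ENNReal.ofReal_mul (p := x) hx0, ENNReal.ofReal_add zero_le_one hx0, ENNReal.ofReal_one,
            ENNReal.ofReal_ofNat]
        rw [h2]
        exact (ENNReal.ofReal_lt_ofReal_iff hr0).2 hAδ)
      (fun s => (bP s).trans_lt ((ENNReal.ofReal_lt_ofReal_iff hr0).2 hAε))
      (fun i j a => (bQ i j a).trans_lt ((ENNReal.ofReal_lt_ofReal_iff hr0).2 hAε))
      bD
      (fun p => by rw [funext fun k => wt_eq J p k]; exact hχf _)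
      (fun p => by rw [funext fun k => wt_eq J p k]; exact hωf _)
      (fun p s => by
        rw [funext fun k => wt_eq J p k]
        exact N_per_ne_top (contDiff_b1.mul (contDiff_pd (hu s.2) s.1)) (sup_b1 _) _)
      (fun p i j a => by
        rw [funext fun k => wt_eq J p k]
        exact N_per_ne_top (contDiff_b1.mul (contDiff_pd (contDiff_pd (hu a) j) i)) (sup_b1 _) _)
      (fun p a => by
        rw [funext fun k => wt_eq J p k]
        exact N_per_ne_top (contDiff_b1.mul (contDiff_Qop c hu a)) (sup_b1 _) _)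
    refine ⟨fun a => vv (L a), fun a => contDiff_vv (dec_fc fun p => hL3 p a), ?_, ?_⟩
    · intro a y hy
      exact Qop_eq_zero c i₀ hu hL1 hL3 a hy
    · intro a j hj y
      refine (norm_vv_le (fun p => hL3 p a) hj y).trans ?_
      have h1 : (N (wt J 0 0) (L a)).toReal ≤ 2 * (x * (1 + x) * A) * δ := by
        refine ENNReal.toReal_le_of_le_ofReal (by positivity) ((hL2 a).trans (le_of_eq ?_))
        rw [hXx]
        have e : 2 * (x * (1 + x) * A) * δ = 2 * (x * (1 + x) * (A * δ)) := by ring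
        rw [e, ENNReal.ofReal_mul (p := 2) (by norm_num),
          ENNReal.ofReal_mul (p := x * (1 + x)) (by positivity),
          ENNReal.ofReal_mul (p := x) hx0, ENNReal.ofReal_add zero_le_one hx0, ENNReal.ofReal_one,
          ENNReal.ofReal_ofNat]
      calc _ ≤ m * (2 * Real.pi) ^ J * (2 * (x * (1 + x) * A) * δ) := by gcongr
        _ = _ := by ring

end

end Vale.Agent.P214.REF
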