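import Vale.Agent.P214.REF.Minimal

/-!
# P214, block REF: the improvement step

If `w` is exactly minimal and `u` is small and almost harmonic, then `w + u` can be corrected to an
exactly minimal graph, with correction of size `η + (κ + μ)² μ`, where `κ`, `μ` are the sizes of
`w`, `u` and `η` is the size of the Laplacian of `u`.
-/

open MvPolynomial
open scoped ContDiff

namespace Vale.Agent.P214.REF

noncomputable section

variable {m n : ℕ}

/-! ### sizes of smooth functions on a ball -/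

/-- `f` is smooth and its derivatives up to order `K` are bounded by `M` on the ball of radius
`r` -/
def SZ (K : ℕ) (r : ℝ) (f : E m → ℝ) (M : ℝ) : Prop :=
  ContDiff ℝ ∞ f ∧ ∀ k ≤ K, ∀ x, ‖x‖ < r → ‖iteratedFDeriv ℝ k f x‖ ≤ M

variable {K : ℕ} {r : ℝ}

lemma SZ.nonneg (hr : 0 < r) {f : E m → ℝ} {M : ℝ} (h : SZ K r f M) : 0 ≤ M :=
  (norm_nonneg _).trans (h.2 0 (Nat.zero_le _) 0 (by simpa using hr))

lemma SZ.mono {f : E m → ℝ} {M M' : ℝ} (h : SZ K r f M) (hM : M ≤ M') : SZ K r f M' :=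
  ⟨h.1, fun k hk x hx => (h.2 k hk x hx).trans hM⟩

lemma SZ.add {f g : E m → ℝ} {M M' : ℝ} (hf : SZ K r f M) (hg : SZ K r g M') :
    SZ K r (fun x => f x + g x) (M + M') := by
  refine ⟨hf.1.add hg.1, fun k hk x hx => ?_⟩
  have h1 : iteratedFDeriv ℝ k (fun x => f x + g x) x =
      iteratedFDeriv ℝ k f x + iteratedFDeriv ℝ k g x :=
    iteratedFDeriv_add_apply (hf.1.contDiffAt.of_le (by exact_mod_cast le_top))
      (hg.1.contDiffAt.of_le (by exact_mod_cast le_top))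
  rw [h1]
  exact (norm_add_le _ _).trans (add_le_add (hf.2 k hk x hx) (hg.2 k hk x hx))

lemma SZ.neg {f : E m → ℝ} {M : ℝ} (hf : SZ K r f M) : SZ K r (fun x => -f x) M := by
  refine ⟨hf.1.neg, fun k hk x hx => ?_⟩
  have h1 : iteratedFDeriv ℝ k (fun x => -f x) x = -iteratedFDeriv ℝ k f x :=
    iteratedFDeriv_neg_apply
  rw [h1, norm_neg]
  exact hf.2 k hk x hx

lemma SZ.sub {f g : E m → ℝ} {M M' : ℝ} (hf : SZ K r f M) (hg : SZ K r g M') :
    SZ K r (fun x => f x - g x) (M + M') := by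
  simpa only [sub_eq_add_neg] using hf.add hg.neg

lemma SZ.mul (hr : 0 < r) {f g : E m → ℝ} {M M' : ℝ} (hf : SZ K r f M) (hg : SZ K r g M') :
    SZ K r (fun x => f x * g x) (2 ^ K * (M * M')) := by
  refine ⟨hf.1.mul hg.1, fun k hk x hx => ?_⟩
  have hM := hf.nonneg hr
  have hM' := hg.nonneg hr
  refine (norm_iteratedFDeriv_mul_le hf.1 hg.1 x (by exact_mod_cast le_top)).trans ?_
  calc _ ≤ ∑ i ∈ Finset.range (k + 1), (k.choose i : ℝ) * M * M' := by
        refine Finset.sum_le_sum fun i hi => ?_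
        have h1 := hf.2 i ((Nat.lt_succ_iff.1 (Finset.mem_range.1 hi)).trans hk) x hx
        have h2 := hg.2 (k - i) ((Nat.sub_le _ _).trans hk) x hx
        gcongr
    _ = 2 ^ k * (M * M') := by
        rw [← Finset.sum_mul, ← Finset.sum_mul]
        have h3 := Nat.sum_range_choose k
        have h4 : ∑ i ∈ Finset.range (k + 1), (k.choose i : ℝ) = 2 ^ k := by
          exact_mod_cast h3
        rw [h4, mul_assoc]
    _ ≤ _ := by
        have h5 : (2 : ℝ) ^ k ≤ 2 ^ K := pow_le_pow_right₀ one_le_two hk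
        gcongr

lemma SZ.const (c : ℝ) : SZ K r (fun _ : E m => c) |c| := by
  refine ⟨contDiff_const, fun k hk x hx => ?_⟩
  rcases Nat.eq_zero_or_pos k with h | h
  · subst h
    rw [norm_iteratedFDeriv_zero, Real.norm_eq_abs]
  · have h1 : iteratedFDeriv ℝ k (fun _ : E m => c) = 0 := iteratedFDeriv_const_of_ne h.ne' c
    rw [h1]
    simp

lemma SZ.sum {ι : Type*} (s : Finset ι) {f : ι → E m → ℝ} {M : ℝ} (hf : ∀ i ∈ s, SZ K r (f i) M) : SZ K r (fun x => ∑ i ∈ s, f i x) (s.card * M) := by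
  classical
  induction s using Finset.induction_on with
  | empty =>
    simp only [Finset.sum_empty, Finset.card_empty]
    have h1 := SZ.const (K := K) (r := r) (m := m) 0
    rw [abs_zero] at h1
    refine h1.mono ?_
    simp
  | insert i s hi ih =>
    simp only [Finset.sum_insert hi, Finset.card_insert_of_notMem hi]
    refine ((hf i (Finset.mem_insert_self _ _)).add
      (ih fun j hj => hf j (Finset.mem_insert_of_mem hj))).mono (le_of_eq ?_)
    push_cast
    ring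

/-- Lipschitz bound for polynomials -/
lemma SZ.poly (K : ℕ) {σ : Type} (p : MvPolynomial σ ℝ) : ∃ C : ℝ, 0 ≤ C ∧ ∀ (r : ℝ), 0 < r →
    ∀ (x y : σ → E m → ℝ) (η : ℝ), 0 ≤ η →
      (∀ s, SZ K r (x s) 1) → (∀ s, SZ K r (y s) 1) → (∀ s, SZ K r (fun t => x s t - y s t) η) →
        SZ K r (fun t => eval (fun s => x s t) p) C ∧
        SZ K r (fun t => eval (fun s => x s t) p - eval (fun s => y s t) p) (C * η) := by
  induction p using MvPolynomial.induction_on with
  | C a =>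
    refine ⟨|a|, abs_nonneg a, fun r hr x y η hη hx hy hxy => ?_⟩
    simp only [eval_C, sub_self]
    refine ⟨SZ.const a, ?_⟩
    have h1 := SZ.const (K := K) (r := r) (m := m) 0
    rw [abs_zero] at h1
    exact h1.mono (by positivity)
  | add p q hp hq =>
    obtain ⟨C1, h1, h1'⟩ := hp
    obtain ⟨C2, h2, h2'⟩ := hq
    refine ⟨C1 + C2, by positivity, fun r hr x y η hη hx hy hxy => ?_⟩
    obtain ⟨a1, a2⟩ := h1' r hr x y η hη hx hy hxy
    obtain ⟨b1, b2⟩ := h2' r hr x y η hη hx hy hxy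
    simp only [map_add, add_mul]
    refine ⟨a1.add b1, ?_⟩
    have e : (fun t => eval (fun s => x s t) p + eval (fun s => x s t) q -
        (eval (fun s => y s t) p + eval (fun s => y s t) q)) =
        fun t => (eval (fun s => x s t) p - eval (fun s => y s t) p) +
          (eval (fun s => x s t) q - eval (fun s => y s t) q) := by
      funext t
      ring
    rw [e]
    exact a2.add b2
  | mul_X p s hp =>
    obtain ⟨C1, h1, h1'⟩ := hp
    refine ⟨2 * 2 ^ K * C1, by positivity, fun r hr x y η hη hx hy hxy => ?_⟩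
    obtain ⟨a1, a2⟩ := h1' r hr x y η hη hx hy hxy
    have a3 := (h1' r hr y y 0 le_rfl hy hy (fun s => by
      simp only [sub_self]
      have h1 := SZ.const (K := K) (r := r) (m := m) 0
      rwa [abs_zero] at h1)).1
    simp only [map_mul, eval_X]
    constructor
    · refine (a1.mul hr (hx s)).mono ?_
      have : 0 ≤ 2 ^ K * C1 := by positivity
      nlinarith
    · have e : (fun t => eval (fun s => x s t) p * x s t - eval (fun s => y s t) p * y s t) =
          fun t => (eval (fun s => x s t) p - eval (fun s => y s t) p) * x s t +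
            eval (fun s => y s t) p * (x s t - y s t) := by
        funext t
        ring
      rw [e]
      refine ((a2.mul hr (hx s)).add (a3.mul hr (hxy s))).mono (le_of_eq ?_)
      ring

/-! ### the difference of the operator at two functions -/

/-- the coefficients as polynomials of the metric -/
def rq (m : ℕ) (i j : Fin m) : MvPolynomial (Fin m × Fin m) ℝ :=
  (1 : Matrix (Fin m) (Fin m) (MvPolynomial (Fin m × Fin m) ℝ)) i j -
    (1 + Matrix.of fun k l => X (k, l) :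
      Matrix (Fin m) (Fin m) (MvPolynomial (Fin m × Fin m) ℝ)).adjugate i j

lemma eval_rq (Y : Fin m × Fin m → ℝ) (i j : Fin m) : eval Y (rq m i j) =
    (1 : Matrix (Fin m) (Fin m) ℝ) i j - (1 + Matrix.of fun k l => Y (k, l)).adjugate i j := by
  unfold rq
  have h0 : (1 + Matrix.of fun k l => X (k, l) :
      Matrix (Fin m) (Fin m) (MvPolynomial (Fin m × Fin m) ℝ)).map (eval Y) =
      1 + Matrix.of fun k l => Y (k, l) := by
    ext i j
    simp only [Matrix.map_apply, Matrix.add_apply, Matrix.of_apply, map_add, eval_X]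
    congr 1
    by_cases h : i = j
    · subst h
      simp
    · simp [Matrix.one_apply_ne h]
  have h1 : eval Y ((1 + Matrix.of fun k l => X (k, l) :
      Matrix (Fin m) (Fin m) (MvPolynomial (Fin m × Fin m) ℝ)).adjugate i j) =
      (1 + Matrix.of fun k l => Y (k, l)).adjugate i j := by
    have h2 := RingHom.map_adjugate (eval Y) (1 + Matrix.of fun k l => X (k, l) :
      Matrix (Fin m) (Fin m) (MvPolynomial (Fin m × Fin m) ℝ))
    have h3 : (eval Y).mapMatrix (1 + Matrix.of fun k l => X (k, l) :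
      Matrix (Fin m) (Fin m) (MvPolynomial (Fin m × Fin m) ℝ)) =
      1 + Matrix.of fun k l => Y (k, l) := h0
    rw [h3] at h2
    exact congrFun (congrFun h2 i) j
  rw [map_sub, h1]
  congr 1
  by_cases h : i = j
  · subst h
    simp
  · simp [Matrix.one_apply_ne h]

/-- the quadratic part of the metric -/
def gq (u : Fin n → E m → ℝ) (s : Fin m × Fin m) (x : E m) : ℝ :=
  ∑ b, pd s.1 (u b) x * pd s.2 (u b) x

lemma adj_eq (u : Fin n → E m → ℝ) (x : E m) (i j : Fin m) :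
    (gm u x).adjugate i j = (1 : Matrix (Fin m) (Fin m) ℝ) i j - eval (fun s => gq u s x) (rq m i j) := by
  rw [eval_rq]
  unfold gm gq
  ring

lemma sum_one (f : Fin m → Fin m → ℝ) :
    ∑ i, ∑ j, (1 : Matrix (Fin m) (Fin m) ℝ) i j * f i j = ∑ i, f i i := by
  refine Finset.sum_congr rfl fun i _ => ?_
  rw [Finset.sum_eq_single i]
  · simp
  · intro j _ hj
    rw [Matrix.one_apply_ne hj.symm, zero_mul]
  · intro h
    exact absurd (Finset.mem_univ i) h

/-- the Laplace operator -/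
def Lp (u : E m → ℝ) (x : E m) : ℝ := ∑ i, pd i (pd i u) x

lemma Mop_add (w u : Fin n → E m → ℝ) (hw : ∀ a, ContDiff ℝ ∞ (w a))
    (hu : ∀ a, ContDiff ℝ ∞ (u a)) (a : Fin n) (x : E m) :
    Mop (fun b y => w b y + u b y) a x = Mop w a x + (Lp (u a) x -
      ∑ i, ∑ j, (eval (fun s => gq (fun b y => w b y + u b y) s x) (rq m i j) * pd i (pd j (u a)) x +
      (eval (fun s => gq (fun b y => w b y + u b y) s x) (rq m i j) -
        eval (fun s => gq w s x) (rq m i j)) * pd i (pd j (w a)) x)) := by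
  have hpd : ∀ b i, pd i (fun y => w b y + u b y) = fun y => pd i (w b) y + pd i (u b) y :=
    fun b i => pd_add (hw b) (hu b) i
  have hpd2 : ∀ b i j, pd i (fun y => pd j (w b) y + pd j (u b) y) =
      fun y => pd i (pd j (w b)) y + pd i (pd j (u b)) y :=
    fun b i j => pd_add (contDiff_pd (hw b) j) (contDiff_pd (hu b) j) i
  unfold Mop
  simp only [adj_eq, sub_mul, Finset.sum_sub_distrib, sum_one, hpd, hpd2, Finset.sum_add_distrib,
    mul_add]
  unfold Lp
  ring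

lemma SZ.pd {f : E m → ℝ} {M : ℝ} (h : SZ (K + 1) r f M) (i : Fin m) : SZ K r (pd i f) M :=
  ⟨contDiff_pd h.1 i, fun k hk x hx =>
    (norm_iteratedFDeriv_pd h.1 i k x).trans (h.2 (k + 1) (by omega) x hx)⟩

/-- size of the derivatives of order between `1` and `K` -/
def SZ1 (K : ℕ) (r : ℝ) (f : E m → ℝ) (M : ℝ) : Prop :=
  ContDiff ℝ ∞ f ∧ ∀ k, 1 ≤ k → k ≤ K → ∀ x, ‖x‖ < r → ‖iteratedFDeriv ℝ k f x‖ ≤ M

lemma SZ1.pd {f : E m → ℝ} {M : ℝ} (h : SZ1 (K + 1) r f M) (i : Fin m) : SZ K r (REF.pd i f) M :=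
  ⟨contDiff_pd h.1 i, fun k hk x hx =>
    (norm_iteratedFDeriv_pd h.1 i k x).trans (h.2 (k + 1) (by omega) (by omega) x hx)⟩

lemma SZ1.pd2 {f : E m → ℝ} {M : ℝ} (h : SZ1 (K + 2) r f M) (i j : Fin m) :
    SZ K r (REF.pd i (REF.pd j f)) M :=
  (h.pd (K := K + 1) j).pd i

lemma SZ1.add {f g : E m → ℝ} {M M' : ℝ} (hf : SZ1 K r f M) (hg : SZ1 K r g M') :
    SZ1 K r (fun x => f x + g x) (M + M') := by
  refine ⟨hf.1.add hg.1, fun k hk1 hk x hx => ?_⟩
  have h1 : iteratedFDeriv ℝ k (fun x => f x + g x) x =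
      iteratedFDeriv ℝ k f x + iteratedFDeriv ℝ k g x :=
    iteratedFDeriv_add_apply (hf.1.contDiffAt.of_le (by exact_mod_cast le_top))
      (hg.1.contDiffAt.of_le (by exact_mod_cast le_top))
  rw [h1]
  exact (norm_add_le _ _).trans (add_le_add (hf.2 k hk1 hk x hx) (hg.2 k hk1 hk x hx))


lemma gq_size (hr : 0 < r) {w : Fin n → E m → ℝ} {κ : ℝ} (hw : ∀ b, SZ1 (K + 1) r (w b) κ)
    (s : Fin m × Fin m) : SZ K r (gq w s) (n * (2 ^ K * (κ * κ))) := by
  have h1 := SZ.sum (K := K) (r := r) Finset.univ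
    (f := fun b x => REF.pd s.1 (w b) x * REF.pd s.2 (w b) x) (M := 2 ^ K * (κ * κ))
    fun b _ => ((hw b).pd s.1).mul hr ((hw b).pd s.2)
  have e : gq w s = fun x => ∑ b, REF.pd s.1 (w b) x * REF.pd s.2 (w b) x := rfl
  rw [e]
  simpa using h1

lemma gq_diff (hr : 0 < r) {w u : Fin n → E m → ℝ} {κ μ : ℝ} (hκ : 0 ≤ κ) (hμ : 0 ≤ μ)
    (hw : ∀ b, SZ1 (K + 1) r (w b) κ) (hu : ∀ b, SZ1 (K + 1) r (u b) μ)
    (s : Fin m × Fin m) : SZ K r (fun x => gq (fun b y => w b y + u b y) s x - gq w s x)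
      (n * (2 ^ K * (2 * (κ + μ) * μ))) := by
  have e : (fun x => gq (fun b y => w b y + u b y) s x - gq w s x) = fun x =>
      ∑ b, (REF.pd s.1 (u b) x * REF.pd s.2 (fun y => w b y + u b y) x +
        REF.pd s.1 (w b) x * REF.pd s.2 (u b) x) := by
    funext x
    unfold gq
    rw [← Finset.sum_sub_distrib]
    refine Finset.sum_congr rfl fun b _ => ?_
    rw [pd_add (hw b).1 (hu b).1, pd_add (hw b).1 (hu b).1]
    ring
  rw [e]
  have h1 := SZ.sum (K := K) (r := r) Finset.univ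
    (f := fun b x => (REF.pd s.1 (u b) x * REF.pd s.2 (fun y => w b y + u b y) x +
        REF.pd s.1 (w b) x * REF.pd s.2 (u b) x)) (M := 2 ^ K * (2 * (κ + μ) * μ))
    fun b _ => by
      refine ((((hu b).pd s.1).mul hr (((hw b).add (hu b)).pd s.2)).add
        (((hw b).pd s.1).mul hr ((hu b).pd s.2))).mono ?_
      have h2 : (0 : ℝ) < 2 ^ K := by positivity
      have h3 : μ * (κ + μ) + κ * μ ≤ 2 * (κ + μ) * μ := by nlinarith [mul_nonneg hμ hμ]
      nlinarith
  simpa using h1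

/-- **the defect of `w + u`** -/
theorem Mop_bound (m n K : ℕ) : ∃ C : ℝ, 0 ≤ C ∧ ∃ ε : ℝ, 0 < ε ∧ ∀ r : ℝ, 0 < r →
    ∀ (w u : Fin n → E m → ℝ) (κ μ η : ℝ), 0 ≤ κ → 0 ≤ μ → κ + μ ≤ ε →
      (∀ b, SZ1 (K + 2) r (w b) κ) → (∀ b, SZ1 (K + 2) r (u b) μ) →
      (∀ b, SZ K r (Lp (u b)) η) → (∀ a x, ‖x‖ < r → Mop w a x = 0) →
      ∀ a, ∀ k ≤ K, ∀ x, ‖x‖ < r →
        ‖iteratedFDeriv ℝ k (Mop (fun b y => w b y + u b y) a) x‖ ≤ η + C * ((κ + μ) ^ 2 * μ) := by
  choose C0 h0 hP using fun ij : Fin m × Fin m => SZ.poly (m := m) K (rq m ij.1 ij.2)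
  set C1 : ℝ := ∑ ij, C0 ij with hC1
  have hC10 : 0 ≤ C1 := Finset.sum_nonneg fun ij _ => h0 ij
  have hle : ∀ ij, C0 ij ≤ C1 := fun ij =>
    Finset.single_le_sum (f := C0) (fun ij _ => h0 ij) (Finset.mem_univ ij)
  set A : ℝ := n * 2 ^ K with hA
  have hA0 : 0 ≤ A := by positivity
  refine ⟨m * (m * (2 ^ K * (3 * (C1 * A)))), by positivity, 1 / (1 + A), by positivity, ?_⟩
  intro r hr w u κ μ η hκ hμ hε hw hu hL hM a k hk x hx
  have hε1 : κ + μ ≤ 1 := hε.trans (by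
    rw [div_le_one (by positivity)]
    linarith)
  have hAε : A * (κ + μ) ≤ 1 := by
    calc A * (κ + μ) ≤ A * (1 / (1 + A)) := by gcongr
      _ ≤ 1 := by
        rw [mul_one_div, div_le_one (by positivity)]
        linarith
  have hκμ : 0 ≤ κ + μ := add_nonneg hκ hμ
  -- sizes of the metrics
  have hw1 : ∀ b, SZ1 (K + 1) r (w b) κ := fun b =>
    ⟨(hw b).1, fun k h1 h2 => (hw b).2 k h1 (by omega)⟩
  have hu1 : ∀ b, SZ1 (K + 1) r (u b) μ := fun b =>
    ⟨(hu b).1, fun k h1 h2 => (hu b).2 k h1 (by omega)⟩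
  have g1 : ∀ s, SZ K r (gq (fun b y => w b y + u b y) s) (A * (κ + μ) ^ 2) := fun s =>
    (gq_size hr (fun b => (hw1 b).add (hu1 b)) s).mono (le_of_eq (by rw [hA]; ring))
  have g2 : ∀ s, SZ K r (gq w s) (A * κ ^ 2) := fun s =>
    (gq_size hr hw1 s).mono (le_of_eq (by rw [hA]; ring))
  have g3 : ∀ s, SZ K r (fun x => gq (fun b y => w b y + u b y) s x - gq w s x)
      (A * (2 * (κ + μ) * μ)) := fun s =>
    (gq_diff hr hκ hμ hw1 hu1 s).mono (le_of_eq (by rw [hA]; ring))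
  have e1 : A * (κ + μ) ^ 2 ≤ 1 := by nlinarith
  have e2 : A * κ ^ 2 ≤ 1 := by
    have : κ ^ 2 ≤ (κ + μ) ^ 2 := by nlinarith
    nlinarith
  have z0 : ∀ s : Fin m × Fin m, SZ K r ((fun _ _ => 0 : Fin m × Fin m → E m → ℝ) s) 1 := by
    intro s
    have h1 := SZ.const (K := K) (r := r) (m := m) 0
    rw [abs_zero] at h1
    exact h1.mono zero_le_one
  -- the coefficients
  have q1 : ∀ i j, SZ K r (fun x => eval (fun s => gq (fun b y => w b y + u b y) s x) (rq m i j))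
      (C1 * (A * (κ + μ) ^ 2)) := by
    intro i j
    have h1 := (hP (i, j) r hr (fun s x => gq (fun b y => w b y + u b y) s x) (fun _ _ => 0)
      (A * (κ + μ) ^ 2) (by positivity) (fun s => (g1 s).mono e1) z0 (fun s => by
        simpa only [sub_zero] using g1 s)).2
    have h2 : eval (fun _ : Fin m × Fin m => (0 : ℝ)) (rq m i j) = 0 := by
      rw [eval_rq]
      have h3 : (Matrix.of fun k l => (0 : ℝ) : Matrix (Fin m) (Fin m) ℝ) = 0 := by
        ext k l
        rfl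
      rw [h3, add_zero, Matrix.adjugate_one, sub_self]
    simp only [h2, sub_zero] at h1
    exact h1.mono (by
      have := hle (i, j)
      gcongr)
  have q2 : ∀ i j, SZ K r (fun x => eval (fun s => gq (fun b y => w b y + u b y) s x) (rq m i j) -
      eval (fun s => gq w s x) (rq m i j)) (C1 * (A * (2 * (κ + μ) * μ))) := by
    intro i j
    have h1 := (hP (i, j) r hr (fun s x => gq (fun b y => w b y + u b y) s x) (fun s x => gq w s x)
      (A * (2 * (κ + μ) * μ)) (by positivity) (fun s => (g1 s).mono e1) (fun s => (g2 s).mono e2)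
      g3).2
    exact h1.mono (by
      have := hle (i, j)
      gcongr)
  have T : SZ K r (fun x => Lp (u a) x -
      ∑ i, ∑ j, (eval (fun s => gq (fun b y => w b y + u b y) s x) (rq m i j) *
        REF.pd i (REF.pd j (u a)) x +
      (eval (fun s => gq (fun b y => w b y + u b y) s x) (rq m i j) -
        eval (fun s => gq w s x) (rq m i j)) * REF.pd i (REF.pd j (w a)) x))
      (η + m * (m * (2 ^ K * (3 * (C1 * A)))) * ((κ + μ) ^ 2 * μ)) := by
    refine ((hL a).sub (SZ.sum (K := K) (r := r) Finset.univ (f := fun i x => ∑ j,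
      (eval (fun s => gq (fun b y => w b y + u b y) s x) (rq m i j) * REF.pd i (REF.pd j (u a)) x +
      (eval (fun s => gq (fun b y => w b y + u b y) s x) (rq m i j) -
        eval (fun s => gq w s x) (rq m i j)) * REF.pd i (REF.pd j (w a)) x))
      (M := m * (2 ^ K * (3 * (C1 * A)) * ((κ + μ) ^ 2 * μ))) fun i _ => ?_)).mono (le_of_eq ?_)
    · refine (SZ.sum (K := K) (r := r) Finset.univ (f := fun j x =>
        (eval (fun s => gq (fun b y => w b y + u b y) s x) (rq m i j) *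
          REF.pd i (REF.pd j (u a)) x +
        (eval (fun s => gq (fun b y => w b y + u b y) s x) (rq m i j) -
        eval (fun s => gq w s x) (rq m i j)) * REF.pd i (REF.pd j (w a)) x))
        (M := 2 ^ K * (3 * (C1 * A)) * ((κ + μ) ^ 2 * μ)) fun j _ => ?_).mono (le_of_eq (by simp))
      refine (((q1 i j).mul hr ((hu a).pd2 i j)).add ((q2 i j).mul hr ((hw a).pd2 i j))).mono ?_
      have h1 : 2 * (κ + μ) * μ * κ ≤ 2 * ((κ + μ) ^ 2 * μ) := by
        have h2 : μ * κ ≤ μ * (κ + μ) := by nlinarith [mul_nonneg hμ hμ]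
        nlinarith
      have h3 : 0 ≤ 2 ^ K * (C1 * A) := by positivity
      calc 2 ^ K * (C1 * (A * (κ + μ) ^ 2) * μ) + 2 ^ K * (C1 * (A * (2 * (κ + μ) * μ)) * κ)
          = 2 ^ K * (C1 * A) * ((κ + μ) ^ 2 * μ + 2 * (κ + μ) * μ * κ) := by ring
        _ ≤ 2 ^ K * (C1 * A) * ((κ + μ) ^ 2 * μ + 2 * ((κ + μ) ^ 2 * μ)) := by gcongr
        _ = _ := by ring
    · simp only [Finset.card_univ, Fintype.card_fin]
      ring
  have heq : Mop (fun b y => w b y + u b y) a =ᶠ[nhds x] fun x => Lp (u a) x -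
      ∑ i, ∑ j, (eval (fun s => gq (fun b y => w b y + u b y) s x) (rq m i j) *
        REF.pd i (REF.pd j (u a)) x +
      (eval (fun s => gq (fun b y => w b y + u b y) s x) (rq m i j) -
        eval (fun s => gq w s x) (rq m i j)) * REF.pd i (REF.pd j (w a)) x) := by
    have hx' : {y : E m | ‖y‖ < r} ∈ nhds x :=
      (isOpen_lt continuous_norm continuous_const).mem_nhds hx
    filter_upwards [hx'] with y hy
    rw [Mop_add w u (fun b => (hw b).1) (fun b => (hu b).1), hM a y hy, zero_add]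
  rw [(heq.iteratedFDeriv ℝ k).eq_of_nhds]
  exact T.2 k hk x hx

/-- **the improvement step** -/
theorem step (m n J : ℕ) : ∃ ε₀ : ℝ, 0 < ε₀ ∧ ∃ C : ℝ, 0 ≤ C ∧
    ∀ (w u : Fin n → E m → ℝ) (κ μ η : ℝ), 0 ≤ κ → κ ≤ ε₀ → 0 ≤ μ → μ ≤ ε₀ → η ≤ ε₀ →
      (∀ b, SZ1 (J + 2 * m + 2) (1 / 2) (w b) κ) → (∀ b, SZ1 (J + 2 * m + 2) (1 / 2) (u b) μ) →
      (∀ b, SZ (J + 2 * m) (1 / 2) (Lp (u b)) η) → (∀ a x, ‖x‖ < 1 / 2 → Mop w a x = 0) →
      ∃ v : Fin n → E m → ℝ, (∀ a, ContDiff ℝ ∞ (v a)) ∧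
        (∀ a x, ‖x‖ < 1 / 8 → Mop (fun b y => w b y + u b y + v b y) a x = 0) ∧
        ∀ a, ∀ j ≤ J + 2, ∀ x, ‖iteratedFDeriv ℝ j (v a) x‖ ≤ C * (η + (κ + μ) ^ 2 * μ) := by
  obtain ⟨ε₁, h1, C₁, hC₁, hex⟩ := exists_minimal m n J
  obtain ⟨C₂, hC₂, ε₂, h2, hbd⟩ := Mop_bound m n (J + 2 * m)
  set ε₀ : ℝ := min (ε₂ / 2) (min (ε₁ / 2) (min (ε₁ / (2 * (1 + 4 * C₂))) 1)) with hε₀
  have e1 : ε₀ ≤ ε₂ / 2 := min_le_left _ _
  have e2 : ε₀ ≤ ε₁ / 2 := (min_le_right _ _).trans (min_le_left _ _)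
  have e3 : ε₀ ≤ ε₁ / (2 * (1 + 4 * C₂)) :=
    (min_le_right _ _).trans ((min_le_right _ _).trans (min_le_left _ _))
  have e4 : ε₀ ≤ 1 := (min_le_right _ _).trans ((min_le_right _ _).trans (min_le_right _ _))
  have e0 : 0 < ε₀ := lt_min (by positivity) (lt_min (by positivity) (lt_min (by positivity)
    one_pos))
  refine ⟨ε₀, e0, C₁ * (1 + C₂), by positivity, ?_⟩
  intro w u κ μ η hκ hκ' hμ hμ' hη hw hu hL hM
  have hsum : κ + μ ≤ 2 * ε₀ := by linarith
  have hκμ : 0 ≤ κ + μ := add_nonneg hκ hμ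
  rcases Nat.eq_zero_or_pos n with hn | hn
  · subst hn
    exact ⟨fun _ _ => 0, fun a => contDiff_const, fun a => a.elim0, fun a => a.elim0⟩
  have hη0 : 0 ≤ η := (hL ⟨0, hn⟩).nonneg (by norm_num)
  have hq : (κ + μ) ^ 2 * μ ≤ 4 * ε₀ := by
    calc (κ + μ) ^ 2 * μ ≤ (2 * ε₀) ^ 2 * ε₀ := by gcongr
      _ = 4 * (ε₀ * (ε₀ * ε₀)) := by ring
      _ ≤ 4 * (ε₀ * (1 * 1)) := by gcongr
      _ = 4 * ε₀ := by ring
  have hδ : η + C₂ * ((κ + μ) ^ 2 * μ) ≤ ε₁ := by
    calc η + C₂ * ((κ + μ) ^ 2 * μ) ≤ ε₀ + C₂ * (4 * ε₀) := by gcongr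
      _ = (1 + 4 * C₂) * ε₀ := by ring
      _ ≤ (1 + 4 * C₂) * (ε₁ / (2 * (1 + 4 * C₂))) := by gcongr
      _ = ε₁ / 2 := by
        field_simp
      _ ≤ ε₁ := by linarith
  obtain ⟨v, hv1, hv2, hv3⟩ := hex (fun b y => w b y + u b y)
    (fun a => (hw a).1.add (hu a).1)
    (fun a k hk1 hk x hx => (((hw a).add (hu a)).2 k hk1 hk x hx).trans (by linarith))
    (η + C₂ * ((κ + μ) ^ 2 * μ)) hδ
    (fun a k hk x hx => hbd (1 / 2) (by norm_num) w u κ μ η hκ hμ (by linarith) hw hu hL hM a k hk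
      x hx)
  refine ⟨v, hv1, hv2, fun a j hj x => (hv3 a j hj x).trans ?_⟩
  rw [mul_assoc]
  have h5 : 0 ≤ (κ + μ) ^ 2 * μ := by positivity
  have h6 : η + C₂ * ((κ + μ) ^ 2 * μ) ≤ (1 + C₂) * (η + (κ + μ) ^ 2 * μ) := by nlinarith
  gcongr

end

end Vale.Agent.P214.REF
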