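import Vale.Agent.P214.REF.Pair

/-!
# P214, block REF2W: the weak estimate of the correction, by duality
-/

open MvPolynomial MeasureTheory Filter Topology
open scoped ENNReal ContDiff

namespace Vale.Agent.P214.REF

noncomputable section

variable {m n : ℕ}

/-! ### Taylor remainder of polynomials -/

lemma poly_taylor {σ : Type} [Fintype σ] [DecidableEq σ] (P : MvPolynomial σ ℝ) :
    ∃ C : ℝ≥0∞, C ≠ ⊤ ∧
    ∀ (w : (Fin m → ℤ) → ℝ≥0∞), Wt w → ∀ (x h : σ → C(Tor m, ℝ)) (η : ℝ≥0∞),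
      (∀ s, N w (x s) ≤ 1) → (∀ s, N w (x s + h s) ≤ 1) → (∀ s, N w (h s) ≤ η) →
        N w (aeval (fun s => x s + h s) P - aeval x P - ∑ s, aeval x (pderiv s P) * h s) ≤
          C * η ^ 2 := by
  induction P using MvPolynomial.induction_on with
  | C a =>
    refine ⟨0, by simp, fun w hw x h η hx hxh hh => ?_⟩
    have e : aeval (fun s => x s + h s) (C a : MvPolynomial σ ℝ) - aeval x (C a : MvPolynomial σ ℝ) -
        ∑ s, aeval x (pderiv s (C a : MvPolynomial σ ℝ)) * h s = 0 := by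
      simp
    rw [e, N_zero]
    exact bot_le
  | add p q hp hq =>
    obtain ⟨C1, h1, h1'⟩ := hp
    obtain ⟨C2, h2, h2'⟩ := hq
    refine ⟨C1 + C2, ENNReal.add_ne_top.2 ⟨h1, h2⟩, fun w hw x h η hx hxh hh => ?_⟩
    have a1 := h1' w hw x h η hx hxh hh
    have b1 := h2' w hw x h η hx hxh hh
    have e : aeval (fun s => x s + h s) (p + q) - aeval x (p + q) -
        ∑ s, aeval x (pderiv s (p + q)) * h s =
        (aeval (fun s => x s + h s) p - aeval x p - ∑ s, aeval x (pderiv s p) * h s) +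
        (aeval (fun s => x s + h s) q - aeval x q - ∑ s, aeval x (pderiv s q) * h s) := by
      simp only [map_add, add_mul, Finset.sum_add_distrib]
      ring
    rw [e, add_mul]
    exact (N_add _ _).trans (add_le_add a1 b1)
  | mul_X p s hp =>
    obtain ⟨C1, h1, h1'⟩ := hp
    obtain ⟨C2, h2, h2'⟩ := poly_lip (m := m) p
    refine ⟨C1 + C2, ENNReal.add_ne_top.2 ⟨h1, h2⟩, fun w hw x h η hx hxh hh => ?_⟩
    have a1 := h1' w hw x h η hx hxh hh
    have b1 := (h2' w hw (fun s => x s + h s) x η hxh hx (fun s => by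
      rw [add_sub_cancel_left]
      exact hh s)).2
    have e : aeval (fun s => x s + h s) (p * X s) - aeval x (p * X s) -
        ∑ t, aeval x (pderiv t (p * X s)) * h t =
        (aeval (fun s => x s + h s) p - aeval x p - ∑ s, aeval x (pderiv s p) * h s) * x s +
        (aeval (fun s => x s + h s) p - aeval x p) * h s := by
      have e1 : ∀ t, aeval x (pderiv t (p * X s)) * h t =
          (aeval x (pderiv t p) * h t) * x s + (if t = s then aeval x p * h t else 0) := by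
        intro t
        rw [Derivation.leibniz, pderiv_X, smul_eq_mul, smul_eq_mul, map_add, map_mul, map_mul,
          aeval_X]
        by_cases hts : t = s
        · subst hts
          rw [if_pos rfl]
          simp
          ring
        · rw [if_neg hts, Pi.single_eq_of_ne (Ne.symm hts)]
          simp
          ring
      rw [Finset.sum_congr rfl fun t _ => e1 t, Finset.sum_add_distrib, ← Finset.sum_mul,
        Finset.sum_ite_eq' Finset.univ s, if_pos (Finset.mem_univ _)]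
      simp only [map_mul, aeval_X]
      ring
    rw [e]
    calc _ ≤ N w (aeval (fun s => x s + h s) p - aeval x p - ∑ s, aeval x (pderiv s p) * h s) *
          N w (x s) + N w (aeval (fun s => x s + h s) p - aeval x p) * N w (h s) :=
          (N_add _ _).trans (add_le_add (hw.N_mul _ _) (hw.N_mul _ _))
      _ ≤ (C1 * η ^ 2) * 1 + (C2 * η) * η := by
          gcongr
          · exact hx s
          · exact hh s
      _ = _ := by ring

/-- all polynomial bounds which are needed -/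
lemma poly_all (c : Fin m → Fin m → MvPolynomial (Fin m × Fin n) ℝ)
    (hc : ∀ i j, constantCoeff (c i j) = 0) : ∃ C : ℝ≥0∞, C ≠ ⊤ ∧
    ∀ (w : (Fin m → ℤ) → ℝ≥0∞), Wt w → ∀ (x h : Fin m × Fin n → C(Tor m, ℝ)) (η θ : ℝ≥0∞),
      (∀ s, N w (x s) ≤ 1) → (∀ s, N w (x s + h s) ≤ 1) → (∀ s, N w (h s) ≤ η) →
      (∀ s, N w (x s) ≤ θ) → ∀ i j,
        N w (aeval x (c i j)) ≤ C * θ ∧ (∀ s, N w (aeval x (pderiv s (c i j))) ≤ C) ∧
        N w (aeval (fun s => x s + h s) (c i j) - aeval x (c i j)) ≤ C * η ∧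
        N w (aeval (fun s => x s + h s) (c i j) - aeval x (c i j) -
          ∑ s, aeval x (pderiv s (c i j)) * h s) ≤ C * η ^ 2 := by
  obtain ⟨C1, h1, h1'⟩ := poly_lip' (m := m) c hc
  choose C2 h2 h2' using fun (q : (Fin m × Fin m) × (Fin m × Fin n)) =>
    poly_lip (m := m) (pderiv q.2 (c q.1.1 q.1.2))
  choose C3 h3 h3' using fun (q : Fin m × Fin m) => poly_taylor (m := m) (c q.1 q.2)
  refine ⟨C1 + ∑ q, C2 q + ∑ q, C3 q, ENNReal.add_ne_top.2 ⟨ENNReal.add_ne_top.2 ⟨h1,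
    ENNReal.sum_ne_top.2 fun q _ => h2 q⟩, ENNReal.sum_ne_top.2 fun q _ => h3 q⟩, ?_⟩
  intro w hw x h η θ hx hxh hh hθ i j
  have l1 : C1 ≤ C1 + ∑ q, C2 q + ∑ q, C3 q := by
    rw [add_assoc]
    exact le_self_add
  have l2 : ∀ q, C2 q ≤ C1 + ∑ q, C2 q + ∑ q, C3 q := fun q =>
    (Finset.single_le_sum (f := C2) (fun _ _ => bot_le) (Finset.mem_univ q)).trans
      (le_add_self.trans le_self_add)
  have l3 : ∀ q, C3 q ≤ C1 + ∑ q, C2 q + ∑ q, C3 q := fun q =>
    (Finset.single_le_sum (f := C3) (fun _ _ => bot_le) (Finset.mem_univ q)).trans le_add_self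
  refine ⟨?_, fun s => ?_, ?_, ?_⟩
  · refine ((h1' w hw x x 0 hx hx (fun s => by rw [sub_self, N_zero]) i j).1 θ hθ).trans ?_
    gcongr
  · refine ((h2' ((i, j), s) w hw x x 0 hx hx (fun s => by rw [sub_self, N_zero])).1).trans (l2 _)
  · refine ((h1' w hw (fun s => x s + h s) x η hxh hx (fun s => by
      rw [add_sub_cancel_left]
      exact hh s) i j).2).trans ?_
    gcongr
  · refine (h3' (i, j) w hw x h η hx hxh hh).trans ?_
    have := l3 (i, j)
    gcongr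

/-! ### the duality argument -/

/-- constants are paired by the mean value -/
lemma pr_const (f : C(Tor m, ℝ)) (c : ℝ) : pr f (ContinuousMap.const _ c) = c * mn f := by
  unfold pr
  have h1 : f * ContinuousMap.const _ c = c • f := by
    ext t
    simp [mul_comm]
  rw [h1, mn_smul]

/-- correction of the test function -/
def gcor (ω₀ g : C(Tor m, ℝ)) : C(Tor m, ℝ) := g - ContinuousMap.const _ (mn (ω₀ * g))

lemma N_gcor {w : (Fin m → ℤ) → ℝ≥0∞} (hw : Wt w) {ω₀ g : C(Tor m, ℝ)} {x M : ℝ} (hx : 0 ≤ x)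
    (hM : 0 ≤ M) (h1 : N w ω₀ ≤ ENNReal.ofReal x) (h2 : N w g ≤ ENNReal.ofReal M) :
    N w (gcor ω₀ g) ≤ ENNReal.ofReal ((1 + x) * M) := by
  unfold gcor
  refine (N_sub _ _).trans ?_
  rw [hw.N_const]
  calc N w g + ‖mn (ω₀ * g)‖ₑ ≤ ENNReal.ofReal M + ENNReal.ofReal x * ENNReal.ofReal M := by
        refine add_le_add h2 ((hw.mn_le _).trans ((hw.N_mul _ _).trans ?_))
        gcongr
    _ = _ := by
        rw [← ENNReal.ofReal_mul hx, ← ENNReal.ofReal_add hM (mul_nonneg hx hM)]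
        congr 1
        ring

/-- the quadratic remainder -/
def Dat.Rem (d : Dat m n) (L : Fin n → C(Tor m, ℝ)) (a : Fin n) : C(Tor m, ℝ) :=
  ∑ i, ∑ j, ((aeval (fun s => d.P s + Ml (d.μS s.1) (L s.2)) (d.c i j) - aeval d.P (d.c i j) -
      ∑ s, aeval d.P (pderiv s (d.c i j)) * Ml (d.μS s.1) (L s.2)) * d.Q i j a +
    (aeval (fun s => d.P s + Ml (d.μS s.1) (L s.2)) (d.c i j) - aeval d.P (d.c i j)) *
      Ml (d.μR i j) (L a))

lemma Dat.F_eq (d : Dat m n) (L : Fin n → C(Tor m, ℝ)) (a : Fin n) :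
    d.F L a = ∑ i, ∑ j, (aeval d.P (d.c i j) * Ml (d.μR i j) (L a) +
      ∑ s, (aeval d.P (pderiv s (d.c i j)) * Ml (d.μS s.1) (L s.2)) * d.Q i j a) + d.Rem L a -
      d.D a := by
  unfold Dat.F Dat.Rem
  rw [← Finset.sum_add_distrib]
  congr 1
  refine Finset.sum_congr rfl fun i _ => ?_
  rw [← Finset.sum_add_distrib]
  refine Finset.sum_congr rfl fun j _ => ?_
  have e : d.jet L = fun s => d.P s + Ml (d.μS s.1) (L s.2) := rfl
  rw [e, ← Finset.sum_mul]
  ring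

/-- bound of the remainder -/
lemma Dat.N_Rem (d : Dat m n) {w : (Fin m → ℤ) → ℝ≥0∞} (hw : Wt w) {L : Fin n → C(Tor m, ℝ)}
    {C ρ p : ℝ} (hC : 0 ≤ C) (hρ : 0 ≤ ρ) (hp : 0 ≤ p) (hp1 : p ≤ 1)
    (b1 : ∀ i j, N w (aeval (fun s => d.P s + Ml (d.μS s.1) (L s.2)) (d.c i j) -
      aeval d.P (d.c i j)) ≤ ENNReal.ofReal (C * ρ))
    (b2 : ∀ i j, N w (aeval (fun s => d.P s + Ml (d.μS s.1) (L s.2)) (d.c i j) -
      aeval d.P (d.c i j) - ∑ s, aeval d.P (pderiv s (d.c i j)) * Ml (d.μS s.1) (L s.2)) ≤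
      ENNReal.ofReal (C * ρ ^ 2))
    (bQ : ∀ i j a, N w (d.Q i j a) ≤ ENNReal.ofReal p) (bL : ∀ a, N w (L a) ≤ ENNReal.ofReal ρ)
    (a : Fin n) : N w (d.Rem L a) ≤ ENNReal.ofReal (2 * m ^ 2 * C * ρ ^ 2) := by
  unfold Dat.Rem
  refine (N_sum _ _).trans ?_
  have h1 : ∀ i j, N w ((aeval (fun s => d.P s + Ml (d.μS s.1) (L s.2)) (d.c i j) -
      aeval d.P (d.c i j) - ∑ s, aeval d.P (pderiv s (d.c i j)) * Ml (d.μS s.1) (L s.2)) *
      d.Q i j a + (aeval (fun s => d.P s + Ml (d.μS s.1) (L s.2)) (d.c i j) -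
      aeval d.P (d.c i j)) * Ml (d.μR i j) (L a)) ≤ ENNReal.ofReal (2 * C * ρ ^ 2) := by
    intro i j
    refine (N_add _ _).trans ?_
    calc _ ≤ ENNReal.ofReal (C * ρ ^ 2) * ENNReal.ofReal p +
          ENNReal.ofReal (C * ρ) * ENNReal.ofReal ρ := by
          refine add_le_add ((hw.N_mul _ _).trans ?_) ((hw.N_mul _ _).trans ?_)
          · gcongr
            · exact b2 i j
            · exact bQ i j a
          · gcongr
            · exact b1 i j
            · exact (hw.N_Ml (d.hR i j) _).trans (bL a)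
      _ = ENNReal.ofReal (C * ρ ^ 2 * p + C * ρ * ρ) := by
          rw [← ENNReal.ofReal_mul (by positivity), ← ENNReal.ofReal_mul (by positivity),
            ← ENNReal.ofReal_add (by positivity) (by positivity)]
      _ ≤ _ := by
          refine ENNReal.ofReal_le_ofReal ?_
          have : C * ρ ^ 2 * p ≤ C * ρ ^ 2 * 1 := by gcongr
          nlinarith
  calc _ ≤ ∑ i : Fin m, ∑ j : Fin m, ENNReal.ofReal (2 * C * ρ ^ 2) :=
        Finset.sum_le_sum fun i _ => (N_sum _ _).trans (Finset.sum_le_sum fun j _ => h1 i j)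
    _ = _ := by
        simp only [Finset.sum_const, Finset.card_univ, Fintype.card_fin, nsmul_eq_mul]
        rw [← ENNReal.ofReal_natCast, ← ENNReal.ofReal_mul (by positivity),
          ← ENNReal.ofReal_mul (by positivity)]
        congr 1
        ring

lemma Wt.norm_le_real {w : (Fin m → ℤ) → ℝ≥0∞} (hw : Wt w) {f : C(Tor m, ℝ)} {M : ℝ} (hM : 0 ≤ M)
    (h : N w f ≤ ENNReal.ofReal M) : ‖f‖ ≤ M :=
  (ENNReal.ofReal_le_ofReal_iff hM).1 ((hw.norm_le f).trans h)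

/-- one step of the duality argument -/
lemma weak_step (d : Dat m n) {w : (Fin m → ℤ) → ℝ≥0∞} (hw : Wt w) (hχ : ∀ f, d.χ * f = f)
    (hS : d.μS = muS) (hR : d.μR = muR) {L : Fin n → C(Tor m, ℝ)} (hL : ∀ a, d.Φ L a = L a)
    {C ρ p x W β : ℝ} (hC : 0 ≤ C) (hρ : 0 ≤ ρ) (hp : 0 ≤ p) (hp1 : p ≤ 1) (hx : 0 ≤ x)
    (hβ : 0 ≤ β)
    (c1 : ∀ i j, N w (aeval d.P (d.c i j)) ≤ ENNReal.ofReal (C * p))
    (c2 : ∀ i j s, N w (aeval d.P (pderiv s (d.c i j))) ≤ ENNReal.ofReal C)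
    (b1 : ∀ i j, N w (aeval (fun s => d.P s + Ml (d.μS s.1) (L s.2)) (d.c i j) -
      aeval d.P (d.c i j)) ≤ ENNReal.ofReal (C * ρ))
    (b2 : ∀ i j, N w (aeval (fun s => d.P s + Ml (d.μS s.1) (L s.2)) (d.c i j) -
      aeval d.P (d.c i j) - ∑ s, aeval d.P (pderiv s (d.c i j)) * Ml (d.μS s.1) (L s.2)) ≤
      ENNReal.ofReal (C * ρ ^ 2))
    (bQ : ∀ i j a, N w (d.Q i j a) ≤ ENNReal.ofReal p) (bL : ∀ a, N w (L a) ≤ ENNReal.ofReal ρ)
    (bω : N w d.wm ≤ ENNReal.ofReal x)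
    (hW : ∀ (a : Fin n) (g : C(Tor m, ℝ)) (M : ℝ), 0 ≤ M → N w g ≤ ENNReal.ofReal M →
      |pr (d.D a) g| ≤ W * M)
    (hb : ∀ (a : Fin n) (g : C(Tor m, ℝ)) (M : ℝ), 0 ≤ M → N w g ≤ ENNReal.ofReal M →
      |pr (L a) g| ≤ β * M) (a : Fin n) (g : C(Tor m, ℝ)) (M : ℝ) (hM : 0 ≤ M)
    (hg : N w g ≤ ENNReal.ofReal M) :
    |pr (L a) g| ≤ (W * (1 + x) + (m ^ 2 * (1 + m * n) * C * p * (1 + x)) * β +
      2 * m ^ 2 * C * ρ ^ 2 * (1 + x)) * M := by
  set g' := gcor d.wm g with hg'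
  set M' : ℝ := (1 + x) * M with hM'
  have hM'0 : 0 ≤ M' := by positivity
  have hNg' : N w g' ≤ ENNReal.ofReal M' := N_gcor hw hx hM bω hg
  have fin : ∀ {f : C(Tor m, ℝ)} {r : ℝ}, N w f ≤ ENNReal.ofReal r → N w f ≠ ⊤ := fun h =>
    ne_top_of_le_ne_top ENNReal.ofReal_ne_top h
  -- pass to `F`
  have e1 : pr (L a) g = pr (d.F L a) g' := by
    have e2 : L a = d.F L a - mn (d.F L a) • d.wm := by
      conv_lhs => rw [← hL a]
      unfold Dat.Φ
      rw [hχ]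
    rw [hg']
    unfold gcor
    rw [pr_sub_right, pr_const]
    conv_lhs => rw [e2, pr_sub_left]
    congr 1
    unfold pr
    rw [smul_mul_assoc, mn_smul]
    ring
  rw [e1, Dat.F_eq, pr_sub_left, pr_add_left, pr_sum_left]
  -- the linear terms
  have t1 : ∀ i j, pr (aeval d.P (d.c i j) * Ml (d.μR i j) (L a)) g' =
      pr (L a) (Ml (muR i j) (aeval d.P (d.c i j) * g')) := by
    intro i j
    rw [pr_mul, hR]
    exact hw.pr_R (fin (bL a)) (ne_top_of_le_ne_top (ENNReal.mul_ne_top (fin (c1 i j)) (fin hNg'))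
      (hw.N_mul _ _)) i j
  have t2 : ∀ i j (s : Fin m × Fin n), pr ((aeval d.P (pderiv s (d.c i j)) *
      Ml (d.μS s.1) (L s.2)) * d.Q i j a) g' =
      -pr (L s.2) (Ml (muS s.1) (aeval d.P (pderiv s (d.c i j)) * (d.Q i j a * g'))) := by
    intro i j s
    have e3 : (aeval d.P (pderiv s (d.c i j)) * Ml (d.μS s.1) (L s.2)) * d.Q i j a =
        (aeval d.P (pderiv s (d.c i j)) * d.Q i j a) * Ml (d.μS s.1) (L s.2) := by ring
    rw [e3, pr_mul, hS, mul_assoc]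
    refine hw.pr_S (fin (bL s.2)) ?_ s.1
    refine ne_top_of_le_ne_top (ENNReal.mul_ne_top (fin (c2 i j s)) ?_) (hw.N_mul _ _)
    exact ne_top_of_le_ne_top (ENNReal.mul_ne_top (fin (bQ i j a)) (fin hNg')) (hw.N_mul _ _)
  have n1 : ∀ i j, |pr (L a) (Ml (muR i j) (aeval d.P (d.c i j) * g'))| ≤ β * (C * p * M') := by
    intro i j
    refine hb a _ _ (by positivity) ?_
    refine (hw.N_Ml (norm_muR_le i j) _).trans ((hw.N_mul _ _).trans ?_)
    rw [ENNReal.ofReal_mul (by positivity)]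
    gcongr
    exact c1 i j
  have n2 : ∀ i j (s : Fin m × Fin n),
      |-pr (L s.2) (Ml (muS s.1) (aeval d.P (pderiv s (d.c i j)) * (d.Q i j a * g')))| ≤
        β * (C * p * M') := by
    intro i j s
    rw [abs_neg]
    refine hb s.2 _ _ (by positivity) ?_
    refine (hw.N_Ml (norm_muS_le s.1) _).trans ((hw.N_mul _ _).trans ?_)
    rw [mul_assoc, ENNReal.ofReal_mul hC, ENNReal.ofReal_mul hp]
    gcongr
    · exact c2 i j s
    · refine (hw.N_mul _ _).trans ?_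
      gcongr
      exact bQ i j a
  have n3 : |∑ i, pr (∑ j, (aeval d.P (d.c i j) * Ml (d.μR i j) (L a) +
      ∑ s, (aeval d.P (pderiv s (d.c i j)) * Ml (d.μS s.1) (L s.2)) * d.Q i j a)) g'| ≤
      m * (m * (β * (C * p * M') + (m * n) * (β * (C * p * M')))) := by
    refine (Finset.abs_sum_le_sum_abs _ _).trans ?_
    refine (Finset.sum_le_card_nsmul _ _ (m * (β * (C * p * M') + (m * n) * (β * (C * p * M'))))
      fun i _ => ?_).trans (le_of_eq (by simp))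
    rw [pr_sum_left]
    refine (Finset.abs_sum_le_sum_abs _ _).trans ?_
    refine (Finset.sum_le_card_nsmul _ _ (β * (C * p * M') + (m * n) * (β * (C * p * M')))
      fun j _ => ?_).trans (le_of_eq (by simp; ring))
    rw [pr_add_left, t1, pr_sum_left, Finset.sum_congr rfl fun s _ => t2 i j s]
    refine (abs_add_le _ _).trans (add_le_add (n1 i j) ?_)
    refine (Finset.abs_sum_le_sum_abs _ _).trans ?_
    refine (Finset.sum_le_card_nsmul _ _ _ fun s _ => n2 i j s).trans (le_of_eq (by simp))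
  have n4 : |pr (d.Rem L a) g'| ≤ (2 * m ^ 2 * C * ρ ^ 2) * M' := by
    refine (abs_pr_le _ _).trans ?_
    have h1 := hw.norm_le_real (by positivity) (d.N_Rem hw hC hρ hp hp1 b1 b2 bQ bL a)
    have h2 := hw.norm_le_real hM'0 hNg'
    gcongr
  have n5 := hW a g' M' hM'0 hNg'
  calc _ ≤ |∑ i, pr (∑ j, (aeval d.P (d.c i j) * Ml (d.μR i j) (L a) +
      ∑ s, (aeval d.P (pderiv s (d.c i j)) * Ml (d.μS s.1) (L s.2)) * d.Q i j a)) g'| +
        |pr (d.Rem L a) g'| + |pr (d.D a) g'| :=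
        (abs_sub _ _).trans (add_le_add (abs_add_le _ _) le_rfl)
    _ ≤ m * (m * (β * (C * p * M') + (m * n) * (β * (C * p * M')))) +
        (2 * m ^ 2 * C * ρ ^ 2) * M' + W * M' := add_le_add (add_le_add n3 n4) n5
    _ = _ := by
        rw [hM']
        ring

/-- **the duality argument** -/
lemma weak_core (d : Dat m n) {w : (Fin m → ℤ) → ℝ≥0∞} (hw : Wt w) (hχ : ∀ f, d.χ * f = f)
    (hS : d.μS = muS) (hR : d.μR = muR) {L : Fin n → C(Tor m, ℝ)} (hL : ∀ a, d.Φ L a = L a)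
    {C ρ p x W : ℝ} (hC : 0 ≤ C) (hρ : 0 ≤ ρ) (hp : 0 ≤ p) (hp1 : p ≤ 1) (hx : 0 ≤ x)
    (hW0 : 0 ≤ W) (hsm : m ^ 2 * (1 + m * n) * C * p * (1 + x) ≤ 1 / 2)
    (c1 : ∀ i j, N w (aeval d.P (d.c i j)) ≤ ENNReal.ofReal (C * p))
    (c2 : ∀ i j s, N w (aeval d.P (pderiv s (d.c i j))) ≤ ENNReal.ofReal C)
    (b1 : ∀ i j, N w (aeval (fun s => d.P s + Ml (d.μS s.1) (L s.2)) (d.c i j) -
      aeval d.P (d.c i j)) ≤ ENNReal.ofReal (C * ρ))
    (b2 : ∀ i j, N w (aeval (fun s => d.P s + Ml (d.μS s.1) (L s.2)) (d.c i j) -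
      aeval d.P (d.c i j) - ∑ s, aeval d.P (pderiv s (d.c i j)) * Ml (d.μS s.1) (L s.2)) ≤
      ENNReal.ofReal (C * ρ ^ 2))
    (bQ : ∀ i j a, N w (d.Q i j a) ≤ ENNReal.ofReal p) (bL : ∀ a, N w (L a) ≤ ENNReal.ofReal ρ)
    (bω : N w d.wm ≤ ENNReal.ofReal x)
    (hW : ∀ (a : Fin n) (g : C(Tor m, ℝ)) (M : ℝ), 0 ≤ M → N w g ≤ ENNReal.ofReal M →
      |pr (d.D a) g| ≤ W * M) (a : Fin n) (g : C(Tor m, ℝ)) (M : ℝ) (hM : 0 ≤ M)
    (hg : N w g ≤ ENNReal.ofReal M) :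
    |pr (L a) g| ≤ 2 * (1 + x) * (W + 2 * m ^ 2 * C * ρ ^ 2) * M := by
  set K : ℝ := (1 + x) * (W + 2 * m ^ 2 * C * ρ ^ 2) with hK
  have hK0 : 0 ≤ K := by positivity
  have key : ∀ j : ℕ, ∀ (a : Fin n) (g : C(Tor m, ℝ)) (M : ℝ), 0 ≤ M →
      N w g ≤ ENNReal.ofReal M → |pr (L a) g| ≤ (2 * K + (1 / 2) ^ j * ρ) * M := by
    intro j
    induction j with
    | zero =>
      intro a g M hM hg
      refine (abs_pr_le _ _).trans ?_
      have h1 := hw.norm_le_real hρ (bL a)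
      have h2 := hw.norm_le_real hM hg
      rw [pow_zero, one_mul]
      calc ‖L a‖ * ‖g‖ ≤ ρ * M := by gcongr
        _ ≤ (2 * K + ρ) * M := by gcongr; linarith
    | succ j ih =>
      intro a g M hM hg
      refine (weak_step d hw hχ hS hR hL hC hρ hp hp1 hx (β := 2 * K + (1 / 2) ^ j * ρ)
        (by positivity) c1 c2 b1 b2 bQ bL bω hW ih a g M hM hg).trans ?_
      have h3 : (m ^ 2 * (1 + m * n) * C * p * (1 + x)) * (2 * K + (1 / 2) ^ j * ρ) ≤
          1 / 2 * (2 * K + (1 / 2) ^ j * ρ) := by gcongr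
      have h4 : W * (1 + x) + (m ^ 2 * (1 + m * n) * C * p * (1 + x)) * (2 * K + (1 / 2) ^ j * ρ) +
          2 * m ^ 2 * C * ρ ^ 2 * (1 + x) ≤ 2 * K + (1 / 2) ^ (j + 1) * ρ := by
        calc _ ≤ W * (1 + x) + 1 / 2 * (2 * K + (1 / 2) ^ j * ρ) +
              2 * m ^ 2 * C * ρ ^ 2 * (1 + x) := by gcongr
          _ = _ := by
            rw [hK, pow_succ]
            ring
      gcongr
  have hlim : Tendsto (fun j : ℕ => (2 * K + (1 / 2 : ℝ) ^ j * ρ) * M) atTop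
      (𝓝 ((2 * K + 0 * ρ) * M)) := by
    refine Tendsto.mul_const _ (Tendsto.const_add _ (Tendsto.mul_const _ ?_))
    exact tendsto_pow_atTop_nhds_zero_of_lt_one (by norm_num) (by norm_num)
  have h5 := ge_of_tendsto' hlim fun j => key j a g M hM hg
  refine h5.trans (le_of_eq ?_)
  rw [hK]
  ring

end

end Vale.Agent.P214.REF
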